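import Vale.Agent.P159.H43.Ycan
import Vale.Agent.P159.H864.Cel2

/-!
P159 (helper43), module YCAN on the torus with cells of side `l`.
-/

open Vale.Agent.P159.H896 (WM om)
open Vale.Agent.P159.H37
open Vale.Agent.P159.H552 (uq)
open Vale.Agent.P159.H864 (CT cl up tra cl_tra tinv_wT)
open Vale.Agent.P159.TM.SpecC (wT)
open Vale.Agent.P159.TM.Spec (V)

namespace Vale.Agent.P159.H43

noncomputable section

variable {N l : ℕ} [NeZero N] [NeZero (N / l)]

/-- cell translations act transitively -/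
theorem cell_trans (hl : l ∣ N) (b : ℝ) {M : Matrix (V N) (V N) ℝ} (hM : CT l M)
    (x y : V (N / l)) : ∃ (e : V N ≃ V N) (e' : V (N / l) ≃ V (N / l)), e' x = y ∧
      (∀ v, (cl (e v) : V (N / l)) = e' (cl v)) ∧
      (∀ h : V N → ℤ, wT b N (fun v => h (e v)) = wT b N h) ∧
      ∀ x y, M (e x) (e y) = M x y := by
  refine ⟨tra (up (y - x)), tra (y - x), ?_, fun v => cl_tra hl _ v, fun h => ?_, fun a c => ?_⟩
  · rw [H864.tra_apply]; abel
  · exact tinv_wT b (up (y - x)) h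
  · exact hM.tr (y - x) a c

/-- **`W₁(0) = (N/l)² u_x(0)`** -/
theorem W1_zero_tor (hl : l ∣ N) {b : ℝ} {M : Matrix (V N) (V N) ℝ} (h : WM (wT b N) M)
    (hM : CT l M) (x : V (N / l)) :
    Wq (wT b N) M 1 0 = (((N / l : ℕ) : ℂ) ^ 2) * uq (wT b N) M (cl : V N → V (N / l)) x 0 := by
  have h1 := W1_zero (cl := (cl : V N → V (N / l))) h (cell_trans hl b hM) x
  rw [h1]
  congr 1
  have h2 : Fintype.card (V (N / l)) = (N / l) ^ 2 := by
    show Fintype.card (ZMod (N / l) × ZMod (N / l)) = _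
    rw [Fintype.card_prod, ZMod.card]
    ring
  rw [h2]
  push_cast
  ring

/-- **the activity on the torus** -/
theorem om1_tor (hl : l ∣ N) {b : ℝ} {M : Matrix (V N) (V N) ℝ} (h : WM (wT b N) M)
    (hM : CT l M) (h1 : omT (wT b N) M ≤ 1 / 2) (x : V (N / l)) :
    |om (wT b N) M 1 - ((N / l : ℕ) : ℝ) ^ 2 *
        (uq (wT b N) M (cl : V N → V (N / l)) x 0).re| ≤
      2 * omT (wT b N) M * ch2 (wT b N) M 0 + 24 * omT (wT b N) M ^ 3 := by
  have h2 := om1_uq (cl := (cl : V N → V (N / l))) h h1 (cell_trans hl b hM) x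
  have h3 : ((Fintype.card (V (N / l)) : ℕ) : ℝ) = ((N / l : ℕ) : ℝ) ^ 2 := by
    have h4 : Fintype.card (V (N / l)) = (N / l) ^ 2 := by
      show Fintype.card (ZMod (N / l) × ZMod (N / l)) = _
      rw [Fintype.card_prod, ZMod.card]
      ring
    rw [h4]
    push_cast
    ring
  rwa [h3] at h2

end

end Vale.Agent.P159.H43
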