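import Vale.Agent.P159.H43.Osc
import Vale.Agent.P159.H896.Flow
import Vale.Agent.P159.H896.Chm

/-!
P159 (helper43), module NUM: the scalar numbers of the charged part.
`om w M q = Φ_q(0) ≥ |Φ_q(F)|`; pointwise Fourier series in the constant; total oscillation
`omT = Z(0)/Z⁰(0) - 1 = 2 om_1 + omH`, `omH = Σ_{|q| ≥ 2} om_q`; the harmonics `|q| ≥ 2` of
`log Z` at a point.
-/

open MeasureTheory Complex Set
open scoped ComplexConjugate
open Vale.Agent.P159.H896 (ph continuous_ph norm_ph WM om Ph norm_Ph_le Ph_zero om_nonneg)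
open Vale.Agent.P159.TM.H104 (EM)
open Vale.Agent.P159.H37
open Vale.Agent.P159.H145 (LM L0 cs OscZ)

namespace Vale.Agent.P159.H43

noncomputable section

/-! ### pointwise Fourier series of a smooth periodic function -/

lemma ph_zero_right (q : ℤ) : ph q 0 = 1 := by
  unfold ph; simp

lemma ph_one_right (q : ℤ) : ph q 1 = 1 := H896.ph_one q

/-- coefficients of the derivative -/
theorem hat_deriv {f f' : ℝ → ℝ} (hd : ∀ c, HasDerivAt f (f' c) c) (hf' : Continuous f')
    (hp : f 1 = f 0) (q : ℤ) : hat f' q = (2 * Real.pi * q * I) * hat f q := by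
  have hf : Continuous f := continuous_iff_continuousAt.2 fun c => (hd c).continuousAt
  have hph : ∀ c : ℝ, HasDerivAt (ph q) (-(2 * Real.pi * q * I) * ph q c) c := by
    intro c
    have h1 : HasDerivAt (fun u : ℝ => -(2 * Real.pi * q * u) * I) (-(2 * Real.pi * q * 1) * I) c := by
      have h2 : HasDerivAt (fun u : ℝ => (u : ℂ)) 1 c := Complex.ofRealCLM.hasDerivAt
      exact ((h2.const_mul (2 * (Real.pi : ℂ) * q)).neg).mul_const I
    have h3 := h1.cexp
    refine h3.congr_deriv ?_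
    unfold ph
    ring
  have h1 : ∀ c ∈ uIcc (0 : ℝ) 1, HasDerivAt (fun c => (f c : ℂ) * ph q c)
      ((f' c : ℂ) * ph q c + (f c : ℂ) * (-(2 * Real.pi * q * I) * ph q c)) c := by
    intro c _
    exact ((hd c).ofReal_comp).mul (hph c)
  have h2 := intervalIntegral.integral_eq_sub_of_hasDerivAt h1
    (Continuous.intervalIntegrable (by have := continuous_ph q; fun_prop) _ _)
  rw [ph_one_right, ph_zero_right, hp, sub_self, intervalIntegral.integral_add] at h2
  · have h3 : ∫ c in (0 : ℝ)..1, (f c : ℂ) * (-(2 * Real.pi * q * I) * ph q c) =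
        -(2 * Real.pi * q * I) * hat f q := by
      unfold hat
      rw [← intervalIntegral.integral_const_mul]
      refine intervalIntegral.integral_congr fun c _ => ?_
      show (f c : ℂ) * (-(2 * Real.pi * q * I) * ph q c) = -(2 * Real.pi * q * I) * ((f c : ℂ) * ph q c)
      ring
    rw [h3] at h2
    have h4 : hat f' q = ∫ c in (0 : ℝ)..1, (f' c : ℂ) * ph q c := rfl
    rw [← h4] at h2
    linear_combination h2
  · exact Continuous.intervalIntegrable (by have := continuous_ph q; fun_prop) _ _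
  · exact Continuous.intervalIntegrable (by have := continuous_ph q; fun_prop) _ _

/-- summability of the coefficients of a `C¹` periodic function -/
theorem summable_hat {f f' : ℝ → ℝ} (hd : ∀ c, HasDerivAt f (f' c) c) (hf' : Continuous f')
    (hp : f 1 = f 0) : Summable fun q : ℤ => ‖hat f q‖ := by
  have h1 := (hasSum_hat hf').summable
  have h2 : Summable fun q : ℤ => 1 / (q : ℝ) ^ 2 := Real.summable_one_div_int_pow.2 (by norm_num)
  have h3 : Summable fun q : ℤ => if q = 0 then ‖hat f 0‖ else 0 := by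
    refine summable_of_ne_finset_zero (s := {0}) fun q hq => ?_
    rw [if_neg (by simpa using hq)]
  refine Summable.of_nonneg_of_le (fun q => norm_nonneg _) (fun q => ?_) ((h1.add h2).add h3)
  have hd' := hat_deriv hd hf' hp q
  by_cases hq : q = 0
  · subst hq
    rw [if_pos rfl]
    have : 0 ≤ ‖hat f' 0‖ ^ 2 + 1 / ((0 : ℤ) : ℝ) ^ 2 := by positivity
    linarith
  · rw [if_neg hq, add_zero]
    have hq0 : (0 : ℝ) < |(q : ℝ)| := abs_pos.2 (by exact_mod_cast hq)
    have h5 : ‖hat f' q‖ = 2 * Real.pi * |(q : ℝ)| * ‖hat f q‖ := by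
      rw [hd', norm_mul]
      congr 1
      simp only [norm_mul, Complex.norm_ofNat, Complex.norm_real, Real.norm_eq_abs, norm_I, mul_one,
        abs_of_pos Real.pi_pos]
      congr 1
      rw [Complex.norm_intCast]
    have h6 : |(q : ℝ)| * ‖hat f q‖ ≤ ‖hat f' q‖ := by
      rw [h5]
      have := Real.pi_gt_three
      have h7 : 0 ≤ |(q : ℝ)| * ‖hat f q‖ := by positivity
      nlinarith
    have h7 : ‖hat f q‖ ≤ ‖hat f' q‖ * (1 / |(q : ℝ)|) := by
      rw [mul_one_div, le_div_iff₀ hq0]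
      linarith
    have h8 : 1 / (q : ℝ) ^ 2 = (1 / |(q : ℝ)|) ^ 2 := by
      rw [div_pow, one_pow, sq_abs]
    rw [h8]
    nlinarith [sq_nonneg (‖hat f' q‖ - 1 / |(q : ℝ)|), norm_nonneg (hat f' q),
      (by positivity : (0:ℝ) ≤ 1 / |(q : ℝ)|)]

/-- the Fourier series at `0` -/
theorem hasSum_pt {f f' : ℝ → ℝ} (hd : ∀ c, HasDerivAt f (f' c) c) (hf' : Continuous f')
    (hp : f 1 = f 0) : HasSum (fun q : ℤ => hat f q) (f 0 : ℂ) := by
  have hf : Continuous f := continuous_iff_continuousAt.2 fun c => (hd c).continuousAt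
  have : Fact (0 < (1 : ℝ)) := ⟨one_pos⟩
  set F : C(AddCircle (1 : ℝ), ℂ) := ⟨AddCircle.liftIco 1 0 (fun u => (f u : ℂ)),
    AddCircle.liftIco_continuous (by simp [hp]) (by fun_prop)⟩ with hF
  have h2 : ∀ q : ℤ, fourierCoeff F q = hat f q := by
    intro q
    rw [fourierCoeff_eq_intervalIntegral F q 0]
    unfold hat
    simp only [zero_add, div_one, one_smul]
    refine intervalIntegral.integral_congr_Ioo_of_le zero_le_one fun u hu => ?_
    have h3 : F (u : AddCircle (1 : ℝ)) = (f u : ℂ) := by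
      show AddCircle.liftIco 1 0 (fun u => (f u : ℂ)) (u : AddCircle (1 : ℝ)) = _
      rw [AddCircle.liftIco_coe_apply (by rw [zero_add]; exact ⟨hu.1.le, hu.2⟩)]
    rw [h3, fourier_coe_apply, smul_eq_mul, mul_comm]
    unfold ph
    congr 2
    push_cast
    ring
  have hs : Summable (fourierCoeff F) := by
    have h5 : (fourierCoeff F) = fun q => hat f q := funext h2
    rw [h5]
    exact (summable_hat hd hf' hp).of_norm
  have h6 := has_pointwise_sum_fourier_series_of_summable hs ((0 : ℝ) : AddCircle (1 : ℝ))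
  have h7 : F ((0 : ℝ) : AddCircle (1 : ℝ)) = (f 0 : ℂ) := by
    show AddCircle.liftIco 1 0 (fun u => (f u : ℂ)) ((0 : ℝ) : AddCircle (1 : ℝ)) = _
    rw [AddCircle.liftIco_coe_apply (by simp)]
  rw [h7] at h6
  have h8 : (fun q : ℤ => fourierCoeff F q • fourier q ((0 : ℝ) : AddCircle (1 : ℝ))) =
      fun q => hat f q := by
    funext q
    rw [h2, fourier_coe_apply]
    simp
  rwa [h8] at h6

/-! ### letters of `Spec0` -/

section letters

variable {V : Type} [Fintype V] [DecidableEq V] {w : (V → ℤ) → ℝ} {M : Matrix V V ℝ}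

omit [DecidableEq V] in
theorem norm_Phq_om (h : WM w M) (q : ℤ) (F : V → ℝ) : ‖Phq w M q F‖ ≤ om w M q :=
  norm_Ph_le h q F

omit [DecidableEq V] in
theorem Phq_zero (h : WM w M) (q : ℤ) : Phq w M q 0 = (om w M q : ℂ) := Ph_zero h q

omit [Fintype V] [DecidableEq V] in
lemma cs_one_smul (F : V → ℝ) (c : ℝ) : cs F c = F + c • (1 : V → ℝ) := by
  funext x
  simp [cs]

omit [DecidableEq V] in
/-- `Z(F + c)/Z⁰(F)` as a function of the constant is differentiable -/
lemma hasDerivAt_exp_el (h : WM w M) (F : V → ℝ) (c : ℝ) :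
    HasDerivAt (fun c => Real.exp (el w M F c)) (Real.exp (el w M F c) * dL w M (cs F c) 1) c := by
  have h1 := hasDerivAt_LM h.sym h.em F 1 c
  have e : (fun r : ℝ => LM w M (F + r • (1 : V → ℝ))) = fun r => LM w M (cs F r) := by
    funext r; rw [cs_one_smul]
  rw [e, ← cs_one_smul] at h1
  have h2 : HasDerivAt (fun c => el w M F c) (dL w M (cs F c) 1) c := by
    unfold el
    exact h1.sub_const _
  exact h2.exp

omit [DecidableEq V] in
lemma continuous_dexp_el (h : WM w M) (F : V → ℝ) :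
    Continuous fun c => Real.exp (el w M F c) * dL w M (cs F c) 1 :=
  (Real.continuous_exp.comp (continuous_el h.sym h.em F)).mul
    ((continuous_dL h.em 1).comp (H145.continuous_cs F))

omit [DecidableEq V] in
lemma exp_el_one (h : WM w M) (F : V → ℝ) :
    Real.exp (el w M F 1) = Real.exp (el w M F 0) := by
  rw [exp_el h.sym h.em, exp_el h.sym h.em, H145.ZM_per h.per, H145.cs_zero]

omit [DecidableEq V] in
/-- summability of the charges -/
theorem summable_Phq (h : WM w M) (F : V → ℝ) : Summable fun q : ℤ => ‖Phq w M q F‖ := by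
  have h1 := summable_hat (hasDerivAt_exp_el h F) (continuous_dexp_el h F) (exp_el_one h F)
  simp only [hat_exp_el h.sym h.em] at h1
  exact h1

omit [DecidableEq V] in
/-- **charge expansion**: `Z(F)/Z⁰(F) = Σ_q Φ_q(F)` -/
theorem hasSum_Phq (h : WM w M) (F : V → ℝ) :
    HasSum (fun q : ℤ => Phq w M q F) ((ZM w M F / Zn w M F : ℝ) : ℂ) := by
  have h1 := hasSum_pt (hasDerivAt_exp_el h F) (continuous_dexp_el h F) (exp_el_one h F)
  simp only [hat_exp_el h.sym h.em] at h1
  rw [exp_el h.sym h.em, H145.cs_zero] at h1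
  exact h1

omit [DecidableEq V] in
theorem summable_om (h : WM w M) : Summable fun q : ℤ => om w M q := by
  refine (summable_Phq h 0).congr fun q => ?_
  rw [Phq_zero h, Complex.norm_real, Real.norm_of_nonneg (om_nonneg h q)]

/-- `Σ_{|q| ≥ 2} om_q` -/
def omH (w : (V → ℤ) → ℝ) (M : Matrix V V ℝ) : ℝ :=
  ∑' q : ℤ, if q = 0 ∨ q = 1 ∨ q = -1 then 0 else om w M q

/-- `Z(0)/Z⁰(0) - 1` -/
def omT (w : (V → ℤ) → ℝ) (M : Matrix V V ℝ) : ℝ := ZM w M 0 / Zn w M 0 - 1

omit [DecidableEq V] in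
lemma summable_omH (h : WM w M) :
    Summable fun q : ℤ => if q = 0 ∨ q = 1 ∨ q = -1 then 0 else om w M q := by
  refine Summable.of_nonneg_of_le (fun q => ?_) (fun q => ?_) (summable_om h)
  · split_ifs
    · exact le_rfl
    · exact om_nonneg h q
  · split_ifs
    · exact om_nonneg h q
    · exact le_rfl

omit [DecidableEq V] in
lemma omH_nonneg (h : WM w M) : 0 ≤ omH w M := by
  refine tsum_nonneg fun q => ?_
  split_ifs
  · exact le_rfl
  · exact om_nonneg h q

omit [DecidableEq V] in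
lemma om_neg (h : WM w M) (q : ℤ) : om w M (-q) = om w M q := by
  have h1 := hat_neg (fun c => Real.exp (el w M 0 c)) q
  rw [hat_exp_el h.sym h.em, hat_exp_el h.sym h.em, Phq_zero h, Phq_zero h,
    Complex.conj_ofReal] at h1
  exact_mod_cast h1

omit [DecidableEq V] in
lemma om_zero (h : WM w M) : om w M 0 = 1 := by
  have h1 := Phq_zero h 0
  unfold Phq at h1
  rw [H896.Zq_zero_eq, div_self (by exact_mod_cast (H896.Zn_pos h 0).ne')] at h1
  exact_mod_cast h1.symm

omit [Fintype V] [DecidableEq V] in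
/-- splitting off the charges `0, ±1` -/
lemma hasSum_split {f : ℤ → ℂ} {s : ℂ} (hf : HasSum f s) :
    HasSum (fun q : ℤ => if q = 0 ∨ q = 1 ∨ q = -1 then 0 else f q)
      (s - (f 0 + f 1 + f (-1))) := by
  have h4 : HasSum (fun q : ℤ => if q ∈ ({0, 1, -1} : Finset ℤ) then f q else 0)
      (∑ q ∈ ({0, 1, -1} : Finset ℤ), f q) := by
    have h5 : HasSum (fun q : ℤ => if q ∈ ({0, 1, -1} : Finset ℤ) then f q else 0)
        (∑ q ∈ ({0, 1, -1} : Finset ℤ),
          if q ∈ ({0, 1, -1} : Finset ℤ) then f q else 0) :=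
      hasSum_sum_of_ne_finset_zero fun q hq => if_neg hq
    rwa [Finset.sum_congr rfl fun q hq => if_pos hq] at h5
  have h6 : ∑ q ∈ ({0, 1, -1} : Finset ℤ), f q = f 0 + f 1 + f (-1) := by
    rw [Finset.sum_insert (by decide), Finset.sum_insert (by decide), Finset.sum_singleton]
    ring
  rw [h6] at h4
  have h7 := hf.sub h4
  have e : (fun q : ℤ => f q - if q ∈ ({0, 1, -1} : Finset ℤ) then f q else 0) =
      fun q : ℤ => if q = 0 ∨ q = 1 ∨ q = -1 then 0 else f q := by
    funext q
    by_cases hq : q = 0 ∨ q = 1 ∨ q = -1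
    · rw [if_pos hq, if_pos (by simpa using hq), sub_self]
    · rw [if_neg hq, if_neg (by simpa using hq), sub_zero]
  rwa [e] at h7

omit [DecidableEq V] in
lemma Phq_zero_left (h : WM w M) (F : V → ℝ) : Phq w M 0 F = 1 := by
  unfold Phq
  rw [H896.Zq_zero_eq, div_self (by exact_mod_cast (H896.Zn_pos h F).ne')]

omit [DecidableEq V] in
lemma Phq_neg (h : WM w M) (q : ℤ) (F : V → ℝ) : Phq w M (-q) F = conj (Phq w M q F) := by
  have h1 := hat_neg (fun c => Real.exp (el w M F c)) q
  rwa [hat_exp_el h.sym h.em, hat_exp_el h.sym h.em] at h1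

omit [DecidableEq V] in
/-- **the charges `|q| ≥ 2` of `Z/Z⁰` at a point** -/
theorem Z_sub_le (h : WM w M) (F : V → ℝ) :
    |ZM w M F / Zn w M F - 1 - 2 * (Phq w M 1 F).re| ≤ omH w M := by
  have h1 := hasSum_split (hasSum_Phq h F)
  have h2 : ‖((ZM w M F / Zn w M F : ℝ) : ℂ) - (Phq w M 0 F + Phq w M 1 F + Phq w M (-1) F)‖ ≤
      omH w M := by
    rw [← h1.tsum_eq]
    refine tsum_of_norm_bounded (summable_omH h).hasSum fun q => ?_
    split_ifs
    · simp
    · exact norm_Phq_om h q F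
  have h3 : ((ZM w M F / Zn w M F : ℝ) : ℂ) - (Phq w M 0 F + Phq w M 1 F + Phq w M (-1) F) =
      ((ZM w M F / Zn w M F - 1 - 2 * (Phq w M 1 F).re : ℝ) : ℂ) := by
    rw [Phq_zero_left h, Phq_neg h]
    have := Complex.add_conj (Phq w M 1 F)
    push_cast at this ⊢
    linear_combination -this
  rw [h3, Complex.norm_real, Real.norm_eq_abs] at h2
  exact h2

omit [DecidableEq V] in
/-- `Z(0)/Z⁰(0) - 1 = 2 om_1 + Σ_{|q| ≥ 2} om_q` -/
theorem omT_eq (h : WM w M) : omT w M = 2 * om w M 1 + omH w M := by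
  have h1 := hasSum_split (hasSum_Phq h 0)
  have h2 : HasSum (fun q : ℤ => ((if q = 0 ∨ q = 1 ∨ q = -1 then 0 else om w M q : ℝ) : ℂ))
      ((omH w M : ℝ) : ℂ) := Complex.hasSum_ofReal.2 (summable_omH h).hasSum
  have e : (fun q : ℤ => if q = 0 ∨ q = 1 ∨ q = -1 then 0 else Phq w M q 0) =
      fun q : ℤ => ((if q = 0 ∨ q = 1 ∨ q = -1 then 0 else om w M q : ℝ) : ℂ) := by
    funext q
    split_ifs
    · simp
    · exact Phq_zero h q
  rw [e] at h1
  have h3 := h1.unique h2
  rw [Phq_zero_left h, Phq_neg h, Phq_zero h 1, Complex.conj_ofReal] at h3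
  have h4 : ((ZM w M 0 / Zn w M 0 - 1 : ℝ) : ℂ) = ((2 * om w M 1 + omH w M : ℝ) : ℂ) := by
    push_cast at h3 ⊢
    linear_combination h3
  exact_mod_cast h4

omit [DecidableEq V] in
/-- **oscillation in every background from the number at zero background** -/
theorem oscZ_omT (h : WM w M) : OscZ w M (omT w M) := by
  have key : ∀ F : V → ℝ, |ZM w M F - Zn w M F| ≤ omT w M * Zn w M F := by
    intro F
    have h0 := H896.Zn_pos h F
    have h1 := Z_sub_le h F
    have h2 : |2 * (Phq w M 1 F).re| ≤ 2 * om w M 1 := by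
      rw [abs_mul, abs_of_pos (by norm_num : (0 : ℝ) < 2)]
      exact mul_le_mul_of_nonneg_left ((Complex.abs_re_le_norm _).trans (norm_Phq_om h 1 F))
        (by norm_num)
    have h3 : |ZM w M F / Zn w M F - 1| ≤ omT w M := by
      rw [omT_eq h]
      have h4 := abs_add_le (ZM w M F / Zn w M F - 1 - 2 * (Phq w M 1 F).re)
        (2 * (Phq w M 1 F).re)
      rw [sub_add_cancel] at h4
      linarith
    have h5 : ZM w M F - Zn w M F = (ZM w M F / Zn w M F - 1) * Zn w M F := by
      field_simp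
    rw [h5, abs_mul, abs_of_pos h0]
    exact mul_le_mul_of_nonneg_right h3 h0.le
  intro F c _
  have h1 := key (cs F c)
  rwa [H145.Zn_cs h.per] at h1

omit [DecidableEq V] in
lemma omT_nonneg (h : WM w M) : 0 ≤ omT w M := by
  rw [omT_eq h]
  have := om_nonneg h 1
  have := omH_nonneg h
  linarith

omit [DecidableEq V] in
/-- **the harmonics `|q| ≥ 2` of `log Z` at a point** (constant `c = 0`), total functional:
`|log Z(F) - log Z⁰(F) - 2 Re Φ₁(F)| ≤ Σ_{|q| ≥ 2} om_q + 2 omT²` -/
theorem el_sub_le (h : WM w M) (h1 : omT w M ≤ 1 / 2) (F : V → ℝ) :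
    |LM w M F - L0 w M F - 2 * (Phq w M 1 F).re| ≤ omH w M + 2 * omT w M ^ 2 := by
  have h0 := H896.Zn_pos h F
  have hZ := ZM_pos h.sym h.em F
  set x := ZM w M F / Zn w M F - 1 with hx
  have h2 : |x| ≤ omT w M := by
    have h3 := oscZ_omT h F 0 ⟨le_rfl, zero_le_one⟩
    rw [H145.cs_zero] at h3
    have h4 : x = (ZM w M F - Zn w M F) / Zn w M F := by rw [hx]; field_simp
    rw [h4, abs_div, abs_of_pos h0, div_le_iff₀ h0]
    exact h3
  have h3 : LM w M F - L0 w M F = Real.log (1 + x) := by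
    unfold LM L0
    rw [← Real.log_div hZ.ne' h0.ne']
    congr 1
    rw [hx]; ring
  have hx1 : |x| ≤ 1 / 2 := h2.trans h1
  have h5 := H145.log_one_add_ge hx1
  have h6 : Real.log (1 + x) ≤ x := by
    have := Real.log_le_sub_one_of_pos (x := 1 + x) (by have := abs_le.1 hx1; linarith)
    linarith
  have h7 : |Real.log (1 + x) - x| ≤ 2 * x ^ 2 := by
    rw [abs_le]
    constructor
    · linarith
    · have := sq_nonneg x
      linarith
  have h8 := Z_sub_le h F
  rw [← hx] at h8
  have h9 : x ^ 2 ≤ omT w M ^ 2 := by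
    rw [← sq_abs x]
    exact pow_le_pow_left₀ (abs_nonneg _) h2 2
  have h10 := abs_add_le (Real.log (1 + x) - x) (x - 2 * (Phq w M 1 F).re)
  rw [h3]
  have h11 : Real.log (1 + x) - x + (x - 2 * (Phq w M 1 F).re) =
      Real.log (1 + x) - 2 * (Phq w M 1 F).re := by ring
  rw [h11] at h10
  linarith

end letters

end

end Vale.Agent.P159.H43
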