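import Vale.Agent.P159.H43.Num

/-!
P159 (helper43), module NUM, second part: bounds of the numbers `omT`, `omH` and of
`sup |Φ₁ - W₁|`.
-/

open MeasureTheory Complex Set
open scoped ComplexConjugate
open Vale.Agent.P159.H896 (ph continuous_ph norm_ph WM om Ph norm_Ph_le Ph_zero om_nonneg)
open Vale.Agent.P159.TM.H104 (EM)
open Vale.Agent.P159.H37
open Vale.Agent.P159.H145 (LM L0 cs OscZ)

namespace Vale.Agent.P159.H43

noncomputable section

/-! ### sums over the integers -/

/-- a finite sum of a nonnegative even function over the integers -/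
lemma sum_int_le {F : ℤ → ℝ} (h0 : ∀ q, 0 ≤ F q) (he : ∀ q, F (-q) = F q) (S : Finset ℤ) :
    ∃ R : ℕ, ∑ q ∈ S, F q ≤ 2 * ∑ n ∈ Finset.range R, F n := by
  classical
  refine ⟨(S.image Int.natAbs).sup id + 1, ?_⟩
  set R := (S.image Int.natAbs).sup id + 1 with hR
  have hmem : ∀ q ∈ S, q.natAbs ∈ Finset.range R := by
    intro q hq
    rw [Finset.mem_range, hR, Nat.lt_succ_iff]
    exact Finset.le_sup (f := id) (Finset.mem_image_of_mem _ hq)
  have hF : ∀ q : ℤ, F q = F (q.natAbs : ℤ) := by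
    intro q
    rcases Int.natAbs_eq q with h | h
    · rw [← h]
    · conv_lhs => rw [h]
      exact he _
  have h1 : ∀ T : Finset ℤ, T ⊆ S → (∀ a ∈ T, ∀ b ∈ T, a.natAbs = b.natAbs → a = b) →
      ∑ q ∈ T, F q ≤ ∑ n ∈ Finset.range R, F n := by
    intro T hT hinj
    have h2 : ∑ q ∈ T, F q = ∑ n ∈ T.image Int.natAbs, F n := by
      rw [Finset.sum_image fun a ha b hb hab => hinj a ha b hb hab]
      exact Finset.sum_congr rfl fun q _ => hF q
    rw [h2]
    refine Finset.sum_le_sum_of_subset_of_nonneg (fun n hn => ?_) fun n _ _ => h0 _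
    obtain ⟨q, hq, rfl⟩ := Finset.mem_image.1 hn
    exact hmem q (hT hq)
  have h3 := h1 (S.filter fun q => 0 ≤ q) (Finset.filter_subset _ _) fun a ha b hb hab => by
    have := (Finset.mem_filter.1 ha).2
    have := (Finset.mem_filter.1 hb).2
    omega
  have h4 := h1 (S.filter fun q => ¬0 ≤ q) (Finset.filter_subset _ _) fun a ha b hb hab => by
    have := (Finset.mem_filter.1 ha).2
    have := (Finset.mem_filter.1 hb).2
    omega
  rw [← Finset.sum_filter_add_sum_filter_not S fun q => 0 ≤ q]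
  linarith

/-- Gaussian tail of a sum over the naturals -/
lemma tail_nat {a : ℝ} (ha : 0 < a) {Q : ℕ} (hQ : 1 ≤ Q) (R : ℕ) :
    ∑ n ∈ (Finset.range R).filter (fun n => Q < n), Real.exp (-(a * (n : ℝ) ^ 2)) ≤
      Real.exp (-(a * (Q : ℝ) ^ 2)) / (a * Q) := by
  set x : ℝ := Real.exp (-(a * Q)) with hx
  have hQ0 : (0 : ℝ) < Q := by exact_mod_cast hQ
  have haQ : 0 < a * Q := by positivity
  have hx0 : 0 < x := Real.exp_pos _
  have hx1 : x < 1 := by rw [hx, Real.exp_lt_one_iff]; linarith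
  have h1 : ∀ n ∈ (Finset.range R).filter (fun n => Q < n),
      Real.exp (-(a * (n : ℝ) ^ 2)) ≤ Real.exp (-(a * (Q : ℝ) ^ 2)) * x ^ (n - Q) := by
    intro n hn
    have hnQ : Q < n := (Finset.mem_filter.1 hn).2
    rw [hx, ← Real.exp_nat_mul, ← Real.exp_add]
    refine Real.exp_le_exp.2 ?_
    rw [Nat.cast_sub hnQ.le]
    have h2 : (Q : ℝ) ≤ n := by exact_mod_cast hnQ.le
    nlinarith [mul_nonneg ha.le (mul_nonneg (sub_nonneg.2 h2) (Nat.cast_nonneg (α := ℝ) n))]
  refine (Finset.sum_le_sum h1).trans ?_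
  rw [← Finset.mul_sum, div_eq_mul_inv]
  refine mul_le_mul_of_nonneg_left ?_ (Real.exp_pos _).le
  have h2 : ∑ n ∈ (Finset.range R).filter (fun n => Q < n), x ^ (n - Q) ≤
      ∑ k ∈ Finset.range R, x ^ (k + 1) := by
    have h3 : ∑ n ∈ (Finset.range R).filter (fun n => Q < n), x ^ (n - Q) =
        ∑ k ∈ ((Finset.range R).filter (fun n => Q < n)).image (fun n => n - Q - 1),
          x ^ (k + 1) := by
      rw [Finset.sum_image fun a ha b hb hab => by
        have h8 := (Finset.mem_filter.1 ha).2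
        have h9 := (Finset.mem_filter.1 hb).2
        have h10 : a - Q - 1 = b - Q - 1 := hab
        omega]
      refine Finset.sum_congr rfl fun n hn => ?_
      have := (Finset.mem_filter.1 hn).2
      congr 1
      omega
    rw [h3]
    refine Finset.sum_le_sum_of_subset_of_nonneg (fun k hk => ?_) fun k _ _ => by positivity
    obtain ⟨n, hn, rfl⟩ := Finset.mem_image.1 hk
    have := Finset.mem_range.1 (Finset.mem_filter.1 hn).1
    rw [Finset.mem_range]
    omega
  refine h2.trans ?_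
  have h4 : ∑ k ∈ Finset.range R, x ^ (k + 1) ≤ x / (1 - x) := by
    have h5 : ∑ k ∈ Finset.range R, x ^ (k + 1) = x * ∑ k ∈ Finset.range R, x ^ k := by
      rw [Finset.mul_sum]
      exact Finset.sum_congr rfl fun k _ => by ring
    rw [h5, div_eq_mul_inv]
    refine mul_le_mul_of_nonneg_left ?_ hx0.le
    rw [← tsum_geometric_of_lt_one hx0.le hx1]
    exact (summable_geometric_of_lt_one hx0.le hx1).sum_le_tsum _ fun k _ => by positivity
  refine h4.trans ?_
  rw [div_le_iff₀ (by linarith)]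
  have h6 : 1 + a * Q ≤ Real.exp (a * Q) := by
    have := Real.add_one_le_exp (a * Q)
    linarith
  have h7 : x * Real.exp (a * Q) = 1 := by rw [hx, ← Real.exp_add]; simp
  have h8 : x * (1 + a * Q) ≤ 1 := by
    calc x * (1 + a * Q) ≤ x * Real.exp (a * Q) := mul_le_mul_of_nonneg_left h6 hx0.le
      _ = 1 := h7
  rw [inv_mul_eq_div, le_div_iff₀ haQ]
  linarith

section letters

variable {V : Type} [Fintype V] [DecidableEq V] {w : (V → ℤ) → ℝ} {M : Matrix V V ℝ}

omit [DecidableEq V] in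
/-- `(Σ_{|q| ≥ 2} om_q²)^{1/2}` -/
theorem hasSum_ch2_zero (h : WM w M) :
    HasSum (fun q : ℤ => if q = 0 ∨ q = 1 ∨ q = -1 then 0 else om w M q ^ 2)
      (ch2 w M 0 ^ 2) := by
  have h1 := hasSum_ch2 h.sym h.em 0
  have e : (fun q : ℤ => if q = 0 ∨ q = 1 ∨ q = -1 then 0 else ‖Phq w M q 0‖ ^ 2) =
      fun q : ℤ => if q = 0 ∨ q = 1 ∨ q = -1 then 0 else om w M q ^ 2 := by
    funext q
    rw [Phq_zero h, Complex.norm_real, Real.norm_of_nonneg (om_nonneg h q)]
  rwa [e] at h1

omit [DecidableEq V] in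
theorem ch2_zero_le (h : WM w M) : ch2 w M 0 ≤ omH w M := by
  have h0 := omH_nonneg h
  have h1 := hasSum_ch2_zero h
  have hs := summable_omH h
  have h2 : ∀ q : ℤ, (if q = 0 ∨ q = 1 ∨ q = -1 then 0 else om w M q) ≤ omH w M := by
    intro q
    refine hs.le_tsum q fun k _ => ?_
    split_ifs
    · exact le_rfl
    · exact om_nonneg h k
  have h3 : ch2 w M 0 ^ 2 ≤ omH w M ^ 2 := by
    have h4 := hs.hasSum.mul_left (omH w M)
    rw [pow_two (omH w M)]
    refine hasSum_le (fun q => ?_) h1 h4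
    have h5 := h2 q
    split_ifs with hq
    · simp
    · rw [if_neg hq] at h5
      have := om_nonneg h q
      nlinarith
  exact (abs_le_of_sq_le_sq' h3 h0).2

omit [DecidableEq V] in
theorem chA_zero_le (h : WM w M) : chA w M 0 ≤ omT w M := by
  have h1 := chA_sq h.sym h.em 0
  rw [Phq_zero h, Complex.norm_real, Real.norm_of_nonneg (om_nonneg h 1)] at h1
  have h2 := ch2_zero_le h
  have h3 := om_nonneg h 1
  have h4 : 0 ≤ ch2 w M 0 := nm_nonneg _
  have h5 : chA w M 0 ^ 2 ≤ omT w M ^ 2 := by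
    rw [h1, omT_eq h]
    nlinarith
  exact (abs_le_of_sq_le_sq' h5 (omT_nonneg h)).2

omit [DecidableEq V] in
/-- **NUMBER `e₁`**: `sup |Φ₁ - W₁| ≤ 2 omT ch2(0) + 24 omT³` -/
theorem e1_le (h : WM w M) (h1 : omT w M ≤ 1 / 2) (F : V → ℝ) :
    ‖Phq w M 1 F - Wq w M 1 F‖ ≤ 2 * omT w M * ch2 w M 0 + 24 * omT w M ^ 3 := by
  have h0 := omT_nonneg h
  have h2 := Ph1_sub_W1_ch h.sym h.em (oscZ_omT h) h0 h1 F
  have h3 := ch2_le h F
  have h4 := (chA_le h F).trans (chA_zero_le h)
  refine h2.trans ?_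
  have h5 : 2 * omT w M * ch2 w M F ≤ 2 * omT w M * ch2 w M 0 :=
    mul_le_mul_of_nonneg_left h3 (by linarith)
  have h6 : 24 * omT w M ^ 2 * chA w M F ≤ 24 * omT w M ^ 2 * omT w M :=
    mul_le_mul_of_nonneg_left h4 (by positivity)
  linarith [h5, h6, (by ring : 24 * omT w M ^ 2 * omT w M = 24 * omT w M ^ 3)]

omit [DecidableEq V] in
/-- **the sum of the higher charges from their `l²` norm** and a Gaussian bound -/
theorem omH_le (h : WM w M) {a : ℝ} (ha : 0 < a) (hq : ∀ q : ℤ, om w M q ≤ Real.exp (-(a * (q : ℝ) ^ 2)))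
    {Q : ℕ} (hQ : 1 ≤ Q) :
    omH w M ≤ √(2 * Q) * ch2 w M 0 + 2 * (Real.exp (-(a * (Q : ℝ) ^ 2)) / (a * Q)) := by
  classical
  set F : ℤ → ℝ := fun q => if q = 0 ∨ q = 1 ∨ q = -1 then 0 else om w M q with hF
  have hF0 : ∀ q, 0 ≤ F q := by
    intro q
    simp only [hF]
    split_ifs
    · exact le_rfl
    · exact om_nonneg h q
  have hFe : ∀ q, F (-q) = F q := by
    intro q
    simp only [hF]
    by_cases hq : q = 0 ∨ q = 1 ∨ q = -1
    · rw [if_pos hq, if_pos (by omega)]
    · rw [if_neg hq, if_neg (by omega), om_neg h]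
  have hc0 : 0 ≤ ch2 w M 0 := nm_nonneg _
  refine (summable_omH h).tsum_le_of_sum_le fun S => ?_
  obtain ⟨R, hR⟩ := sum_int_le hF0 hFe S
  refine hR.trans ?_
  rw [← Finset.sum_filter_add_sum_filter_not (Finset.range R) fun n => Q < n, mul_add, add_comm]
  refine add_le_add ?_ ?_
  · -- small charges
    set A := (Finset.range R).filter (fun n => ¬Q < n ∧ 2 ≤ n) with hA
    have h1 : ∑ n ∈ (Finset.range R).filter (fun n => ¬Q < n), F n ≤ ∑ n ∈ A, F n := by
      refine le_of_eq ?_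
      refine (Finset.sum_subset (fun n hn => ?_) fun n hn hn2 => ?_).symm
      · have := Finset.mem_filter.1 hn
        exact Finset.mem_filter.2 ⟨this.1, this.2.1⟩
      · simp only [hF]
        rw [if_pos]
        have h3 := Finset.mem_filter.1 hn
        have h4 : ¬2 ≤ n := fun h5 => hn2 (Finset.mem_filter.2 ⟨h3.1, h3.2, h5⟩)
        omega
    have hcard : (A.card : ℝ) ≤ Q := by
      have h3 : A ⊆ Finset.Icc 2 Q := by
        intro n hn
        have := (Finset.mem_filter.1 hn).2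
        exact Finset.mem_Icc.2 ⟨this.2, by omega⟩
      have h4 := Finset.card_le_card h3
      rw [Nat.card_Icc] at h4
      have : A.card ≤ Q := by omega
      exact_mod_cast this
    have hsq : 2 * ∑ n ∈ A, F n ^ 2 ≤ ch2 w M 0 ^ 2 := by
      have h3 := hasSum_ch2_zero h
      have h4 : ∑ q ∈ A.image (fun n : ℕ => (n : ℤ)) ∪ A.image (fun n : ℕ => -(n : ℤ)),
          (if q = 0 ∨ q = 1 ∨ q = -1 then 0 else om w M q ^ 2) ≤ ch2 w M 0 ^ 2 := by
        refine sum_le_hasSum _ (fun q _ => ?_) h3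
        split_ifs
        · exact le_rfl
        · exact sq_nonneg _
      refine le_trans (le_of_eq ?_) h4
      rw [Finset.sum_union]
      · rw [Finset.sum_image (fun a _ b _ hab => by simpa using hab),
          Finset.sum_image (fun a _ b _ hab => by simpa using hab), two_mul]
        congr 1
        · refine Finset.sum_congr rfl fun n hn => ?_
          have h5 := (Finset.mem_filter.1 hn).2.2
          have h6 : ¬((n : ℤ) = 0 ∨ (n : ℤ) = 1 ∨ (n : ℤ) = -1) := by omega
          simp only [hF]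
          rw [if_neg h6, if_neg h6]
        · refine Finset.sum_congr rfl fun n hn => ?_
          have h5 := (Finset.mem_filter.1 hn).2.2
          have h6 : ¬((n : ℤ) = 0 ∨ (n : ℤ) = 1 ∨ (n : ℤ) = -1) := by omega
          have h7 : ¬(-(n : ℤ) = 0 ∨ -(n : ℤ) = 1 ∨ -(n : ℤ) = -1) := by omega
          simp only [hF]
          rw [if_neg h6, if_neg h7, om_neg h]
      · rw [Finset.disjoint_left]
        intro q hq1 hq2
        obtain ⟨n, hn, rfl⟩ := Finset.mem_image.1 hq1
        obtain ⟨m, hm, hmn⟩ := Finset.mem_image.1 hq2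
        have := (Finset.mem_filter.1 hn).2.2
        have := (Finset.mem_filter.1 hm).2.2
        omega
    have h5 : (∑ n ∈ A, F n) ^ 2 ≤ Q * ∑ n ∈ A, F n ^ 2 := by
      refine (sq_sum_le_card_mul_sum_sq (s := A) (f := fun n : ℕ => F n)).trans ?_
      exact mul_le_mul_of_nonneg_right hcard (Finset.sum_nonneg fun _ _ => sq_nonneg _)
    have h6 : 2 * ∑ n ∈ A, F n ≤ √(2 * Q) * ch2 w M 0 := by
      have h7 : 0 ≤ ∑ n ∈ A, F n := Finset.sum_nonneg fun n _ => hF0 _
      refine abs_le_of_sq_le_sq' (b := √(2 * Q) * ch2 w M 0) ?_ (by positivity) |>.2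
      rw [mul_pow, mul_pow, Real.sq_sqrt (by positivity)]
      have hQ0 : (0 : ℝ) ≤ Q := Nat.cast_nonneg Q
      nlinarith
    linarith
  · -- large charges
    have h1 : ∑ n ∈ (Finset.range R).filter (fun n => Q < n), F n ≤
        ∑ n ∈ (Finset.range R).filter (fun n => Q < n), Real.exp (-(a * (n : ℝ) ^ 2)) := by
      refine Finset.sum_le_sum fun n _ => ?_
      have h2 : F n ≤ om w M n := by
        simp only [hF]
        by_cases hq : (n : ℤ) = 0 ∨ (n : ℤ) = 1 ∨ (n : ℤ) = -1
        · rw [if_pos hq]; exact om_nonneg h _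
        · rw [if_neg hq]
      have h3 := hq n
      rw [Int.cast_natCast] at h3
      exact h2.trans h3
    have h2 := tail_nat ha hQ R
    linarith

end letters

end

end Vale.Agent.P159.H43
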