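import Vale.Agent.P159.H43.Osc
import Vale.Agent.P159.H145.Loc2T
import Vale.Agent.P159.H864.Fou2
import Vale.Agent.P159.H972.Good

/-!
P159 / GLUE P_up (helper43): the oscillation bound `OscZ` at every real posterior mass
`T ∈ [t_n, 4 t_n]` from the number `yt` at the mass `4 t_n` (third conjunct of `YBn`).
-/

set_option linter.unusedSectionVars false

namespace Vale.Agent.P159.H43

open Finset Matrix
open Vale.Agent.P159.TM.H104
open Vale.Agent.P159.H37 (qf Gm Pik wt wM)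
open Vale.Agent.P159.H145 (OscZ mt em_mt mt_symm per_wT)
open Vale.Agent.P159.TM.SpecC (Tor wT)
open Vale.Agent.P159.H864 (yt yt_eq yt_nonneg Pik_mono Pik_nonneg)
open Vale.Agent.P159.H972 (tn)

noncomputable section

/-- the oscillation constant of the torus -/
theorem Lc_tor (N : ℕ) [NeZero N] (b t : ℝ) :
    Lc (wT b N) (mt N t) = t * (N : ℝ) ^ 2 * yt N b t := by
  have hrow : (mt N t).mulVec 1 = t • (1 : Tor N → ℝ) := by
    rw [Matrix.smul_mulVec, Matrix.one_mulVec]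
  rw [Lc_row hrow]
  have h1 : qf (Gm (wM (wT b N) (mt N t))) 1 = (N : ℝ) ^ 2 * H37.Ght N b t 0 := by
    have e1 : ∀ x : Tor N, ∑ y : Tor N, (1 : Tor N → ℝ) x *
        Gm (wM (wT b N) (mt N t)) x y * (1 : Tor N → ℝ) y = H37.Ght N b t 0 := by
      intro x
      rw [H864.Ght_zero_eq]
      simp only [Pi.one_apply, one_mul, mul_one]
      rw [← Equiv.sum_comp (Equiv.subRight x) fun z => H37.Gt N b t z]
      refine Finset.sum_congr rfl fun y _ => ?_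
      exact H864.Gm_wt t x y
    unfold qf
    rw [Finset.sum_congr rfl fun x _ => e1 x, Finset.sum_const, Finset.card_univ,
      Fintype.card_prod, ZMod.card, nsmul_eq_mul]
    push_cast
    ring
  rw [h1, Fintype.card_prod, ZMod.card]
  unfold yt
  push_cast
  ring

/-- `t ↦ t yt(t)` is monotone -/
lemma mul_yt_mono {N : ℕ} [NeZero N] {b : ℝ} (hb : 0 < b) {τ t : ℝ} (hτ : 0 < τ) (h : τ ≤ t) :
    τ * yt N b τ ≤ t * yt N b t := by
  have ht : 0 < t := hτ.trans_le h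
  have h1 := Pik_mono (N := N) hb hτ h 0
  have h2 := Pik_nonneg (N := N) hb hτ 0
  have h3 := Pik_nonneg (N := N) hb ht 0
  rw [yt_eq hb hτ, yt_eq hb ht]
  set p := Pik N b τ 0
  set p' := Pik N b t 0
  rw [← mul_div_assoc, ← mul_div_assoc, div_le_div_iff₀ (by linarith) (by linarith)]
  have h4 : 0 ≤ p * p' * (t - τ) := mul_nonneg (mul_nonneg h2 h3) (by linarith)
  have h5 : 0 ≤ τ * t * (p' - p) := mul_nonneg (mul_pos hτ ht).le (by linarith)
  nlinarith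

/-- **`OscZ` at every real posterior mass**: `OscZ ≤ 2 (N / ξ_n)² Y` for `T ∈ [t_n, 4 t_n]` if
`yt ≤ Y` at the mass `4 t_n` -/
theorem osc_post {b : ℝ} (hb : 0 < b) {n r : ℕ} (hr : n ≤ r) {T Y : ℝ} (h1 : tn n ≤ T)
    (h2 : T ≤ 4 * tn n) (hy : yt (2 ^ r) b (4 * tn n) ≤ Y)
    (hs : 4 * ((2 ^ (r - n)) ^ 2 * Y) ≤ 1) :
    OscZ (wT b (2 ^ r)) (mt (2 ^ r) T) (2 * ((2 ^ (r - n)) ^ 2 * Y)) := by
  have ht0 : 0 < tn n := by unfold tn; positivity
  have hT : 0 < T := ht0.trans_le h1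
  have h3 : Lc (wT b (2 ^ r)) (mt (2 ^ r) T) ≤ 4 * ((2 ^ (r - n)) ^ 2 * Y) := by
    rw [Lc_tor]
    have h4 := mul_yt_mono (N := 2 ^ r) hb hT h2
    have h5 : (4 * tn n) * yt (2 ^ r) b (4 * tn n) ≤ 4 * tn n * Y :=
      mul_le_mul_of_nonneg_left hy (by positivity)
    have h6 : tn n * ((2 ^ r : ℕ) : ℝ) ^ 2 = (2 ^ (r - n)) ^ 2 := by
      unfold tn
      obtain ⟨k, rfl⟩ := Nat.exists_eq_add_of_le hr
      rw [Nat.add_sub_cancel_left]
      push_cast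
      rw [pow_add, mul_pow, ← pow_mul, ← pow_mul, mul_comm n 2, pow_mul, show (2 : ℝ) ^ 2 = 4 by
        norm_num]
      field_simp
    have h7 : (0 : ℝ) ≤ ((2 ^ r : ℕ) : ℝ) ^ 2 := by positivity
    calc T * ((2 ^ r : ℕ) : ℝ) ^ 2 * yt (2 ^ r) b T
        = (T * yt (2 ^ r) b T) * ((2 ^ r : ℕ) : ℝ) ^ 2 := by ring
      _ ≤ (4 * tn n * Y) * ((2 ^ r : ℕ) : ℝ) ^ 2 :=
          mul_le_mul_of_nonneg_right (h4.trans h5) h7
      _ = 4 * ((tn n * ((2 ^ r : ℕ) : ℝ) ^ 2) * Y) := by ring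
      _ = _ := by rw [h6]
  have h8 := oscZ_of_Lc_le per_wT mt_symm (em_mt hb.le hT) H789.ev_wt (H789.pk_wt hb.le hT) h3 hs
  have e : 2 * ((2 ^ (r - n)) ^ 2 * Y) = 4 * ((2 ^ (r - n)) ^ 2 * Y) / 2 := by ring
  rw [e]
  exact h8

end

end Vale.Agent.P159.H43
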