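import Vale.Agent.P159.H43.Sd1
import Vale.Agent.P159.H43.OscP
import Vale.Agent.P159.H43.Num2
import Vale.Agent.P159.H239.Typ
import Vale.Agent.P159.H415.Mono
import Vale.Agent.P159.H896.Four

/-!
P159 / P# (helper43): **sharp data from the `V` state**, part 2: the other fields of helper462's `St`:
`bad` from `TypE`, the numbers `omT`, `omH`, and `tiny` for small priors.
-/

set_option linter.unusedSectionVars false

namespace Vale.Agent.P159.H43

open Finset Matrix MeasureTheory Filter Topology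
open Vale.Agent.P159.H37
open Vale.Agent.P159.H363 (acl)
open Vale.Agent.P159.TM.Spec (V)
open Vale.Agent.P159.TM.SpecC (Tor wT)
open Vale.Agent.P159.H896 (om WM)
open Vale.Agent.P159.H145 (mt OscZ)
open Vale.Agent.P159.H864 (MC)
open Vale.Agent.P159.H239 (TypE)
open Vale.Agent.P159.H963 (nMC nwt obsN)
open Vale.Agent.P159.H462 (oT ms)

noncomputable section

section bad

variable {N l : ℕ} [NeZero N] [NeZero (N / l)] {b T s ρ p : ℝ}

/-- **field `bad` of `St`** -/
theorem bad_of (h : TypE N l b T s 1 ρ p) :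
    Ech (nMC N l b T s 0) 0 (obsN N l (T - s))
      ({J | ρ < Rs (nMC N l b T T 0) J}.indicator fun _ => (1 : ℝ)) ≤ p := by
  have e : {J : V N → ℝ | ρ < Rs (nMC N l b T T 0) J} =
      {J : V N → ℝ | Rs (nwt N b T 0) ((1 : ℝ) • J) ≤ ρ}ᶜ := by
    ext J
    rw [Set.mem_compl_iff, Set.mem_ofPred_eq, Set.mem_ofPred_eq, one_smul, not_le,
      H963.nMC_self]
  rw [e]
  exact h

end bad

section numbers

variable {N l : ℕ} [NeZero N] [NeZero (N / l)] {b T ω : ℝ}

/-- the number `omT` from the oscillation bound -/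
theorem omT_le_osc {w : (Tor N → ℤ) → ℝ} {M : Matrix (Tor N) (Tor N) ℝ} (hw : WM w M)
    (h : OscZ w M ω) : omT w M ≤ ω := by
  have h1 := h 0 0 ⟨le_rfl, zero_le_one⟩
  rw [H145.cs_zero] at h1
  have h0 := H896.Zn_pos hw (0 : Tor N → ℝ)
  unfold H43.omT
  rw [sub_le_iff_le_add, div_le_iff₀ h0]
  have h2 := (abs_le.1 h1).2
  linarith

/-- the number `oT` of `St` -/
theorem oT_le (hb : 0 ≤ b) (hl : l ∣ N) (hT : 0 < T) (h : OscZ (wT b N) (mt N T) ω) :
    oT N l b T ≤ ω := by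
  unfold H462.oT
  have e : MC N l T T = mt N T := H864.MC_self N l T
  rw [e]
  have hw := H363.wm_MC (N := N) (l := l) (b := b) hb hl hT (le_refl T)
  rw [e] at hw
  exact omT_le_osc hw h

/-- Gaussian bound of the activities on the torus -/
theorem om_gau (hb : 0 ≤ b) (hT : 0 < T) (q : ℤ) :
    om (wT b N) (mt N T) q ≤ Real.exp (-(2 * Real.pi ^ 2 / (T * (N : ℝ) ^ 2) * (q : ℝ) ^ 2)) := by
  have hw := H896.wp_t (N := N) hb hT
  have h1 := H896.om_le_exp hw.toWM hw.nn hw.one q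
  refine h1.trans (le_of_eq ?_)
  congr 2
  have e : qf (mt N T) (1 : Tor N → ℝ) = T * (N : ℝ) ^ 2 := by
    rw [show mt N T = T • (1 : Matrix (Tor N) (Tor N) ℝ) from rfl, H37.qf_smul_one]
    simp only [Pi.one_apply, one_pow, Finset.sum_const, Finset.card_univ, Fintype.card_prod,
      ZMod.card, nsmul_eq_mul, mul_one]
    push_cast
    ring
  rw [e]
  ring

/-- **the higher charges from the field `CH2`** at a larger scalar mass -/
theorem omH_ch2 (l : ℕ) (hb : 0 ≤ b) (hT : 0 < T) {t : ℝ} (hTt : T ≤ t) {Z : ℝ}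
    (hc : ch2 (wT b N) (mt N t) 0 ≤ Z) {Q : ℕ} (hQ : 1 ≤ Q) {a : ℝ} (ha : 0 < a)
    (haT : a * (T * (N : ℝ) ^ 2) ≤ 2 * Real.pi ^ 2) :
    omH (wT b N) (MC N l T T) ≤ √(2 * Q) * Z + 2 * (Real.exp (-(a * (Q : ℝ) ^ 2)) / (a * Q)) := by
  have e : MC N l T T = mt N T := H864.MC_self N l T
  rw [e]
  have hw := (H896.wp_t (N := N) hb hT).toWM
  have hN : (0 : ℝ) < N := by exact_mod_cast NeZero.pos N
  have h1 : ∀ q : ℤ, om (wT b N) (mt N T) q ≤ Real.exp (-(a * (q : ℝ) ^ 2)) := by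
    intro q
    refine (om_gau hb hT q).trans (Real.exp_le_exp.2 (neg_le_neg ?_))
    refine mul_le_mul_of_nonneg_right ?_ (sq_nonneg _)
    rw [le_div_iff₀ (by positivity)]
    exact haT
  have h2 := omH_le hw ha h1 hQ
  have h3 : ch2 (wT b N) (mt N T) 0 ≤ Z := (H415.ch2_scalar hT hTt hw).trans hc
  have h4 := mul_le_mul_of_nonneg_left h3 (Real.sqrt_nonneg (2 * (Q : ℝ)))
  linarith

end numbers

/-- **field `tiny` of `St`** holds for all small priors -/
theorem tiny_ev {T l : ℝ} (hT : 0 < T) (A B : ℝ) :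
    ∀ᶠ τ in 𝓝[>] (0 : ℝ), ms τ T l * (A + ms τ T l) / 2 * B ≤ 1 := by
  have h1 : Tendsto (fun τ : ℝ => ms τ T l) (𝓝[>] 0) (𝓝 (ms 0 T l)) := by
    refine tendsto_nhdsWithin_of_tendsto_nhds ?_
    unfold H462.ms
    refine Tendsto.div ?_ ?_ (by rw [sub_zero]; exact hT.ne')
    · exact (by fun_prop : Continuous fun τ : ℝ => τ * T * l ^ 2).tendsto 0
    · exact (by fun_prop : Continuous fun τ : ℝ => T - τ).tendsto 0
  have h0 : ms 0 T l = 0 := by
    unfold H462.ms
    simp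
  rw [h0] at h1
  have h2 : Tendsto (fun τ : ℝ => ms τ T l * (A + ms τ T l) / 2 * B) (𝓝[>] 0)
      (𝓝 (0 * (A + 0) / 2 * B)) :=
    ((h1.mul (h1.const_add A)).div_const 2).mul_const B
  rw [zero_mul, zero_div, zero_mul] at h2
  exact (h2.eventually (gt_mem_nhds one_pos)).mono fun τ h => h.le

end

end Vale.Agent.P159.H43
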