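import Vale.Agent.P159.H43.Chb2
import Vale.Agent.P159.H801.Sp1

/-!
P159 / P# (helper43): the numbers `oT`, `omH` on the base torus of the second run.
-/

set_option linter.unusedSectionVars false

namespace Vale.Agent.P159.H43

open Finset Matrix Filter Topology
open Vale.Agent.P159.TM.Spec (V)
open Vale.Agent.P159.TM.SpecC (Tor wT)
open Vale.Agent.P159.H864 (yt MC)
open Vale.Agent.P159.H145 (mt)
open Vale.Agent.P159.H462 (oT)
open Vale.Agent.P159.H972 (Par tn lg)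
open Vale.Agent.P159.H801 (Ev PS Base)

noncomputable section

/-- **the numbers `oT`, `omH` on the base torus of the second run** -/
theorem ev_base_num (b1 b2 pf : ℝ) (Q : ℕ) :
    Ev b1 b2 pf Q fun P _ => ∃ E : ℝ, 0 < E ∧ E ≤ 1 ∧ ∀ (P' : Par) (b an : ℝ) (n : ℕ)
      (ε y e1 : ℝ) (r1 j : ℕ) [NeZero (2 ^ r1 / 2 ^ j)], 0 < b →
      Base P P' b an (P.x1 / 100) n ε y e1 r1 → j ≤ r1 → y ≤ E → ε ≤ P.es →
      y ^ (39 / 20 : ℝ) ≤ ε → ε ≤ y ^ (9 / 5 : ℝ) →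
      CHB P b n ε (y ^ (2 - P.x1 / 50) + y * ε ^ (2 : ℝ)) →
      oT (2 ^ r1) (2 ^ j) b (tn n) ≤ y ^ (1 - P.x1 / 20) ∧
      oT (2 ^ r1) (2 ^ j) b (tn n) ≤ 1 / 2 ∧
      omH (wT b (2 ^ r1)) (MC (2 ^ r1) (2 ^ j) (tn n) (tn n)) ≤ y ^ (2 - P.x1 / 25) := by
  have h0 : Ev b1 b2 pf Q fun P _ => P.th ≤ P.x1 / 1000 := by
    refine H801.Ev.of ⟨0, fun W hW => ⟨1, one_pos, fun ys _ _ => ⟨0, fun X0 hX0 =>
      ⟨1, one_pos, fun x1 hx1 hx1' => ⟨1, one_pos, fun thp ht1 ht2 => ⟨x1 / 1000, by positivity,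
      fun th hs1 hs2 => ⟨1, fun C0 hC0 => ⟨1, one_pos, fun c1 hc1 hc2 => ⟨1, one_pos,
      fun P hP => ?_⟩⟩⟩⟩⟩⟩⟩⟩⟩
    rw [hP.eth, hP.ex1]
    exact hs2
  refine (h0.and (ev_omh b1 b2 pf Q)).mono ?_
  rintro P c1 hA ⟨hth, hoh⟩
  have hx := P.x10
  have hx1 := hA.x11
  have hth0 := P.th0
  obtain ⟨E1, p1, -, k1⟩ := H415.pow_le_const (A := 1 / 32) (c := P.x1 / 50) (by norm_num)
    (by positivity)
  obtain ⟨E2, p2, -, k2⟩ := H415.pow_le_const (A := 1 / 2) (c := 19 / 20) (by norm_num)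
    (by norm_num)
  refine ⟨min (min E1 E2) 1, by positivity, min_le_right _ _, ?_⟩
  intro P' b an n ε y e1 r1 j _ hb hB hj hyE hes hlo hup hch
  have hy := hB.y0
  have hε := hB.ε0
  have hy1 := hB.y1
  have g1 := k1 y hy (hyE.trans ((min_le_left _ _).trans (min_le_left _ _)))
  have g2 := k2 y hy (hyE.trans ((min_le_left _ _).trans (min_le_right _ _)))
  have hε4 : ε ≤ 1 / 4 := hes.trans hA.es4
  have hε1 : ε ≤ 1 := hε4.trans (by norm_num)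
  have hT : 0 < tn n := H415.tn_pos' n
  have hnr : n ≤ r1 := le_trans (Nat.le_add_right _ _) hB.tt.1
  have hl : 2 ^ j ∣ 2 ^ r1 := pow_dvd_pow 2 hj
  -- the torus is small
  have hw1 : 1 ≤ P.w ε := by
    show 1 ≤ lg P.thp ε
    unfold H972.lg
    rw [Nat.one_le_ceil_iff]
    have h1 : 0 < Real.logb 2 (1 / ε) :=
      Real.logb_pos one_lt_two (by rw [lt_div_iff₀ hε]; linarith)
    have := P.thp0
    positivity
  have hTT := tt_P2_of hA.hth hε hε4 hw1 hy hy1 hup hB.tt.1 hB.Ky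
  have hyv := hB.yt4 r1 le_rfl
  -- the oscillation
  have hY : (2 : ℝ) * ((2 ^ (r1 - n)) ^ 2 * (ε ^ (-(P.x1 / 100)) * y)) ≤
      1 / 4 * y ^ (1 - P.x1 / 20) := by
    have h1 : ((2 : ℝ) ^ (r1 - n)) ^ 2 ≤ 4 * y ^ (-(4 * P.th)) := by
      calc ((2 : ℝ) ^ (r1 - n)) ^ 2 ≤ (2 * y ^ (-(2 * P.th))) ^ 2 :=
            pow_le_pow_left₀ (by positivity) hB.Ky 2
        _ = 4 * y ^ (-(4 * P.th)) := by
            rw [mul_pow, ← Real.rpow_natCast (y ^ (-(2 * P.th))) 2, ← Real.rpow_mul hy.le]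
            norm_num
            ring_nf
    have h2 : ε ^ (-(P.x1 / 100)) ≤ y ^ (-(39 / 20 * (P.x1 / 100))) := by
      calc ε ^ (-(P.x1 / 100)) ≤ (y ^ (39 / 20 : ℝ)) ^ (-(P.x1 / 100)) :=
            Real.rpow_le_rpow_of_nonpos (by positivity) hlo (by linarith)
        _ = _ := by
            rw [← Real.rpow_mul hy.le]
            congr 1
            ring
    calc (2 : ℝ) * ((2 ^ (r1 - n)) ^ 2 * (ε ^ (-(P.x1 / 100)) * y)) ≤
          2 * ((4 * y ^ (-(4 * P.th))) * (y ^ (-(39 / 20 * (P.x1 / 100))) * y)) := by gcongr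
      _ = 8 * (y ^ (-(4 * P.th)) * (y ^ (-(39 / 20 * (P.x1 / 100))) * y ^ (1 : ℝ))) := by
          rw [Real.rpow_one]
          ring
      _ = 8 * y ^ (-(4 * P.th) + (-(39 / 20 * (P.x1 / 100)) + 1)) := by
          rw [← Real.rpow_add hy, ← Real.rpow_add hy]
      _ ≤ 8 * y ^ (P.x1 / 50 + (1 - P.x1 / 20)) := by
          have h3 : y ^ (-(4 * P.th) + (-(39 / 20 * (P.x1 / 100)) + 1)) ≤
              y ^ (P.x1 / 50 + (1 - P.x1 / 20)) :=
            Real.rpow_le_rpow_of_exponent_ge hy hy1 (by linarith)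
          linarith
      _ = 8 * y ^ (P.x1 / 50) * y ^ (1 - P.x1 / 20) := by
          rw [Real.rpow_add hy]
          ring
      _ ≤ 8 * (1 / 32) * y ^ (1 - P.x1 / 20) := by gcongr
      _ = 1 / 4 * y ^ (1 - P.x1 / 20) := by ring
  have hyx : y ^ (1 - P.x1 / 20) ≤ 1 / 2 := by
    refine le_trans ?_ g2
    exact Real.rpow_le_rpow_of_exponent_ge hy hy1 (by linarith)
  have hyx0 : 0 < y ^ (1 - P.x1 / 20) := by positivity
  have hs : 4 * (((2 : ℝ) ^ (r1 - n)) ^ 2 * (ε ^ (-(P.x1 / 100)) * y)) ≤ 1 := by linarith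
  have hosc := osc_post hb hnr le_rfl (by linarith) hyv hs
  have ho := oT_le hb.le hl hT hosc
  refine ⟨by linarith, by linarith, ?_⟩
  exact hoh b hb n r1 j ε y hε hes hy hlo hup hch hTT

end

end Vale.Agent.P159.H43
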