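import Vale.Agent.P159.H43.Neu1

/-!
P159 (helper43), LOC11, second part: the norms of `el`, `el1` and of their harmonics `|q| ≥ 2` in
terms of the charge sectors `Φ_q` and of their derivatives (Parseval).
-/

open MeasureTheory Complex Set
open scoped ComplexConjugate
open Vale.Agent.P159.H896 (ph continuous_ph norm_ph ph_add_int ph_zero_left conj_ph)
open Vale.Agent.P159.TM.H104 (EM Lg Ex Cv Gr li T)
open Vale.Agent.P159.H37
open Vale.Agent.P159.H145 (LM L0 cs OscZ)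

namespace Vale.Agent.P159.H43

noncomputable section

/-! ### Parseval -/

/-- **Parseval** for `nm` and `hat` -/
theorem hasSum_hat {f : ℝ → ℝ} (hf : Continuous f) :
    HasSum (fun q : ℤ => ‖hat f q‖ ^ 2) (nm f ^ 2) := by
  have hL2 : MemLp (fun u => (f u : ℂ)) 2 (volume.restrict (Ioc (0 : ℝ) 1)) := by
    obtain ⟨B, hB⟩ := (isCompact_Icc (a := (0 : ℝ)) (b := 1)).exists_bound_of_continuousOn
      (f := fun u => (f u : ℂ)) (by fun_prop)
    refine MemLp.of_bound (Continuous.aestronglyMeasurable (by fun_prop)) B ?_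
    refine (ae_restrict_iff' measurableSet_Ioc).2 (Filter.Eventually.of_forall fun u hu => ?_)
    exact hB u ⟨hu.1.le, hu.2⟩
  have h := hasSum_sq_fourierCoeffOn (a := (0 : ℝ)) (b := 1) zero_lt_one hL2
  have h1 : ((1 : ℝ) - 0)⁻¹ • ∫ x in (0 : ℝ)..1, ‖(f x : ℂ)‖ ^ 2 = nm f ^ 2 := by
    rw [nm_sq]
    simp only [sub_zero, inv_one, one_smul, Complex.norm_real, Real.norm_eq_abs, sq_abs]
  rw [h1] at h
  have h2 : ∀ q : ℤ, fourierCoeffOn zero_lt_one (fun u => (f u : ℂ)) q = hat f q := by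
    intro q
    rw [fourierCoeffOn_eq_integral]
    unfold hat
    rw [sub_zero, div_one, one_smul]
    refine intervalIntegral.integral_congr fun u _ => ?_
    show (fourier (-q) (u : AddCircle (1 : ℝ)) : ℂ) • (f u : ℂ) = (f u : ℂ) * ph q u
    rw [fourier_coe_apply, smul_eq_mul, mul_comm]
    unfold ph
    congr 2
    push_cast
    ring
  simp only [h2] at h
  exact h

lemma hat_hi_of {f : ℝ → ℝ} (hf : Continuous f) {q : ℤ} (h0 : q ≠ 0) (h1 : q ≠ 1)
    (h2 : q ≠ -1) : hat (hi f) q = hat f q := by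
  unfold hi
  rw [hat_sub hf (continuous_lo f), hat_lo, if_neg, if_neg, if_neg]
  · ring
  all_goals omega

/-- Parseval for the high part -/
theorem hasSum_hi {f : ℝ → ℝ} (hf : Continuous f) :
    HasSum (fun q : ℤ => if q = 0 ∨ q = 1 ∨ q = -1 then 0 else ‖hat f q‖ ^ 2)
      (nm (hi f) ^ 2) := by
  have h := hasSum_hat (continuous_hi hf)
  have e : (fun q : ℤ => ‖hat (hi f) q‖ ^ 2) =
      fun q : ℤ => if q = 0 ∨ q = 1 ∨ q = -1 then 0 else ‖hat f q‖ ^ 2 := by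
    funext q
    by_cases hq : q = 0 ∨ q = 1 ∨ q = -1
    · rw [if_pos hq, hat_hi hf hq, norm_zero]
      norm_num
    · rw [if_neg hq]
      push Not at hq
      rw [hat_hi_of hf hq.1 hq.2.1 hq.2.2]
  rwa [e] at h

/-- `‖f‖² = |avg f|² + 2 |f̂(1)|² + ‖hi f‖²` -/
theorem nm_sq_split {f : ℝ → ℝ} (hf : Continuous f) :
    nm f ^ 2 = avg f ^ 2 + 2 * ‖hat f 1‖ ^ 2 + nm (hi f) ^ 2 := by
  have h1 := hasSum_hat hf
  have h2 := hasSum_hi hf
  have h3 := h1.sub h2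
  have e : (fun q : ℤ => ‖hat f q‖ ^ 2 -
      if q = 0 ∨ q = 1 ∨ q = -1 then 0 else ‖hat f q‖ ^ 2) =
      fun q : ℤ => if q ∈ ({0, 1, -1} : Finset ℤ) then ‖hat f q‖ ^ 2 else 0 := by
    funext q
    by_cases hq : q = 0 ∨ q = 1 ∨ q = -1
    · rw [if_pos hq, if_pos (by simpa using hq), sub_zero]
    · rw [if_neg hq, if_neg (by simpa using hq), sub_self]
  rw [e] at h3
  have h4 : HasSum (fun q : ℤ => if q ∈ ({0, 1, -1} : Finset ℤ) then ‖hat f q‖ ^ 2 else 0)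
      (∑ q ∈ ({0, 1, -1} : Finset ℤ), ‖hat f q‖ ^ 2) := by
    have h5 : HasSum (fun q : ℤ => if q ∈ ({0, 1, -1} : Finset ℤ) then ‖hat f q‖ ^ 2 else 0)
        (∑ q ∈ ({0, 1, -1} : Finset ℤ),
          if q ∈ ({0, 1, -1} : Finset ℤ) then ‖hat f q‖ ^ 2 else 0) :=
      hasSum_sum_of_ne_finset_zero fun q hq => if_neg hq
    rwa [Finset.sum_congr rfl fun q hq => if_pos hq] at h5
  have h5 := h3.unique h4
  have h6 : ∑ q ∈ ({0, 1, -1} : Finset ℤ), ‖hat f q‖ ^ 2 = avg f ^ 2 + 2 * ‖hat f 1‖ ^ 2 := by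
    rw [Finset.sum_insert (by decide), Finset.sum_insert (by decide), Finset.sum_singleton,
      hat_zero, Complex.norm_real, Real.norm_eq_abs, sq_abs, hat_neg, RCLike.norm_conj]
    ring
  rw [h6] at h5
  linarith

/-! ### linearity and Minkowski -/

lemma avg_add {f g : ℝ → ℝ} (hf : Continuous f) (hg : Continuous g) :
    avg (fun u => f u + g u) = avg f + avg g := by
  unfold avg
  exact intervalIntegral.integral_add (hf.intervalIntegrable _ _) (hg.intervalIntegrable _ _)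

lemma lo_add {f g : ℝ → ℝ} (hf : Continuous f) (hg : Continuous g) (u : ℝ) :
    lo (fun u => f u + g u) u = lo f u + lo g u := by
  unfold lo
  rw [avg_add hf hg, hat_add hf hg, add_mul, Complex.add_re]
  ring

lemma hi_add {f g : ℝ → ℝ} (hf : Continuous f) (hg : Continuous g) (u : ℝ) :
    hi (fun u => f u + g u) u = hi f u + hi g u := by
  unfold hi
  rw [lo_add hf hg]
  ring

lemma hi_const (a : ℝ) (u : ℝ) : hi (fun _ => a) u = 0 := by
  unfold hi lo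
  have h1 : hat (fun _ => a) 1 = 0 := by
    unfold hat
    rw [intervalIntegral.integral_const_mul, int_ph 1 one_ne_zero, mul_zero]
  rw [h1]
  unfold avg
  simp

/-- Minkowski -/
lemma nm_add_le {f g : ℝ → ℝ} (hf : Continuous f) (hg : Continuous g) :
    nm (fun u => f u + g u) ≤ nm f + nm g := by
  have h1 := cs_int hf hg
  have h2 : nm (fun u => f u + g u) ^ 2 ≤ (nm f + nm g) ^ 2 := by
    rw [nm_sq]
    calc ∫ u in (0 : ℝ)..1, (f u + g u) ^ 2
        ≤ ∫ u in (0 : ℝ)..1, (f u ^ 2 + 2 * (|f u| * |g u|) + g u ^ 2) :=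
          int_mono (by fun_prop) (by fun_prop) fun u _ => by
            have := le_abs_self (f u * g u)
            rw [abs_mul] at this
            nlinarith
      _ = nm f ^ 2 + 2 * (∫ u in (0 : ℝ)..1, |f u| * |g u|) + nm g ^ 2 := by
          rw [nm_sq, nm_sq, ← intervalIntegral.integral_const_mul,
            ← intervalIntegral.integral_add, ← intervalIntegral.integral_add]
          all_goals exact Continuous.intervalIntegrable (by fun_prop) _ _
      _ ≤ _ := by nlinarith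
  exact abs_le_of_sq_le_sq' h2 (add_nonneg (nm_nonneg _) (nm_nonneg _)) |>.2

lemma nm_mono {f g : ℝ → ℝ} (hf : Continuous f) (hg : Continuous g)
    (h : ∀ u ∈ Icc (0 : ℝ) 1, |f u| ≤ |g u|) : nm f ≤ nm g := by
  unfold nm
  refine Real.sqrt_le_sqrt (int_mono (by fun_prop) (by fun_prop) fun u hu => ?_)
  exact sq_le_sq.2 (h u hu)

lemma nm_cmul (a : ℝ) (f : ℝ → ℝ) : nm (fun u => a * f u) = |a| * nm f := by
  unfold nm
  have h1 : ∀ u : ℝ, (a * f u) ^ 2 = a ^ 2 * f u ^ 2 := fun u => by ring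
  simp only [h1]
  rw [intervalIntegral.integral_const_mul, Real.sqrt_mul (sq_nonneg a), Real.sqrt_sq_eq_abs]

variable {ℓ : ℝ → ℝ} {om : ℝ}

/-- `‖hi ℓ‖ ≤ ‖hi e^ℓ‖ + om ‖ℓ‖` -/
theorem Nz.nm_hi_le' (h : Nz ℓ om) :
    nm (hi ℓ) ≤ nm (hi fun u => Real.exp (ℓ u)) + om * nm ℓ := by
  have hc := h.cont
  have hE : Continuous fun u => Real.exp (ℓ u) := by fun_prop
  have h1 : hi ℓ = fun u => hi (fun u => Real.exp (ℓ u)) u +
      hi (fun u => -(Real.exp (ℓ u) - 1 - ℓ u)) u := by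
    funext u
    rw [← hi_add hE (by fun_prop)]
    have e : (fun u => Real.exp (ℓ u) + -(Real.exp (ℓ u) - 1 - ℓ u)) = fun u => ℓ u + 1 := by
      funext u; ring
    rw [e, hi_add hc continuous_const, hi_const, add_zero]
  rw [h1]
  refine (nm_add_le (continuous_hi hE) (continuous_hi (by fun_prop))).trans ?_
  refine add_le_add le_rfl ((nm_hi_le (by fun_prop)).trans ?_)
  have h2 : nm (fun u => -(Real.exp (ℓ u) - 1 - ℓ u)) ≤ nm (fun u => om * ℓ u) := by
    refine nm_mono (by fun_prop) (by fun_prop) fun u hu => ?_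
    rw [abs_neg]
    refine (exp_sub_le (h.bd1 u hu)).trans ?_
    rw [abs_mul, abs_of_nonneg h.nonneg, ← sq_abs, sq]
    exact mul_le_mul_of_nonneg_right (h.bd u hu) (abs_nonneg _)
  rw [nm_cmul, abs_of_nonneg h.nonneg] at h2
  exact h2

/-- `‖ℓ‖ ≤ 2 ‖e^ℓ - 1‖` -/
theorem Nz.nm_le' (h : Nz ℓ om) : nm ℓ ≤ 2 * nm (fun u => Real.exp (ℓ u) - 1) := by
  have hc := h.cont
  have h2 := nm_cmul 2 (fun u => Real.exp (ℓ u) - 1)
  rw [abs_of_pos (by norm_num : (0 : ℝ) < 2)] at h2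
  rw [← h2]
  refine nm_mono hc (by fun_prop) fun u hu => ?_
  have h1 := abs_le.1 (h.bd1 u hu)
  rw [abs_mul, abs_of_pos (by norm_num : (0 : ℝ) < 2)]
  rcases le_total 0 (ℓ u) with h3 | h3
  · have h4 := Real.add_one_le_exp (ℓ u)
    rw [abs_of_nonneg h3, abs_of_nonneg (by linarith)]
    linarith
  · have h4 : Real.exp (ℓ u) ≤ 1 + ℓ u + ℓ u ^ 2 := by
      have := (abs_le.1 (exp_sub_le (h.bd1 u hu))).2
      linarith
    have h5 : Real.exp (ℓ u) ≤ 1 := Real.exp_le_one_iff.2 h3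
    rw [abs_of_nonpos h3, abs_of_nonpos (by linarith)]
    have h6 : Real.exp (ℓ u) ≤ 1 + ℓ u / 2 := by
      have h7 : 1 - ℓ u ≤ Real.exp (-ℓ u) := by
        have := Real.add_one_le_exp (-ℓ u)
        linarith
      have h8 : Real.exp (ℓ u) * Real.exp (-ℓ u) = 1 := by
        rw [← Real.exp_add, add_neg_cancel, Real.exp_zero]
      have h9 := Real.exp_pos (ℓ u)
      have h10 : Real.exp (ℓ u) * (1 - ℓ u) ≤ 1 := by
        calc Real.exp (ℓ u) * (1 - ℓ u) ≤ Real.exp (ℓ u) * Real.exp (-ℓ u) :=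
              mul_le_mul_of_nonneg_left h7 h9.le
          _ = 1 := h8
      have h11 : 1 ≤ (1 + ℓ u / 2) * (1 - ℓ u) := by nlinarith [h1.1]
      have h12 : 0 < 1 - ℓ u := by linarith
      exact le_of_mul_le_mul_right (h10.trans h11) h12
    linarith

/-- `‖hi ℓ₁‖ ≤ ‖hi (e^ℓ ℓ₁)‖ + 2 om ‖ℓ₁‖` -/
theorem Nz.nm_hi1_le (h : Nz ℓ om) {ℓ₁ : ℝ → ℝ} (h1 : Continuous ℓ₁) :
    nm (hi ℓ₁) ≤ nm (hi fun u => Real.exp (ℓ u) * ℓ₁ u) + 2 * om * nm ℓ₁ := by
  have hc := h.cont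
  have hE : Continuous fun u => Real.exp (ℓ u) * ℓ₁ u := by fun_prop
  have h2 : hi ℓ₁ = fun u => hi (fun u => Real.exp (ℓ u) * ℓ₁ u) u +
      hi (fun u => -((Real.exp (ℓ u) - 1) * ℓ₁ u)) u := by
    funext u
    rw [← hi_add hE (by fun_prop)]
    have e : (fun u => Real.exp (ℓ u) * ℓ₁ u + -((Real.exp (ℓ u) - 1) * ℓ₁ u)) = ℓ₁ := by
      funext u; ring
    rw [e]
  rw [h2]
  refine (nm_add_le (continuous_hi hE) (continuous_hi (by fun_prop))).trans ?_
  refine add_le_add le_rfl ((nm_hi_le (by fun_prop)).trans ?_)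
  have h3 : nm (fun u => -((Real.exp (ℓ u) - 1) * ℓ₁ u)) ≤ nm (fun u => (2 * om) * ℓ₁ u) := by
    refine nm_mono (by fun_prop) (by fun_prop) fun u hu => ?_
    rw [abs_neg, abs_mul, abs_mul, abs_of_nonneg (by have := h.nonneg; linarith : 0 ≤ 2 * om)]
    refine mul_le_mul_of_nonneg_right ((exp_sub_one_le (h.bd1 u hu)).trans ?_) (abs_nonneg _)
    have := h.bd u hu
    linarith
  rw [nm_cmul, abs_of_nonneg (by have := h.nonneg; linarith : 0 ≤ 2 * om)] at h3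
  exact h3

/-- `‖ℓ₁‖ ≤ 3 ‖e^ℓ ℓ₁‖` -/
theorem Nz.nm1_le (h : Nz ℓ om) {ℓ₁ : ℝ → ℝ} (h1 : Continuous ℓ₁) :
    nm ℓ₁ ≤ 3 * nm (fun u => Real.exp (ℓ u) * ℓ₁ u) := by
  have hc := h.cont
  have h2 := nm_cmul 3 (fun u => Real.exp (ℓ u) * ℓ₁ u)
  rw [abs_of_pos (by norm_num : (0 : ℝ) < 3)] at h2
  rw [← h2]
  refine nm_mono h1 (by fun_prop) fun u hu => ?_
  rw [abs_mul, abs_of_pos (by norm_num : (0 : ℝ) < 3), abs_mul, abs_of_pos (Real.exp_pos _)]
  have h3 := abs_le.1 (h.bd1 u hu)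
  have h4 : (1 : ℝ) / 3 ≤ Real.exp (ℓ u) := by
    have h5 : Real.exp (-1) ≤ Real.exp (ℓ u) := Real.exp_le_exp.2 h3.1
    have h6 : (1 : ℝ) / 3 ≤ Real.exp (-1) := by
      rw [Real.exp_neg, one_div]
      refine inv_anti₀ (Real.exp_pos _) ?_
      have := Real.exp_one_lt_d9
      linarith
    linarith
  have h7 := abs_nonneg (ℓ₁ u)
  nlinarith

/-! ### letters of `Spec0` -/

section

variable {V : Type*} [Fintype V] [DecidableEq V] {w : (V → ℤ) → ℝ} {M : Matrix V V ℝ}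

/-- `(Σ_{q ≠ 0} |Φ_q(F)|²)^{1/2}` -/
def chA (w : (V → ℤ) → ℝ) (M : Matrix V V ℝ) (F : V → ℝ) : ℝ :=
  nm fun c => Real.exp (el w M F c) - 1

/-- `(Σ_{|q| ≥ 2} |Φ_q(F)|²)^{1/2}` -/
def ch2 (w : (V → ℤ) → ℝ) (M : Matrix V V ℝ) (F : V → ℝ) : ℝ :=
  nm (hi fun c => Real.exp (el w M F c))

/-- `(Σ_q |D_g Φ_q(F)|²)^{1/2}` -/
def dchA (w : (V → ℤ) → ℝ) (M : Matrix V V ℝ) (F g : V → ℝ) : ℝ :=
  nm fun c => Real.exp (el w M F c) * el1 w M F g c

/-- `(Σ_{|q| ≥ 2} |D_g Φ_q(F)|²)^{1/2}` -/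
def dch2 (w : (V → ℤ) → ℝ) (M : Matrix V V ℝ) (F g : V → ℝ) : ℝ :=
  nm (hi fun c => Real.exp (el w M F c) * el1 w M F g c)

omit [DecidableEq V] in
theorem hasSum_ch2 (hM : M.transpose = M) (hE : EM (wM w M)) (F : V → ℝ) :
    HasSum (fun q : ℤ => if q = 0 ∨ q = 1 ∨ q = -1 then 0 else ‖Phq w M q F‖ ^ 2)
      (ch2 w M F ^ 2) := by
  have h := hasSum_hi (f := fun c => Real.exp (el w M F c))
    (Real.continuous_exp.comp (continuous_el hM hE F))
  simp only [hat_exp_el hM hE] at h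
  exact h

omit [DecidableEq V] in
theorem hasSum_dch2 (hM : M.transpose = M) (hE : EM (wM w M)) (F g : V → ℝ) :
    HasSum (fun q : ℤ => if q = 0 ∨ q = 1 ∨ q = -1 then 0 else ‖dPh w M q F g‖ ^ 2)
      (dch2 w M F g ^ 2) :=
  hasSum_hi (f := fun c => Real.exp (el w M F c) * el1 w M F g c)
    ((Real.continuous_exp.comp (continuous_el hM hE F)).mul (continuous_el1 hE F g))

omit [DecidableEq V] in
/-- `chA² = 2 |Φ₁|² + ch2²` -/
theorem chA_sq (hM : M.transpose = M) (hE : EM (wM w M)) (F : V → ℝ) :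
    chA w M F ^ 2 = 2 * ‖Phq w M 1 F‖ ^ 2 + ch2 w M F ^ 2 := by
  have hc := continuous_el hM hE F
  have h0 := nm_sq_split (f := fun c => Real.exp (el w M F c) - 1) (by fun_prop)
  have h1 : avg (fun c => Real.exp (el w M F c) - 1) = 0 := by
    unfold avg
    rw [intervalIntegral.integral_sub (Continuous.intervalIntegrable (by fun_prop) _ _)
      (Continuous.intervalIntegrable (by fun_prop) _ _), int_exp_el hM hE]
    simp
  have h2 : hat (fun c => Real.exp (el w M F c) - 1) 1 = Phq w M 1 F := by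
    rw [hat_sub (by fun_prop) continuous_const, hat_exp_el hM hE]
    have : hat (fun _ => (1 : ℝ)) 1 = 0 := by
      unfold hat
      simp only [Complex.ofReal_one, one_mul]
      exact int_ph 1 one_ne_zero
    rw [this, sub_zero]
  have h3 : hi (fun c => Real.exp (el w M F c) - 1) = hi fun c => Real.exp (el w M F c) := by
    funext u
    have e : (fun c => Real.exp (el w M F c) - 1) =
        fun c => Real.exp (el w M F c) + -1 := by funext c; ring
    rw [e, hi_add (by fun_prop) continuous_const, hi_const, add_zero]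
  rw [h1, h2, h3] at h0
  unfold chA ch2
  rw [h0]
  ring

omit [DecidableEq V] in
/-- `dchA² = 2 |D_g Φ₁|² + dch2²` -/
theorem dchA_sq (hM : M.transpose = M) (hE : EM (wM w M)) (F g : V → ℝ) :
    dchA w M F g ^ 2 = 2 * ‖dPh w M 1 F g‖ ^ 2 + dch2 w M F g ^ 2 := by
  have hc := continuous_el hM hE F
  have hc1 := continuous_el1 hE F g
  have h0 := nm_sq_split (f := fun c => Real.exp (el w M F c) * el1 w M F g c) (by fun_prop)
  have h1 : avg (fun c => Real.exp (el w M F c) * el1 w M F g c) = 0 := int_el1 hM hE F g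
  rw [h1] at h0
  unfold dchA dch2
  rw [h0]
  have h2 : hat (fun c => Real.exp (el w M F c) * el1 w M F g c) 1 = dPh w M 1 F g := rfl
  rw [h2]
  ring

omit [DecidableEq V] in
/-- the norms of the logarithm in terms of the charges -/
theorem nm_el_chA (hM : M.transpose = M) (hE : EM (wM w M)) {ω : ℝ} (hO : OscZ w M ω)
    (hω : ω ≤ 1 / 2) (F : V → ℝ) : nm (el w M F) ≤ 2 * chA w M F :=
  (nz_el hM hE hO hω F).nm_le'

omit [DecidableEq V] in
theorem nm_hi_el (hM : M.transpose = M) (hE : EM (wM w M)) {ω : ℝ} (hO : OscZ w M ω)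
    (hω : ω ≤ 1 / 2) (F : V → ℝ) :
    nm (hi (el w M F)) ≤ ch2 w M F + 2 * ω * nm (el w M F) :=
  (nz_el hM hE hO hω F).nm_hi_le'

omit [DecidableEq V] in
theorem nm_hi_el1 (hM : M.transpose = M) (hE : EM (wM w M)) {ω : ℝ} (hO : OscZ w M ω)
    (hω : ω ≤ 1 / 2) (F g : V → ℝ) :
    nm (hi (el1 w M F g)) ≤ dch2 w M F g + 4 * ω * nm (el1 w M F g) := by
  have h := (nz_el hM hE hO hω F).nm_hi1_le (continuous_el1 hE F g)
  unfold dch2
  linarith

omit [DecidableEq V] in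
theorem nm_el1_dchA (hM : M.transpose = M) (hE : EM (wM w M)) {ω : ℝ} (hO : OscZ w M ω)
    (hω : ω ≤ 1 / 2) (F g : V → ℝ) : nm (el1 w M F g) ≤ 3 * dchA w M F g :=
  (nz_el hM hE hO hω F).nm1_le (continuous_el1 hE F g)

omit [DecidableEq V] in
/-- **LOC11, value, in terms of the charges**: `|Φ₁ - W₁| ≤ 2 ω ch2 + 24 ω² chA` -/
theorem Ph1_sub_W1_ch (hM : M.transpose = M) (hE : EM (wM w M)) {ω : ℝ} (hO : OscZ w M ω)
    (hω0 : 0 ≤ ω) (hω : ω ≤ 1 / 2) (F : V → ℝ) :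
    ‖Phq w M 1 F - Wq w M 1 F‖ ≤ 2 * ω * ch2 w M F + 24 * ω ^ 2 * chA w M F := by
  have h1 := Ph1_sub_W1 hM hE hO hω F
  have h2 := nm_hi_el hM hE hO hω F
  have h3 := nm_el_le hM hE hO hω F
  have h4 := nm_el_chA hM hE hO hω F
  have h5 : 0 ≤ nm (el w M F) := nm_nonneg _
  have h6 : 0 ≤ ch2 w M F := nm_nonneg _
  have h7 : 0 ≤ chA w M F := nm_nonneg _
  calc ‖Phq w M 1 F - Wq w M 1 F‖
      ≤ nm (el w M F) * nm (hi (el w M F)) + 4 * ω * nm (el w M F) ^ 2 := h1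
    _ ≤ nm (el w M F) * (ch2 w M F + 2 * ω * nm (el w M F)) + 4 * ω * nm (el w M F) ^ 2 := by
        gcongr
    _ = nm (el w M F) * ch2 w M F + 6 * ω * (nm (el w M F) * nm (el w M F)) := by ring
    _ ≤ 2 * ω * ch2 w M F + 6 * ω * (2 * ω * (2 * chA w M F)) := by
        gcongr
    _ = _ := by ring

omit [DecidableEq V] in
/-- **LOC11, first derivative, in terms of the charges**:
`|D_g(Φ₁ - W₁)| ≤ 2 ω dch2 + 3 ch2 dchA + 84 ω² dchA` -/
theorem dPh1_sub_dW1_ch (hM : M.transpose = M) (hE : EM (wM w M)) {ω : ℝ} (hO : OscZ w M ω)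
    (hω0 : 0 ≤ ω) (hω : ω ≤ 1 / 2) (F g : V → ℝ) :
    ‖dPh w M 1 F g - dW w M 1 F g‖ ≤ 2 * ω * dch2 w M F g +
      3 * ch2 w M F * dchA w M F g + 84 * ω ^ 2 * dchA w M F g := by
  have h1 := dPh1_sub_dW1 hM hE hO hω F g
  have h2 := nm_hi_el hM hE hO hω F
  have h2' := nm_hi_el1 hM hE hO hω F g
  have h3 := nm_el_le hM hE hO hω F
  have h4 := nm_el1_dchA hM hE hO hω F g
  have h5 : 0 ≤ nm (el w M F) := nm_nonneg _
  have h5' : 0 ≤ nm (el1 w M F g) := nm_nonneg _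
  have h6 : 0 ≤ ch2 w M F := nm_nonneg _
  have h7 : 0 ≤ dchA w M F g := nm_nonneg _
  have h8 : 0 ≤ dch2 w M F g := nm_nonneg _
  set a := nm (el w M F) with ha
  set b := nm (el1 w M F g) with hb
  calc ‖dPh w M 1 F g - dW w M 1 F g‖
      ≤ a * nm (hi (el1 w M F g)) + nm (hi (el w M F)) * b + 8 * ω * a * b := h1
    _ ≤ a * (dch2 w M F g + 4 * ω * b) + (ch2 w M F + 2 * ω * a) * b + 8 * ω * a * b := by
        gcongr
    _ = a * dch2 w M F g + ch2 w M F * b + 14 * ω * (a * b) := by ring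
    _ ≤ (2 * ω) * dch2 w M F g + ch2 w M F * (3 * dchA w M F g) +
        14 * ω * ((2 * ω) * (3 * dchA w M F g)) := by
        gcongr
    _ = _ := by ring

end

end

end Vale.Agent.P159.H43
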