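import Vale.Agent.P159.H145.Loc2
import Vale.Agent.P159.H789.Ray
import Vale.Agent.P159.H43.Neu2
import Vale.Agent.P159.H896.Neu

/-!
P159 (helper43): the oscillation hypothesis `OscZ w M ω`, from the zero background.

`Lc w M = <1, (M - M G M) 1>` (`= t N² y / (1 + y)` on the torus).  For a periodic weight with (PK):
  `osc_c log Z(F + c) ≤ Lc / 4` for every real `F`, hence `OscZ w M (exp (Lc / 4) - 1)`;
and the charges: `|Φ_q(F)| ≤ Φ_q(0)`, `ch2 F ≤ ch2 0`, `chA F ≤ chA 0`.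
-/

open MeasureTheory Complex Set
open Vale.Agent.P159.TM.H104 (EM Lg Ex Cv Gr li T)
open Vale.Agent.P159.H37
open Vale.Agent.P159.H145 (LM L0 cs OscZ Per)

namespace Vale.Agent.P159.H43

noncomputable section

section

variable {V : Type*} [Fintype V] {w : (V → ℤ) → ℝ} {M : Matrix V V ℝ}

/-- parallelogram inequality for `log Z_M` -/
theorem LM_par (hM : M.transpose = M) (hE : EM (wM w M)) (he : Ev (wM w M)) (hK : PK (wM w M))
    (F G : V → ℝ) :
    2 * LM w M F + 2 * LM w M G ≤ LM w M (F + G) + LM w M (F - G) + 2 * LM w M 0 := by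
  have h1 := H789.Lg_par hE he hK (M.mulVec F) (M.mulVec G)
  have h2 := H789.qf_par M F G
  rw [H145.LM_eq hM hE, H145.LM_eq hM hE, H145.LM_eq hM hE, H145.LM_eq hM hE, H145.LM_eq hM hE,
    Matrix.mulVec_add, Matrix.mulVec_sub, Matrix.mulVec_zero, qf_zero_vec]
  linarith

/-- `<1, (M - M G M) 1>` -/
def Lc (w : (V → ℤ) → ℝ) (M : Matrix V V ℝ) : ℝ :=
  qf M 1 - qf (Gm (wM w M)) (M.mulVec 1)

/-- `log Z(0) - log Z(F) ≤ <F, (M - M G M) F> / 2` -/
theorem LM_zero_sub_le (hM : M.transpose = M) (hE : EM (wM w M)) (he : Ev (wM w M))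
    (hK : PK (wM w M)) (F : V → ℝ) :
    LM w M 0 - LM w M F ≤ (qf M F - qf (Gm (wM w M)) (M.mulVec F)) / 2 := by
  have h1 := H789.Rs_nonneg hE he hK (M.mulVec F)
  rw [H145.LM_eq hM hE, H145.LM_eq hM hE, Matrix.mulVec_zero, qf_zero_vec]
  unfold Rs at h1
  linarith

omit [Fintype V] in
lemma cs_zero_smul (s : ℝ) : cs (0 : V → ℝ) s = s • (1 : V → ℝ) := by
  funext x
  simp [cs]

theorem LM_const_le (hM : M.transpose = M) (hE : EM (wM w M)) (he : Ev (wM w M))
    (hK : PK (wM w M)) (s : ℝ) : LM w M 0 - LM w M (cs 0 s) ≤ s ^ 2 * Lc w M / 2 := by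
  have h := LM_zero_sub_le hM hE he hK (s • (1 : V → ℝ))
  rw [cs_zero_smul]
  rw [Matrix.mulVec_smul, qf_smul, qf_smul] at h
  unfold Lc
  linarith

lemma LM_periodic (hw : Per w) (F : V → ℝ) : Function.Periodic (fun c => LM w M (cs F c)) 1 := by
  intro c
  show Real.log (ZM w M (cs F (c + 1))) = Real.log (ZM w M (cs F c))
  have := H145.ZM_periodic (M := M) hw F c
  simp only at this
  rw [this]

lemma Lc_nonneg (hw : Per w) (hM : M.transpose = M) (hE : EM (wM w M)) (he : Ev (wM w M))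
    (hK : PK (wM w M)) : 0 ≤ Lc w M := by
  have h1 := LM_const_le hM hE he hK 1
  have h2 := LM_periodic (M := M) hw (0 : V → ℝ) 0
  simp only [zero_add] at h2
  rw [h2, H145.cs_zero] at h1
  linarith

/-- **oscillation in the constant, every real background** -/
theorem LM_osc (hw : Per w) (hM : M.transpose = M) (hE : EM (wM w M)) (he : Ev (wM w M))
    (hK : PK (wM w M)) (F : V → ℝ) (c d : ℝ) :
    LM w M (cs F c) - LM w M (cs F d) ≤ Lc w M / 4 := by
  classical
  have hcont : Continuous fun c => LM w M (cs F c) :=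
    (continuous_LM hM hE).comp (H145.continuous_cs F)
  have hper := LM_periodic (M := M) hw F
  obtain ⟨c0, hc0, hmax⟩ := (isCompact_Icc (a := (0 : ℝ)) (b := 1)).exists_isMaxOn
    ⟨0, ⟨le_rfl, zero_le_one⟩⟩ hcont.continuousOn
  have hmax' : ∀ c : ℝ, LM w M (cs F c) ≤ LM w M (cs F c0) := by
    intro c
    have h1 : LM w M (cs F (Int.fract c)) = LM w M (cs F c) := by
      have h3 := hper.int_mul ⌊c⌋ (Int.fract c)
      simp only [mul_one] at h3
      rw [← h3, Int.fract_add_floor]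
    rw [← h1]
    exact hmax ⟨Int.fract_nonneg c, (Int.fract_lt_one c).le⟩
  set s : ℝ := d - c0 - round (d - c0) with hs
  have hs1 : |s| ≤ 1 / 2 := abs_sub_round (d - c0)
  have hd : LM w M (cs F d) = LM w M (cs F (c0 + s)) := by
    have h3 := hper.int_mul (round (d - c0)) (c0 + s)
    simp only [mul_one] at h3
    rw [← h3]
    congr 2
    rw [hs]; ring
  have h1 := LM_par hM hE he hK (cs F c0) (cs 0 s)
  have e1 : cs F c0 + cs 0 s = cs F (c0 + s) := by
    funext x; simp only [cs, Pi.add_apply, Pi.zero_apply]; ring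
  have e2 : cs F c0 - cs 0 s = cs F (c0 - s) := by
    funext x; simp only [cs, Pi.sub_apply, Pi.zero_apply]; ring
  rw [e1, e2] at h1
  have h2 := LM_const_le hM hE he hK s
  have h3 := hmax' (c0 - s)
  have h4 := hmax' c
  have h5 := Lc_nonneg hw hM hE he hK
  have h6 : s ^ 2 ≤ 1 / 4 := by
    rw [← sq_abs]; nlinarith [abs_nonneg s]
  have h7 : s ^ 2 * Lc w M ≤ Lc w M / 4 := by nlinarith
  rw [hd]
  linarith

/-- **(OSC)** `OscZ w M (exp (Lc / 4) - 1)` -/
theorem oscZ_Lc (hw : Per w) (hM : M.transpose = M) (hE : EM (wM w M)) (he : Ev (wM w M))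
    (hK : PK (wM w M)) : OscZ w M (Real.exp (Lc w M / 4) - 1) := by
  intro F c _
  have hZ : ∀ a b : ℝ, ZM w M (cs F a) ≤ Real.exp (Lc w M / 4) * ZM w M (cs F b) := by
    intro a b
    have h1 := LM_osc hw hM hE he hK F a b
    have ha := ZM_pos hM hE (cs F a)
    have hb := ZM_pos hM hE (cs F b)
    rw [← Real.exp_log ha, ← Real.exp_log hb, ← Real.exp_add]
    refine Real.exp_le_exp.2 ?_
    unfold LM at h1
    linarith
  have hc : Continuous fun a => ZM w M (cs F a) :=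
    (H145.continuous_ZM hM hE).comp (H145.continuous_cs F)
  have h1 : ZM w M (cs F c) ≤ Real.exp (Lc w M / 4) * Zn w M F := by
    have h2 : Real.exp (Lc w M / 4) * Zn w M F =
        ∫ a in (0 : ℝ)..1, Real.exp (Lc w M / 4) * ZM w M (cs F a) := by
      rw [intervalIntegral.integral_const_mul]
      rfl
    have h3 : ZM w M (cs F c) = ∫ _ in (0 : ℝ)..1, ZM w M (cs F c) := by simp
    rw [h2, h3]
    exact int_mono continuous_const (by fun_prop) fun a _ => hZ c a
  have h4 : Zn w M F ≤ Real.exp (Lc w M / 4) * ZM w M (cs F c) := by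
    have h3 : Real.exp (Lc w M / 4) * ZM w M (cs F c) =
        ∫ _ in (0 : ℝ)..1, Real.exp (Lc w M / 4) * ZM w M (cs F c) := by simp
    rw [h3]
    have h5 : Zn w M F = ∫ a in (0 : ℝ)..1, ZM w M (cs F a) := rfl
    rw [h5]
    exact int_mono hc continuous_const fun a _ => hZ a c
  have h0 := H145.Zn_pos hM hE F
  have hE1 : 1 ≤ Real.exp (Lc w M / 4) :=
    Real.one_le_exp (by have := Lc_nonneg hw hM hE he hK; linarith)
  rw [abs_le]
  constructor
  · -- `Z ≥ e^{-L/4} Zn ≥ (2 - e^{L/4}) Zn`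
    have h6 : Zn w M F / Real.exp (Lc w M / 4) ≤ ZM w M (cs F c) := by
      rw [div_le_iff₀ (Real.exp_pos _)]
      linarith
    have h7 : (2 - Real.exp (Lc w M / 4)) * Zn w M F ≤ Zn w M F / Real.exp (Lc w M / 4) := by
      rw [le_div_iff₀ (Real.exp_pos _)]
      nlinarith [sq_nonneg (Real.exp (Lc w M / 4) - 1)]
    nlinarith
  · nlinarith

/-- `OscZ w M (Lc / 2)` if `Lc ≤ 1` -/
theorem oscZ_of_Lc_le (hw : Per w) (hM : M.transpose = M) (hE : EM (wM w M)) (he : Ev (wM w M))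
    (hK : PK (wM w M)) {a : ℝ} (ha : Lc w M ≤ a) (ha1 : a ≤ 1) : OscZ w M (a / 2) := by
  intro F c hc
  refine (oscZ_Lc hw hM hE he hK F c hc).trans ?_
  refine mul_le_mul_of_nonneg_right ?_ (H145.Zn_pos hM hE F).le
  have h0 := Lc_nonneg hw hM hE he hK
  have h1 := (abs_le.1 (exp_sub_one_le (x := Lc w M / 4) (by
    rw [abs_of_nonneg (by linarith)]; linarith))).2
  rw [abs_of_nonneg (by linarith)] at h1
  linarith

theorem oscZ_mono {ω ω' : ℝ} (hM : M.transpose = M) (hE : EM (wM w M)) (h : OscZ w M ω)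
    (hω : ω ≤ ω') : OscZ w M ω' := fun F c hc =>
  (h F c hc).trans (mul_le_mul_of_nonneg_right hω (H145.Zn_pos hM hE F).le)

/-- `Lc` for constant row sums -/
theorem Lc_row {m : ℝ} (hrow : M.mulVec 1 = m • (1 : V → ℝ)) :
    Lc w M = m * Fintype.card V - m ^ 2 * qf (Gm (wM w M)) 1 := by
  unfold Lc
  rw [hrow, qf_smul]
  have h1 : qf M 1 = m * Fintype.card V := by
    rw [qf_eq, hrow]
    simp [dotProduct, mul_comm]
  rw [h1]

end

/-! ### the charges are largest at background `0` -/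

section

variable {V : Type} [Fintype V] [DecidableEq V] {w : (V → ℤ) → ℝ} {M : Matrix V V ℝ}

omit [DecidableEq V] in
theorem norm_Phq_le (h : H896.WM w M) (q : ℤ) (F : V → ℝ) :
    ‖Phq w M q F‖ ≤ ‖Phq w M q 0‖ := by
  have h1 := H896.Zq_le h q F
  have p1 := H896.Zn_pos h F
  have p2 := H896.Zn_pos h 0
  have h2 : ‖Phq w M q 0‖ = H896.Aw w M q 0 / Zn w M 0 := by
    unfold Phq
    rw [H896.Zq_zero h, norm_div, Complex.norm_real, Complex.norm_real, Real.norm_eq_abs,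
      Real.norm_eq_abs, abs_of_nonneg (H896.Aw_nonneg h q 0), abs_of_pos p2]
  have h3 : ‖Phq w M q F‖ = ‖Zq w M q F‖ / Zn w M F := by
    unfold Phq
    rw [norm_div, Complex.norm_real, Real.norm_eq_abs, abs_of_pos p1]
  rw [h2, h3, div_le_div_iff₀ p1 p2]
  linarith

omit [DecidableEq V] in
theorem ch2_le (h : H896.WM w M) (F : V → ℝ) : ch2 w M F ≤ ch2 w M 0 := by
  have h1 := hasSum_ch2 h.sym h.em F
  have h2 := hasSum_ch2 h.sym h.em 0
  have h3 : ch2 w M F ^ 2 ≤ ch2 w M 0 ^ 2 := by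
    refine hasSum_le (fun q => ?_) h1 h2
    by_cases hq : q = 0 ∨ q = 1 ∨ q = -1
    · rw [if_pos hq, if_pos hq]
    · rw [if_neg hq, if_neg hq]
      exact pow_le_pow_left₀ (norm_nonneg _) (norm_Phq_le h q F) 2
  exact (abs_le_of_sq_le_sq' h3 (nm_nonneg _)).2

omit [DecidableEq V] in
theorem chA_le (h : H896.WM w M) (F : V → ℝ) : chA w M F ≤ chA w M 0 := by
  have h1 := chA_sq h.sym h.em F
  have h2 := chA_sq h.sym h.em 0
  have h3 := ch2_le h F
  have h4 := norm_Phq_le h 1 F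
  have h5 : 0 ≤ ch2 w M F := nm_nonneg _
  have h6 : chA w M F ^ 2 ≤ chA w M 0 ^ 2 := by
    rw [h1, h2]
    have a1 : ‖Phq w M 1 F‖ ^ 2 ≤ ‖Phq w M 1 0‖ ^ 2 := pow_le_pow_left₀ (norm_nonneg _) h4 2
    have a2 : ch2 w M F ^ 2 ≤ ch2 w M 0 ^ 2 := pow_le_pow_left₀ h5 h3 2
    linarith
  exact (abs_le_of_sq_le_sq' h6 (nm_nonneg _)).2

end

end

end Vale.Agent.P159.H43
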