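import Vale.Agent.P159.H963.NeuI
import Vale.Agent.P159.H896.FlowT
import Vale.Agent.P159.H145.Loc2T

/-!
P159, module NKT (helper43), part 1: the variance of a neutral source in a constant background
differs from the neutral variance by at most `C ω` (charge sectors of the larger mass), by two
Gaussian integrations by parts (in the form of finite differences).
-/

open MeasureTheory Matrix
open Vale.Agent.P159.TM.H104 (EM Ex Cv Lg li Gr)
open Vale.Agent.P159.H37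
open Vale.Agent.P159.H896 (WM Chn cN chn_ZM chn_ZM_int chn_Zn chn_Zn_int)
open Vale.Agent.P159.H145 (cs OscZ)
open Vale.Agent.P159.H963 (GW MF Neu nM ntr)

set_option linter.unusedSectionVars false

namespace Vale.Agent.P159.H43

noncomputable section

/-! ### symmetric second differences -/

theorem lim2_aux {f f' : ℝ → ℝ} {f2 C : ℝ} (h1 : ∀ s, HasDerivAt f (f' s) s)
    (h2 : HasDerivAt f' f2 0) (hC : ∀ s, f s + f (-s) - 2 * f 0 ≤ C * s ^ 2) : f2 ≤ C := by
  by_contra hcon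
  push Not at hcon
  -- the derivative of the even part
  have d1 : ∀ s, HasDerivAt (fun s => f s + f (-s) - 2 * f 0) (f' s - f' (-s)) s := by
    intro s
    have e1 : HasDerivAt (fun s : ℝ => f (-s)) (f' (-s) * (-1)) s :=
      (h1 (-s)).comp s (hasDerivAt_neg s)
    have := ((h1 s).add e1).sub_const (2 * f 0)
    refine this.congr_deriv ?_
    ring
  have d2 : HasDerivAt (fun s => f' s - f' (-s)) (2 * f2) 0 := by
    have e0 : HasDerivAt f' f2 (-0) := by rwa [neg_zero]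
    have e1 : HasDerivAt (fun s : ℝ => f' (-s)) (f2 * (-1)) 0 := e0.comp 0 (hasDerivAt_neg 0)
    have := h2.sub e1
    refine this.congr_deriv ?_
    ring
  have d3 := d2.tendsto_slope
  have h3 : f2 + C < 2 * f2 := by linarith
  have h4 := (d3.eventually (lt_mem_nhds h3))
  rw [eventually_nhdsWithin_iff, Metric.eventually_nhds_iff] at h4
  obtain ⟨δ, hδ, h4⟩ := h4
  have h5 : ∀ s : ℝ, 0 < s → s < δ → (f2 + C) * s ≤ f' s - f' (-s) := by
    intro s hs hsd
    have h6 := h4 (y := s) (by rwa [Real.dist_eq, sub_zero, abs_of_pos hs]) hs.ne'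
    rw [slope_def_field] at h6
    simp only [neg_zero, sub_self, sub_zero] at h6
    rw [lt_div_iff₀ hs] at h6
    exact h6.le
  set s0 : ℝ := δ / 2 with hs0
  have hs0p : 0 < s0 := by positivity
  have hmono : MonotoneOn (fun s => (f s + f (-s) - 2 * f 0) - (f2 + C) * s ^ 2 / 2)
      (Set.Icc 0 s0) := by
    apply monotoneOn_of_deriv_nonneg (convex_Icc 0 s0)
    · refine ContinuousOn.sub (fun s _ => (d1 s).continuousAt.continuousWithinAt) ?_
      fun_prop
    · intro s _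
      exact ((d1 s).sub ((((hasDerivAt_pow 2 s).const_mul (f2 + C)).div_const
        2))).differentiableAt.differentiableWithinAt
    · intro s hs
      rw [interior_Icc] at hs
      have h6 := ((d1 s).sub ((((hasDerivAt_pow 2 s).const_mul (f2 + C)).div_const 2))).deriv
      have h7 : (fun s => (f s + f (-s) - 2 * f 0) - (f2 + C) * s ^ 2 / 2) =
          (fun s => f s + f (-s) - 2 * f 0) - fun s => (f2 + C) * s ^ 2 / 2 := rfl
      rw [h7, h6]
      have h8 := h5 s hs.1 (by have := hs.2; rw [hs0] at this; linarith)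
      simp only [Nat.cast_ofNat, Nat.add_one_sub_one, pow_one]
      linarith
  have h6 := hmono (Set.left_mem_Icc.2 hs0p.le) (Set.right_mem_Icc.2 hs0p.le) hs0p.le
  simp only [neg_zero, ne_eq, OfNat.ofNat_ne_zero, not_false_eq_true, zero_pow, mul_zero,
    zero_div, sub_zero] at h6
  have h7 := hC s0
  have h8 : (f2 + C) * s0 ^ 2 / 2 ≤ C * s0 ^ 2 := by linarith
  have h9 : 0 < s0 ^ 2 := by positivity
  nlinarith

/-- a symmetric second difference of order `C s²` bounds the second derivative -/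
theorem lim2 {f f' : ℝ → ℝ} {f2 C : ℝ} (h1 : ∀ s, HasDerivAt f (f' s) s)
    (h2 : HasDerivAt f' f2 0) (hC : ∀ s, |f s + f (-s) - 2 * f 0| ≤ C * s ^ 2) : |f2| ≤ C := by
  rw [abs_le]
  constructor
  · have h := lim2_aux (f := fun s => -f s) (f' := fun s => -f' s) (f2 := -f2) (C := C)
      (fun s => (h1 s).neg) h2.neg (fun s => by
        have := (abs_le.1 (hC s)).1
        linarith)
    linarith
  · exact lim2_aux h1 h2 fun s => (abs_le.1 (hC s)).2

/-! ### finite differences along the channel -/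

section chn

variable {V : Type} [Fintype V] [DecidableEq V] {I : Type} [Fintype I]
variable {w : (V → ℤ) → ℝ} {M M' : Matrix V V ℝ} {B : Matrix V I ℝ} {K : Matrix I V ℝ}

/-- Cameron-Martin for the heat flow -/
theorem chn_shift {Φ : (V → ℝ) → ℝ} {f : V → ℝ} {v : I → ℝ} {κ Z : ℝ}
    (h : ∫ g, Φ (f + B *ᵥ v + B *ᵥ g) ∂(gau I) = κ * Z) :
    ∫ g, Real.exp ((∑ i, v i * g i) - (∑ i, v i ^ 2) / 2) * Φ (f + B *ᵥ g) ∂(gau I) = κ * Z := by
  have h1 := gau_shift v fun g : I → ℝ => Φ (f + B *ᵥ g)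
  rw [← h1, ← h]
  refine integral_congr_ae (Filter.Eventually.of_forall fun g => ?_)
  simp only
  congr 1
  rw [mulVec_add]
  abel

theorem chn_shift_int {Φ : (V → ℝ) → ℝ} {f : V → ℝ} {v : I → ℝ}
    (h : Integrable (fun g => Φ (f + B *ᵥ v + B *ᵥ g)) (gau I)) (h0 : ∀ F, 0 < Φ F) :
    Integrable (fun g : I → ℝ => Real.exp ((∑ i, v i * g i) - (∑ i, v i ^ 2) / 2) *
      Φ (f + B *ᵥ g)) (gau I) := by
  by_contra hc
  have h1 := gau_shift v fun g : I → ℝ => Φ (f + B *ᵥ g)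
  rw [integral_undef hc] at h1
  have h2 : 0 < ∫ g, Φ (f + B *ᵥ v + B *ᵥ g) ∂(gau I) := by
    rw [integral_pos_iff_support_of_nonneg (fun g => (h0 _).le) h]
    have : Function.support (fun g : I → ℝ => Φ (f + B *ᵥ v + B *ᵥ g)) = Set.univ := by
      ext g
      simp [(h0 _).ne']
    rw [this]
    simp
  have h3 : ∫ g, Φ (f + B *ᵥ (g + v)) ∂(gau I) = ∫ g, Φ (f + B *ᵥ v + B *ᵥ g) ∂(gau I) := by
    refine integral_congr_ae (Filter.Eventually.of_forall fun g => ?_)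
    simp only
    congr 1
    rw [mulVec_add]
    abel
  rw [h3] at h1
  linarith

theorem int3 {Ω : Type*} [MeasurableSpace Ω] {P : Measure Ω} {a b c : Ω → ℝ}
    (ha : Integrable a P) (hb : Integrable b P) (hc : Integrable c P) :
    ∫ x, (a x + b x - 2 * c x) ∂P = ∫ x, a x ∂P + ∫ x, b x ∂P - 2 * ∫ x, c x ∂P := by
  have h1 : ∫ x, (a x + b x - 2 * c x) ∂P = ∫ x, (a x + b x) ∂P - ∫ x, 2 * c x ∂P :=
    integral_sub (ha.add hb) (hc.const_mul 2)
  rw [h1, integral_add ha hb, integral_const_mul]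

/-- the kernel of the second difference -/
def ks (v g : I → ℝ) : ℝ :=
  Real.exp ((∑ i, v i * g i) - (∑ i, v i ^ 2) / 2) +
    Real.exp ((∑ i, (-v) i * g i) - (∑ i, (-v) i ^ 2) / 2) - 2

lemma abs_ks_le (v g : I → ℝ) : |ks v g| ≤ ks v g + 2 * ∑ i, v i ^ 2 := by
  set a : ℝ := (∑ i, v i ^ 2) / 2 with ha
  set x : ℝ := ∑ i, v i * g i with hx
  have ha0 : 0 ≤ a := div_nonneg (Finset.sum_nonneg fun i _ => sq_nonneg _) two_pos.le
  have e1 : (∑ i, (-v) i * g i) = -x := by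
    rw [hx, ← Finset.sum_neg_distrib]
    exact Finset.sum_congr rfl fun i _ => by rw [Pi.neg_apply]; ring
  have e2 : (∑ i, (-v) i ^ 2) = ∑ i, v i ^ 2 :=
    Finset.sum_congr rfl fun i _ => by rw [Pi.neg_apply]; ring
  have h1 : ks v g = Real.exp (x - a) + Real.exp (-x - a) - 2 := by
    unfold ks
    rw [e1, e2]
  have h2 : -(2 * a) ≤ ks v g := by
    rw [h1]
    have h3 := Real.add_one_le_exp (x - a)
    have h4 := Real.add_one_le_exp (-x - a)
    linarith
  have h5 : ∑ i, v i ^ 2 = 2 * a := by rw [ha]; ring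
  rw [h5]
  rcases le_total 0 (ks v g) with h | h
  · rw [abs_of_nonneg h]
    linarith
  · rw [abs_of_nonpos h]
    linarith

/-- **second differences of `Z` in a constant background and of the neutral `Z`** -/
theorem d2_le (hw : WM w M') (h : Chn M M' B K) {ω : ℝ} (hO : OscZ w M ω) (hω : 0 ≤ ω)
    (hmax : ∀ F, Zn w M' F ≤ Zn w M' 0) {c : ℝ} (hc : c ∈ Set.Icc (0 : ℝ) 1) (v : I → ℝ) :
    |(ZM w M' (cs (B *ᵥ v) c) + ZM w M' (cs (-(B *ᵥ v)) c) - 2 * ZM w M' (cs 0 c)) -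
      (Zn w M' (B *ᵥ v) + Zn w M' (-(B *ᵥ v)) - 2 * Zn w M' 0)| ≤
      2 * ω * (∑ i, v i ^ 2) * Zn w M' 0 := by
  have hwM := h.wm hw
  have hκ : 0 < cN M B := H896.cN_pos h.nn
  have pZ : ∀ F : V → ℝ, 0 < ZM w M F := fun F => H37.ZM_pos hwM.sym hwM.em F
  have pN : ∀ F : V → ℝ, 0 < Zn w M F := fun F => H896.Zn_pos hwM F
  have ecs : ∀ F : V → ℝ, cs F c = cs 0 c + F := by
    intro F
    funext x
    simp only [cs, Pi.add_apply, Pi.zero_apply]
    ring
  have eB : -(B *ᵥ v) = B *ᵥ (-v) := (mulVec_neg v B).symm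
  -- the two families
  have z1 := chn_shift (B := B) (v := v) (f := cs 0 c) (chn_ZM h hw.em (cs 0 c + B *ᵥ v))
  have z2 := chn_shift (B := B) (v := -v) (f := cs 0 c) (chn_ZM h hw.em (cs 0 c + B *ᵥ (-v)))
  have z0 := chn_ZM h hw.em (cs 0 c)
  have n1 := chn_shift (B := B) (v := v) (f := 0) (chn_Zn h hw (0 + B *ᵥ v))
  have n2 := chn_shift (B := B) (v := -v) (f := 0) (chn_Zn h hw (0 + B *ᵥ (-v)))
  have n0 := chn_Zn h hw (0 : V → ℝ)
  have iz1 := chn_shift_int (B := B) (v := v) (f := cs 0 c) (chn_ZM_int h hw.em (cs 0 c + B *ᵥ v)) pZ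
  have iz2 := chn_shift_int (B := B) (v := -v) (f := cs 0 c)
    (chn_ZM_int h hw.em (cs 0 c + B *ᵥ (-v))) pZ
  have iz0 := chn_ZM_int h hw.em (cs 0 c)
  have in1 := chn_shift_int (B := B) (v := v) (f := 0) (chn_Zn_int h hw (0 + B *ᵥ v)) pN
  have in2 := chn_shift_int (B := B) (v := -v) (f := 0) (chn_Zn_int h hw (0 + B *ᵥ (-v))) pN
  have in0 := chn_Zn_int h hw (0 : V → ℝ)
  set A : (I → ℝ) → ℝ := fun g => ZM w M (cs 0 c + B *ᵥ g) with hA
  set Nn : (I → ℝ) → ℝ := fun g => Zn w M (0 + B *ᵥ g) with hN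
  have iA : Integrable (fun g => ks v g * A g) (gau I) := by
    refine ((iz1.add iz2).sub (iz0.const_mul 2)).congr (Filter.Eventually.of_forall fun g => ?_)
    simp only [Pi.add_apply, Pi.sub_apply, ks, hA]
    ring
  have iN : Integrable (fun g => ks v g * Nn g) (gau I) := by
    refine ((in1.add in2).sub (in0.const_mul 2)).congr (Filter.Eventually.of_forall fun g => ?_)
    simp only [Pi.add_apply, Pi.sub_apply, ks, hN]
    ring
  have sA : ∫ g, ks v g * A g ∂(gau I) = cN M B *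
      (ZM w M' (cs (B *ᵥ v) c) + ZM w M' (cs (-(B *ᵥ v)) c) - 2 * ZM w M' (cs 0 c)) := by
    have e : ∀ g, ks v g * A g =
        (Real.exp ((∑ i, v i * g i) - (∑ i, v i ^ 2) / 2) * ZM w M (cs 0 c + B *ᵥ g) +
        Real.exp ((∑ i, (-v) i * g i) - (∑ i, (-v) i ^ 2) / 2) * ZM w M (cs 0 c + B *ᵥ g)) -
        2 * ZM w M (cs 0 c + B *ᵥ g) := by
      intro g
      simp only [ks, hA]
      ring
    simp only [e]
    have z0' : ∫ g, ZM w M (cs 0 c + B *ᵥ g) ∂(gau I) = cN M B * ZM w M' (cs 0 c) := z0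
    rw [int3 iz1 iz2 iz0, z1, z2, z0', ecs (B *ᵥ v), ecs (-(B *ᵥ v)), eB]
    ring
  have sN : ∫ g, ks v g * Nn g ∂(gau I) = cN M B *
      (Zn w M' (B *ᵥ v) + Zn w M' (-(B *ᵥ v)) - 2 * Zn w M' 0) := by
    have e : ∀ g, ks v g * Nn g =
        (Real.exp ((∑ i, v i * g i) - (∑ i, v i ^ 2) / 2) * Zn w M (0 + B *ᵥ g) +
        Real.exp ((∑ i, (-v) i * g i) - (∑ i, (-v) i ^ 2) / 2) * Zn w M (0 + B *ᵥ g)) -
        2 * Zn w M (0 + B *ᵥ g) := by
      intro g
      simp only [ks, hN]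
      ring
    simp only [e]
    have n0' : ∫ g, Zn w M (0 + B *ᵥ g) ∂(gau I) = cN M B * Zn w M' 0 := n0
    rw [int3 in1 in2 in0, n1, n2, n0', eB, zero_add, zero_add]
    ring
  have hdiff : ∀ g, |A g - Nn g| ≤ ω * Nn g := by
    intro g
    have h1 := hO (B *ᵥ g) c hc
    simp only [hA, hN, zero_add]
    rw [← ecs]
    exact h1
  have hpt : ∀ g, ‖ks v g * A g - ks v g * Nn g‖ ≤
      ω * (ks v g * Nn g + 2 * (∑ i, v i ^ 2) * Nn g) := by
    intro g
    rw [← mul_sub, Real.norm_eq_abs, abs_mul]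
    have h1 := mul_le_mul (abs_ks_le v g) (hdiff g) (abs_nonneg _)
      ((abs_nonneg _).trans (abs_ks_le v g))
    refine h1.trans (le_of_eq ?_)
    ring
  have hint : Integrable (fun g => ω * (ks v g * Nn g + 2 * (∑ i, v i ^ 2) * Nn g)) (gau I) :=
    (iN.add (in0.const_mul (2 * ∑ i, v i ^ 2))).const_mul ω
  have h1 : |∫ g, (ks v g * A g - ks v g * Nn g) ∂(gau I)| ≤
      ∫ g, ω * (ks v g * Nn g + 2 * (∑ i, v i ^ 2) * Nn g) ∂(gau I) := by
    rw [← Real.norm_eq_abs]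
    exact norm_integral_le_of_norm_le hint (Filter.Eventually.of_forall hpt)
  have i5 : ∫ g, ω * (ks v g * Nn g + 2 * (∑ i, v i ^ 2) * Nn g) ∂(gau I) =
      ω * (cN M B * (Zn w M' (B *ᵥ v) + Zn w M' (-(B *ᵥ v)) - 2 * Zn w M' 0) +
        2 * (∑ i, v i ^ 2) * (cN M B * Zn w M' 0)) := by
    rw [integral_const_mul, integral_add iN (in0.const_mul (2 * ∑ i, v i ^ 2)), sN,
      integral_const_mul]
    rw [show ∫ g, Nn g ∂(gau I) = cN M B * Zn w M' 0 from n0]
  rw [integral_sub iA iN, sA, sN, i5, ← mul_sub, abs_mul, abs_of_pos hκ] at h1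
  have h2 : Zn w M' (B *ᵥ v) + Zn w M' (-(B *ᵥ v)) - 2 * Zn w M' 0 ≤ 0 := by
    have h3 := hmax (B *ᵥ v)
    have h4 := hmax (-(B *ᵥ v))
    linarith
  have h5 : ω * (cN M B * (Zn w M' (B *ᵥ v) + Zn w M' (-(B *ᵥ v)) - 2 * Zn w M' 0) +
      2 * (∑ i, v i ^ 2) * (cN M B * Zn w M' 0)) ≤
      cN M B * (2 * ω * (∑ i, v i ^ 2) * Zn w M' 0) := by
    have h6 : ω * (cN M B * (Zn w M' (B *ᵥ v) + Zn w M' (-(B *ᵥ v)) - 2 * Zn w M' 0)) ≤ 0 :=
      mul_nonpos_of_nonneg_of_nonpos hω (mul_nonpos_of_nonneg_of_nonpos hκ.le h2)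
    have h7 : ω * (2 * (∑ i, v i ^ 2) * (cN M B * Zn w M' 0)) =
        cN M B * (2 * ω * (∑ i, v i ^ 2) * Zn w M' 0) := by ring
    rw [mul_add, h7]
    linarith
  exact le_of_mul_le_mul_left (h1.trans h5) hκ

end chn

/-! ### derivatives -/

section der

variable {V : Type*} [Fintype V] {μ : (V → ℤ) → ℝ}

theorem hasDeriv_G (hμ : EM μ) (J b : V → ℝ) (α Q s : ℝ) :
    HasDerivAt (fun s : ℝ => Real.exp (α + Lg μ (J + s • b) - s ^ 2 * Q / 2))
      (Real.exp (α + Lg μ (J + s • b) - s ^ 2 * Q / 2) * (Ex μ (J + s • b) (li b) - s * Q)) s := by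
  have h1 := ((TM.H104.hasDerivAt_Lg hμ J b s).const_add α).sub
    (((hasDerivAt_pow 2 s).mul_const Q).div_const 2)
  have h2 := h1.exp
  refine h2.congr_deriv ?_
  simp only [Pi.sub_apply, Nat.cast_ofNat, Nat.add_one_sub_one, pow_one]
  ring

theorem hasDeriv_G2 (hμ : EM μ) (J b : V → ℝ) (α Q : ℝ) :
    HasDerivAt (fun s : ℝ => Real.exp (α + Lg μ (J + s • b) - s ^ 2 * Q / 2) *
      (Ex μ (J + s • b) (li b) - s * Q))
      (Real.exp (α + Lg μ J) * (Ex μ J (li b) ^ 2 + Cv μ J (li b) (li b) - Q)) 0 := by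
  have h1 := hasDeriv_G hμ J b α Q 0
  have h2 := (TM.H104.hasDerivAt_Ex hμ (Gr.li b) J b 0).sub ((hasDerivAt_id (0 : ℝ)).mul_const Q)
  have h3 := h1.mul h2
  refine h3.congr_deriv ?_
  simp only [Pi.sub_apply, zero_smul, add_zero, id_eq, ne_eq, OfNat.ofNat_ne_zero, not_false_eq_true, zero_pow,
    zero_mul, zero_div, sub_zero]
  ring

end der

/-! ### variances -/

section var

variable {V : Type} [Fintype V] [DecidableEq V] [Nonempty V] {I : Type} [Fintype I]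
variable {w : (V → ℤ) → ℝ} {M M' : Matrix V V ℝ} {B : Matrix V I ℝ} {K : Matrix I V ℝ}

lemma mulVec_cs (M : Matrix V V ℝ) (u : V → ℝ) (c s : ℝ) :
    M *ᵥ (cs (s • u) c) = M *ᵥ (cs 0 c) + s • (M *ᵥ u) := by
  have e : cs (s • u) c = cs 0 c + s • u := by
    funext x
    simp only [cs, Pi.add_apply, Pi.zero_apply, Pi.smul_apply]
    ring
  rw [e, mulVec_add, mulVec_smul]

lemma qf_cs {m : ℝ} (hM : MF M m) {u : V → ℝ} (hu : Neu u) (c s : ℝ) :
    qf M (cs (s • u) c) = qf M (cs 0 c) + s ^ 2 * qf M u := by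
  have e : cs (s • u) c = cs 0 c + s • u := by
    funext x
    simp only [cs, Pi.add_apply, Pi.zero_apply, Pi.smul_apply]
    ring
  have h1 : bf M (cs 0 c) u = 0 := by
    have h2 : M *ᵥ (cs (0 : V → ℝ) c) = fun _ => c * m := by
      funext x
      have h3 := hM.row x
      simp only [Matrix.mulVec, dotProduct, cs, Pi.zero_apply, zero_add]
      rw [← Finset.sum_mul, h3, mul_comm]
    rw [bf_comm hM.symm, bf_eq, h2]
    simp only [dotProduct]
    rw [← Finset.sum_mul, hu, zero_mul]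
  rw [e, qf_add_vec hM.symm, qf_smul]
  have h4 : bf M (cs 0 c) (s • u) = s * bf M (cs 0 c) u := by
    unfold bf
    rw [Finset.mul_sum]
    refine Finset.sum_congr rfl fun x _ => ?_
    rw [Finset.mul_sum]
    refine Finset.sum_congr rfl fun y _ => ?_
    simp only [Pi.smul_apply, smul_eq_mul]
    ring
  rw [h4, h1]
  ring

lemma ZM_line (hE : EM (wM w M)) {m : ℝ} (hM : MF M m) {u : V → ℝ} (hu : Neu u) (c s : ℝ) :
    ZM w M (cs (s • u) c) = Real.exp (-(qf M (cs 0 c) / 2) +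
      Lg (wM w M) (M *ᵥ (cs 0 c) + s • (M *ᵥ u)) - s ^ 2 * qf M u / 2) := by
  rw [ZM_eq w hM.symm, mulVec_cs, qf_cs hM hu]
  have h1 : 0 < Zs (wM w M) (M *ᵥ (cs 0 c) + s • (M *ᵥ u)) := TM.H104.T_one_pos hE _
  have h2 : Real.exp (Lg (wM w M) (M *ᵥ (cs 0 c) + s • (M *ᵥ u))) =
      Zs (wM w M) (M *ᵥ (cs 0 c) + s • (M *ᵥ u)) := by
    unfold Lg
    exact Real.exp_log h1
  rw [← h2, ← Real.exp_add]
  congr 1
  ring

lemma Zn_line (hw : GW w) {m : ℝ} (hM : MF M m) (x₀ : V) {u : V → ℝ} (hu : Neu u) (s : ℝ) :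
    Zn w M (s • u) = Real.exp (Real.log (Real.sqrt (2 * Real.pi / (m * Fintype.card V))) +
      Lg (nM w M m x₀) (0 + s • (M *ᵥ u)) - s ^ 2 * qf M u / 2) := by
  have hm := hM.pos
  have hN : (0 : ℝ) < Fintype.card V := Nat.cast_pos.2 Fintype.card_pos
  have hs : 0 < Real.sqrt (2 * Real.pi / (m * Fintype.card V)) := by
    have := Real.pi_pos
    positivity
  rw [hw.Zn_eq hM x₀, zero_add, mulVec_smul, H963.ntr_of_neu M m hu, qf_smul,
    H963.qf_ntr_neu M m hu]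
  have h1 : 0 < Zs (nM w M m x₀) (s • (M *ᵥ u)) := TM.H104.T_one_pos (hw.em_nM hM x₀) _
  have h2 : Real.exp (Lg (nM w M m x₀) (s • (M *ᵥ u))) = Zs (nM w M m x₀) (s • (M *ᵥ u)) := by
    unfold Lg
    exact Real.exp_log h1
  have h3 : Real.log (Real.sqrt (2 * Real.pi / (m * Fintype.card V))) +
      Lg (nM w M m x₀) (s • (M *ᵥ u)) - s ^ 2 * qf M u / 2 =
      Real.log (Real.sqrt (2 * Real.pi / (m * Fintype.card V))) +
      (-(s ^ 2 * qf M u / 2) + Lg (nM w M m x₀) (s • (M *ᵥ u))) := by ring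
  rw [h3, Real.exp_add, Real.exp_log hs, Real.exp_add, h2]

/-- **the second moment of a neutral source in a constant background and in the neutral model** -/
theorem var_le (hw : GW w) (hW : WM w M') (h : Chn M M' B K) {m : ℝ} (hM' : MF M' m) (x₀ : V)
    {ω ω' : ℝ} (hO : OscZ w M ω) (hω : 0 ≤ ω) (hO' : OscZ w M' ω')
    (hω1 : ω' < 1) (v : I → ℝ) (hv : Neu (B *ᵥ v)) {c : ℝ} (hc : c ∈ Set.Icc (0 : ℝ) 1) :
    |(Ex (wM w M') (M' *ᵥ (cs 0 c)) (li (M' *ᵥ (B *ᵥ v))) ^ 2 +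
        Cv (wM w M') (M' *ᵥ (cs 0 c)) (li (M' *ᵥ (B *ᵥ v))) (li (M' *ᵥ (B *ᵥ v)))) -
      qf (Gm (nM w M' m x₀)) (M' *ᵥ (B *ᵥ v))| ≤
      (2 * ω * (∑ i, v i ^ 2) + ω' * qf M' (B *ᵥ v)) / (1 - ω') := by
  set u := B *ᵥ v with hu
  set b := M' *ᵥ u with hb
  set Q := qf M' u with hQ
  set J := M' *ᵥ (cs (0 : V → ℝ) c) with hJ
  set μ := wM w M' with hμ
  set ν := nM w M' m x₀ with hν
  have hE : EM μ := hw.em_wM hM'
  have hEn : EM ν := hw.em_nM hM' x₀
  set α := -(qf M' (cs (0 : V → ℝ) c) / 2) with hα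
  set β := Real.log (Real.sqrt (2 * Real.pi / (m * Fintype.card V))) with hβ
  set m1 := Ex μ J (li b) with hm1
  have dc := fun s => hasDeriv_G hE J b α Q s
  have dc2 := hasDeriv_G2 hE J b α Q
  have dn := fun s => hasDeriv_G hEn 0 b β Q s
  have dn2 := hasDeriv_G2 hEn 0 b β Q
  have lc : ∀ s : ℝ, ZM w M' (cs (s • u) c) =
      Real.exp (α + Lg μ (J + s • b) - s ^ 2 * Q / 2) := fun s => ZM_line hE hM' hv c s
  have ln : ∀ s : ℝ, Zn w M' (s • u) =
      Real.exp (β + Lg ν (0 + s • b) - s ^ 2 * Q / 2) := fun s => Zn_line hw hM' x₀ hv s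
  set fc : ℝ → ℝ := fun s => Real.exp (α + Lg μ (J + s • b) - s ^ 2 * Q / 2) with hfc
  set fn : ℝ → ℝ := fun s => Real.exp (β + Lg ν (0 + s • b) - s ^ 2 * Q / 2) with hfn
  have hc0 : fc 0 = Real.exp (α + Lg μ J) := by
    simp only [hfc, zero_smul, add_zero]
    congr 1
    ring
  have hn0 : fn 0 = Real.exp (β + Lg ν 0) := by
    simp only [hfn, zero_smul, add_zero]
    congr 1
    ring
  have hpn : 0 < fn 0 := Real.exp_pos _
  have hlim := lim2 (fun s => (dc s).sub (dn s)) (dc2.sub dn2)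
    (C := 2 * ω * (∑ i, v i ^ 2) * fn 0) (fun s => by
      have h1 := d2_le hW h hO hω (hw.Zn_le hM') hc (s • v)
      rw [mulVec_smul, ← hu] at h1
      have e1 : -(s • u) = (-s) • u := (neg_smul s u).symm
      have e2 : (cs (0 : V → ℝ) c) = cs ((0 : ℝ) • u) c := by rw [zero_smul]
      have e3 : (0 : V → ℝ) = (0 : ℝ) • u := by rw [zero_smul]
      have e4 : ∑ i, (s • v) i ^ 2 = s ^ 2 * ∑ i, v i ^ 2 := by
        rw [Finset.mul_sum]
        refine Finset.sum_congr rfl fun i _ => ?_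
        rw [Pi.smul_apply, smul_eq_mul, mul_pow]
      rw [e1, e2, lc s, lc (-s), lc 0, ln s, ln (-s), e4] at h1
      have e5 : Zn w M' 0 = fn 0 := by
        have := ln 0
        rwa [zero_smul] at this
      rw [e5] at h1
      have e6 : (fc s - fn s) + (fc (-s) - fn (-s)) - 2 * (fc 0 - fn 0) =
          (fc s + fc (-s) - 2 * fc 0) - (fn s + fn (-s) - 2 * fn 0) := by ring
      simp only [Pi.sub_apply]
      rw [e6]
      refine h1.trans (le_of_eq ?_)
      ring)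
  rw [← hc0, ← hn0] at hlim
  have hExn : Ex ν 0 (li b) = 0 := H789.Ex_zero_li (hw.ev_nM M' m x₀) b
  have hCvn : Cv ν 0 (li b) (li b) = qf (Gm ν) b := by
    rw [← H864.qf_Cm hEn]
    rfl
  rw [hExn, hCvn] at hlim
  -- the two values at zero
  have hosc : |fc 0 - fn 0| ≤ ω' * fn 0 := by
    have h1 := hO' 0 c hc
    have e2 : (cs (0 : V → ℝ) c) = cs ((0 : ℝ) • u) c := by rw [zero_smul]
    have e5 : Zn w M' 0 = fn 0 := by
      have := ln 0
      rwa [zero_smul] at this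
    rw [e2, lc 0, e5] at h1
    exact h1
  set X := m1 ^ 2 + Cv μ J (li b) (li b) - Q with hX
  set Y := qf (Gm ν) b - Q with hY
  have hY0 : -Q ≤ Y := by
    have := H864.qf_Cm_nonneg hEn 0 b
    have e : qf (Cm ν 0) b = qf (Gm ν) b := rfl
    rw [e] at this
    linarith
  have hY1 : Y ≤ 0 := by
    have h1 := hw.qf_nM_le_inv hM' x₀ (u := b) (by
      have h2 := hM'.sum_mulVec u
      rw [hv, mul_zero] at h2
      exact h2)
    have h3 : qf M'⁻¹ b = Q := by
      rw [hb, ← hM'.qf_inv, mulVec_mulVec, Matrix.nonsing_inv_mul _ hM'.det, one_mulVec]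
    rw [h3] at h1
    exact sub_nonpos.2 h1
  have hYa : |Y| ≤ Q := abs_le.2 ⟨hY0, hY1.trans (by linarith)⟩
  have hl2 : |fc 0 * X - fn 0 * Y| ≤ 2 * ω * (∑ i, v i ^ 2) * fn 0 := by
    refine le_of_eq_of_le ?_ hlim
    congr 2
    ring
  have key : X - Y = m1 ^ 2 + Cv μ J (li b) (li b) - qf (Gm ν) b := by ring
  rw [← key, le_div_iff₀ (by linarith)]
  -- |X - Y| (1 - ω') fn 0 ≤ |fc 0 X - fc 0 Y|
  have hge : (1 - ω') * fn 0 ≤ fc 0 := by
    have := (abs_le.1 hosc).1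
    linarith
  have hfc0 : 0 < fc 0 := Real.exp_pos _
  have h1 : |X - Y| * fc 0 ≤ 2 * ω * (∑ i, v i ^ 2) * fn 0 + ω' * Q * fn 0 := by
    have e : (X - Y) * fc 0 = (fc 0 * X - fn 0 * Y) - (fc 0 - fn 0) * Y := by ring
    have e' : |X - Y| * fc 0 = |(X - Y) * fc 0| := by rw [abs_mul, abs_of_pos hfc0]
    rw [e', e]
    refine (abs_sub _ _).trans (add_le_add hl2 ?_)
    rw [abs_mul]
    calc |fc 0 - fn 0| * |Y| ≤ (ω' * fn 0) * Q :=
          mul_le_mul hosc hYa (abs_nonneg _) ((abs_nonneg _).trans hosc)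
      _ = ω' * Q * fn 0 := by ring
  have h2 : (|X - Y| * (1 - ω')) * fn 0 ≤
      (2 * ω * (∑ i, v i ^ 2) + ω' * Q) * fn 0 := by
    calc (|X - Y| * (1 - ω')) * fn 0 = |X - Y| * ((1 - ω') * fn 0) := by ring
      _ ≤ |X - Y| * fc 0 := mul_le_mul_of_nonneg_left hge (abs_nonneg _)
      _ ≤ _ := h1
      _ = _ := by ring
  exact le_of_mul_le_mul_right h2 hpn

end var

/-! ### the torus -/

section torus

open Vale.Agent.P159.TM.Spec (V)
open Vale.Agent.P159.TM.SpecC (wT)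
open Vale.Agent.P159.H864 (TI TInv tra sym Inv)
open Vale.Agent.P159.TM.H764 (cN sN dt)
open Vale.Agent.P159.H963 (nwt Gn Gnh gw_wT mf_smul neu_cN neu_sN qf_Gn_neu ti_Gn)

variable {N : ℕ} [NeZero N] {b t : ℝ}

/-- the covariance in the constant background `c`, mass `t` -/
def Gcc (N : ℕ) [NeZero N] (b t c : ℝ) : Matrix (V N) (V N) ℝ := Cm (wt N b t) fun _ => t * c

theorem ti_Gcc (c : ℝ) : TI (Gcc N b t c) where
  tr a x y := by
    unfold Gcc
    have h1 := H864.Cm_perm (H864.tinv_wt (N := N) (b := b) t a) (fun _ => t * c) x y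
    have h2 : (fun _ : V N => t * c) ∘ (tra a) = fun _ => t * c := rfl
    rw [h2] at h1
    exact h1.symm
  sy x y := by
    unfold Gcc Cm
    simp only [Matrix.of_apply]
    exact TM.H104.Cv_comm _ _ _

/-- the mean in a constant background is constant -/
theorem mn_const (c : ℝ) (x : V N) : mn (wt N b t) (fun _ => t * c) x = mn (wt N b t) (fun _ => t * c) 0 := by
  have h1 := H864.mn_perm (H864.tinv_wt (N := N) (b := b) t x) (fun _ => t * c) 0
  have h2 : (fun _ : V N => t * c) ∘ (tra x) = fun _ => t * c := rfl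
  rw [h2] at h1
  have h3 : tra x (0 : V N) = x := by
    show (0 : V N) + x = x
    rw [zero_add]
  rw [h3] at h1
  exact h1.symm

theorem Ex_neu_const (hb : 0 ≤ b) (ht : 0 < t) (c : ℝ) {u : V N → ℝ} (hu : Neu u) :
    Ex (wt N b t) (fun _ => t * c) (li u) = 0 := by
  have hE : EM (wt N b t) := H789.em_wt hb ht
  have h1 : Ex (wt N b t) (fun _ => t * c) (li u) =
      ∑ x, u x * mn (wt N b t) (fun _ => t * c) x := by
    have e : (li u : (V N → ℤ) → ℝ) = fun h => ∑ x, u x * (h x : ℝ) := rfl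
    rw [e, TM.H104.Ex_sum hE]
    · rfl
    · intro x
      have h2 := Gr.li (Pi.single x 1 : V N → ℝ)
      have h3 : (li (Pi.single x 1 : V N → ℝ) : (V N → ℤ) → ℝ) = fun h => (h x : ℝ) := by
        funext h
        unfold li
        rw [Finset.sum_eq_single x]
        · rw [Pi.single_eq_same, one_mul]
        · intro y _ hy
          rw [Pi.single_eq_of_ne hy, zero_mul]
        · intro h0
          exact absurd (Finset.mem_univ x) h0
      rwa [h3] at h2
  rw [h1]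
  simp only [mn_const (N := N) (b := b) (t := t) c]
  rw [← Finset.sum_mul, hu, zero_mul]

lemma cs_zero_const (c : ℝ) :
    (t • (1 : Matrix (V N) (V N) ℝ)) *ᵥ (cs (0 : V N → ℝ) c) = fun _ => t * c := by
  rw [smul_mulVec, one_mulVec]
  funext x
  simp only [Pi.smul_apply, cs, Pi.zero_apply, zero_add, smul_eq_mul]

/-- the step from mass `2t` to mass `t` -/
theorem chn_half (ht : 0 < t) :
    Chn ((2 * t) • (1 : Matrix (V N) (V N) ℝ)) (t • (1 : Matrix (V N) (V N) ℝ))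
      (√(1 / (2 * t)) • (1 : Matrix (V N) (V N) ℝ))
      ((√(1 / (2 * t)) * (2 * t) / (1 + 1 / (2 * t) * (2 * t))) • (1 : Matrix (V N) (V N) ℝ)) := by
  have h := H896.chn_proj (M := (2 * t) • (1 : Matrix (V N) (V N) ℝ)) (Q := 1) (τ := 2 * t)
    (σ := 1 / (2 * t)) (by rw [transpose_smul, transpose_one])
    (fun u => by rw [qf_smul_one]; positivity) transpose_one (Matrix.one_mul 1)
    (by rw [Matrix.mul_one]) (by positivity) (by positivity)
  have e : (2 * t) • (1 : Matrix (V N) (V N) ℝ) -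
      (1 / (2 * t) * (2 * t) ^ 2 / (1 + 1 / (2 * t) * (2 * t))) • (1 : Matrix (V N) (V N) ℝ) =
      t • (1 : Matrix (V N) (V N) ℝ) := by
    rw [← sub_smul]
    congr 1
    field_simp
    ring
  rwa [e] at h

theorem qf_const_le (hb : 0 ≤ b) (ht : 0 < t) {ω ω' : ℝ}
    (hO : OscZ (wT b N) ((2 * t) • (1 : Matrix (V N) (V N) ℝ)) ω) (hω : 0 ≤ ω)
    (hO' : OscZ (wT b N) (t • (1 : Matrix (V N) (V N) ℝ)) ω') (hω1 : ω' < 1)
    {u : V N → ℝ} (hu : Neu u) {c : ℝ} (hc : c ∈ Set.Icc (0 : ℝ) 1) :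
    |qf (Gcc N b t c) u - qf (Gm (nwt N b t 0)) u| ≤
      (4 * ω + ω') / (1 - ω') / t * ∑ x, u x ^ 2 := by
  have hE : EM (wt N b t) := H789.em_wt hb ht
  set σ := √(1 / (2 * t)) with hσ
  have hσp : 0 < σ := Real.sqrt_pos.2 (by positivity)
  have hσ2 : σ ^ 2 = 1 / (2 * t) := Real.sq_sqrt (by positivity)
  have hBv : (σ • (1 : Matrix (V N) (V N) ℝ)) *ᵥ (σ⁻¹ • u) = u := by
    rw [smul_mulVec, one_mulVec, smul_smul, mul_inv_cancel₀ hσp.ne', one_smul]
  have h := var_le (gw_wT hb) (H896.wm_t hb ht) (chn_half (N := N) ht) (mf_smul ht) (0 : V N)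
    hO hω hO' hω1 (σ⁻¹ • u) (by rw [← hσ, hBv]; exact hu) hc
  rw [← hσ, hBv, cs_zero_const] at h
  have e1 : (t • (1 : Matrix (V N) (V N) ℝ)) *ᵥ u = t • u := by rw [smul_mulVec, one_mulVec]
  rw [e1] at h
  have e2 : Ex (wM (wT b N) (t • 1)) (fun _ => t * c) (li (t • u)) = 0 := by
    have h1 : Neu (t • u) := by
      unfold Neu
      simp only [Pi.smul_apply, smul_eq_mul]
      rw [← Finset.mul_sum, hu, mul_zero]
    exact Ex_neu_const hb ht c h1
  have e3 : Cv (wM (wT b N) (t • 1)) (fun _ => t * c) (li (t • u)) (li (t • u)) =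
      t ^ 2 * qf (Gcc N b t c) u := by
    have h1 := H864.qf_Cm hE (fun _ => t * c) (t • u)
    exact h1.symm.trans (qf_smul _ _ _)
  have e4 : qf (Gm (nM (wT b N) (t • 1) t 0)) (t • u) = t ^ 2 * qf (Gm (nwt N b t 0)) u :=
    qf_smul _ _ _
  have e5 : ∑ i, (σ⁻¹ • u) i ^ 2 = 2 * t * ∑ x, u x ^ 2 := by
    rw [Finset.mul_sum]
    refine Finset.sum_congr rfl fun x _ => ?_
    rw [Pi.smul_apply, smul_eq_mul, mul_pow, inv_pow, hσ2]
    field_simp
  rw [e2, e3, e4, e5, qf_smul_one] at h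
  have h2 : t ^ 2 * |qf (Gcc N b t c) u - qf (Gm (nwt N b t 0)) u| ≤
      (4 * ω + ω') / (1 - ω') * t * ∑ x, u x ^ 2 := by
    have e6 : t ^ 2 * |qf (Gcc N b t c) u - qf (Gm (nwt N b t 0)) u| =
        |(0 : ℝ) ^ 2 + t ^ 2 * qf (Gcc N b t c) u - t ^ 2 * qf (Gm (nwt N b t 0)) u| := by
      rw [← abs_of_nonneg (sq_nonneg t), ← abs_mul, abs_of_nonneg (sq_nonneg t)]
      congr 1
      ring
    rw [e6]
    refine h.trans (le_of_eq ?_)
    ring
  have h3 : t ^ 2 * |qf (Gcc N b t c) u - qf (Gm (nwt N b t 0)) u| ≤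
      t ^ 2 * ((4 * ω + ω') / (1 - ω') / t * ∑ x, u x ^ 2) := by
    refine h2.trans (le_of_eq ?_)
    field_simp
  exact le_of_mul_le_mul_left h3 (by positivity)

/-- **the om² half of NKT**: the symbol in a constant background and the neutral symbol -/
theorem sym_const_le (hb : 0 ≤ b) (ht : 0 < t) {ω ω' : ℝ}
    (hO : OscZ (wT b N) ((2 * t) • (1 : Matrix (V N) (V N) ℝ)) ω) (hω : 0 ≤ ω)
    (hO' : OscZ (wT b N) (t • (1 : Matrix (V N) (V N) ℝ)) ω') (hω1 : ω' < 1)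
    {k : V N} (hk : k ≠ 0) {c : ℝ} (hc : c ∈ Set.Icc (0 : ℝ) 1) :
    |sym (Gcc N b t c) k - Gnh N b t k| ≤ (4 * ω + ω') / (1 - ω') / t := by
  have h1 := H864.qf_wave (ti_Gcc (N := N) (b := b) (t := t) c) k
  have h2 := H963.qf_Gnh_wave hb ht hk
  have h3 := qf_const_le hb ht hO hω hO' hω1 (neu_cN hk) hc
  have h4 := qf_const_le hb ht hO hω hO' hω1 (neu_sN k) hc
  have h5 := TM.H764.sq_wave k
  have hN := H864.N_pos (N := N)
  have h6 : (N : ℝ) ^ 2 * |sym (Gcc N b t c) k - Gnh N b t k| ≤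
      (N : ℝ) ^ 2 * ((4 * ω + ω') / (1 - ω') / t) := by
    have e : (N : ℝ) ^ 2 * |sym (Gcc N b t c) k - Gnh N b t k| =
        |(N : ℝ) ^ 2 * sym (Gcc N b t c) k - (N : ℝ) ^ 2 * Gnh N b t k| := by
      rw [← mul_sub, abs_mul, abs_of_pos hN]
    rw [e, ← h1, h2]
    have e2 : qf (Gcc N b t c) (fun x => cN (dt k x)) + qf (Gcc N b t c) (fun x => sN (dt k x)) -
        (qf (Gm (nwt N b t 0)) (fun x => cN (dt k x)) +
          qf (Gm (nwt N b t 0)) fun x => sN (dt k x)) =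
        (qf (Gcc N b t c) (fun x => cN (dt k x)) - qf (Gm (nwt N b t 0)) fun x => cN (dt k x)) +
        (qf (Gcc N b t c) (fun x => sN (dt k x)) - qf (Gm (nwt N b t 0)) fun x => sN (dt k x)) := by
      ring
    rw [e2]
    refine (abs_add_le _ _).trans ((add_le_add h3 h4).trans (le_of_eq ?_))
    rw [← mul_add, h5]
    ring
  exact le_of_mul_le_mul_left h6 hN

end torus

end

end Vale.Agent.P159.H43
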