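import Vale.Agent.P159.H415.EvC

/-!
P159 / V, P# (helper43): **CHB**: the charges `|q| ≥ 2` on the small tori of a level, sharp size:
helper415's step at the parameter `{P with q0 := 2}`, with the size `z ^ (2 - κ) + z e ^ 2`.
-/

set_option linter.unusedSectionVars false

namespace Vale.Agent.P159.H43

open Finset Matrix Filter Topology
open Vale.Agent.P159.TM.Spec (V)
open Vale.Agent.P159.TM.SpecC (wT)
open Vale.Agent.P159.H864 (yt)
open Vale.Agent.P159.H972 (Par tn lg Good GP RNG)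
open Vale.Agent.P159.H801 (Ev PS)
open Vale.Agent.P159.H415 (CH2 CI TypT)

noncomputable section

/-- the parameter with the small range of tori -/
def P2 (P : Par) : Par := { P with q0 := 2 }

/-- **the charges `|q| ≥ 2` on the tori `K ≤ N / ξ ≤ K Mx ^ 2`** -/
def CHB (P : Par) (b : ℝ) (n : ℕ) (e Z : ℝ) : Prop := CH2 (P2 P) b n e Z

lemma y_up' {y e : ℝ} (hy : 0 < y) (h : y ^ (39 / 20 : ℝ) ≤ e) : y ≤ e ^ (20 / 39 : ℝ) := by
  have h1 : (y ^ (39 / 20 : ℝ)) ^ (20 / 39 : ℝ) ≤ e ^ (20 / 39 : ℝ) :=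
    Real.rpow_le_rpow (by positivity) h (by norm_num)
  rw [← Real.rpow_mul hy.le] at h1
  norm_num at h1
  exact h1

lemma lg_up' {c e : ℝ} (hc : 0 ≤ c) (he : 0 < e) (he1 : e ≤ 1) :
    (2 : ℝ) ^ lg c e ≤ 2 * e ^ (-c) := by
  have h1 : (lg c e : ℝ) ≤ c * Real.logb 2 (1 / e) + 1 :=
    (Nat.ceil_lt_add_one (mul_nonneg hc (Real.logb_nonneg one_lt_two
      (by rw [le_div_iff₀ he]; linarith)))).le
  have h2 : e ^ (-c) = (2 : ℝ) ^ (c * Real.logb 2 (1 / e)) := by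
    rw [mul_comm, Real.rpow_mul two_pos.le, Real.rpow_logb two_pos (by norm_num) (by positivity),
      one_div, Real.inv_rpow he.le, Real.rpow_neg he.le]
  rw [h2, ← Real.rpow_natCast]
  refine (Real.rpow_le_rpow_of_exponent_le one_le_two h1).trans (le_of_eq ?_)
  rw [Real.rpow_add two_pos, Real.rpow_one]
  ring

/-- `y` is not exponentially small: lower bound of `y ^ (2 - κ)` -/
lemma y_lo {y κ x : ℝ} (hy : 0 < y) (hy1 : y ≤ 1) (hκ : 0 ≤ κ) (h : Real.log (1 / y) ≤ x) :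
    Real.exp (-(2 * x)) ≤ y ^ (2 - κ) := by
  have h1 : Real.log (1 / y) = -Real.log y := by rw [one_div, Real.log_inv]
  have h2 : y ^ (2 : ℝ) ≤ y ^ (2 - κ) := Real.rpow_le_rpow_of_exponent_ge hy hy1 (by linarith)
  refine le_trans ?_ h2
  rw [Real.rpow_def_of_pos hy]
  refine Real.exp_le_exp.2 ?_
  rw [h1] at h
  linarith

/-- the contraction -/
lemma chb_t12 {κ : ℝ} (hκ0 : 0 ≤ κ) (hκ1 : κ ≤ 1) {e e' y y' g g' : ℝ} {d : ℕ} (he : 0 < e)
    (hy : 0 < y) (hy' : 0 < y') (hyy : y ≤ (2 : ℝ) ^ (1 / 5 * (d : ℝ)) * y')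
    (hgg : (2 : ℝ) ^ (-(3 / 20 * (d : ℝ))) * e ^ g ≤ e' ^ g') :
    1 / 2 * (2 : ℝ) ^ (-(2 / 5 * (d : ℝ))) * (y ^ (2 - κ) + y * e ^ g) ≤
      1 / 2 * y' ^ (2 - κ) + 1 / 2 * (y' * e' ^ g') := by
  have hY : 0 < y' ^ (2 - κ) := by positivity
  have hd0 : (0 : ℝ) ≤ (d : ℝ) := Nat.cast_nonneg d
  have t1 : 1 / 2 * (2 : ℝ) ^ (-(2 / 5 * (d : ℝ))) * y ^ (2 - κ) ≤ 1 / 2 * y' ^ (2 - κ) := by
    have h1 : y ^ (2 - κ) ≤ (2 : ℝ) ^ (2 / 5 * (d : ℝ)) * y' ^ (2 - κ) := by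
      calc y ^ (2 - κ) ≤ ((2 : ℝ) ^ (1 / 5 * (d : ℝ)) * y') ^ (2 - κ) :=
            Real.rpow_le_rpow hy.le hyy (by linarith)
        _ = ((2 : ℝ) ^ (1 / 5 * (d : ℝ))) ^ (2 - κ) * y' ^ (2 - κ) :=
            Real.mul_rpow (by positivity) hy'.le
        _ ≤ (2 : ℝ) ^ (2 / 5 * (d : ℝ)) * y' ^ (2 - κ) := by
            refine mul_le_mul_of_nonneg_right ?_ hY.le
            rw [← Real.rpow_mul two_pos.le]
            refine Real.rpow_le_rpow_of_exponent_le one_le_two ?_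
            nlinarith [mul_nonneg hd0 hκ0]
    calc 1 / 2 * (2 : ℝ) ^ (-(2 / 5 * (d : ℝ))) * y ^ (2 - κ) ≤
          1 / 2 * (2 : ℝ) ^ (-(2 / 5 * (d : ℝ))) * ((2 : ℝ) ^ (2 / 5 * (d : ℝ)) * y' ^ (2 - κ)) :=
          mul_le_mul_of_nonneg_left h1 (by positivity)
      _ = 1 / 2 * ((2 : ℝ) ^ (-(2 / 5 * (d : ℝ))) * (2 : ℝ) ^ (2 / 5 * (d : ℝ))) *
          y' ^ (2 - κ) := by ring
      _ = 1 / 2 * y' ^ (2 - κ) := by
          rw [← Real.rpow_add two_pos, neg_add_cancel, Real.rpow_zero, mul_one]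
  have t2 : 1 / 2 * (2 : ℝ) ^ (-(2 / 5 * (d : ℝ))) * (y * e ^ g) ≤ 1 / 2 * (y' * e' ^ g') := by
    calc 1 / 2 * (2 : ℝ) ^ (-(2 / 5 * (d : ℝ))) * (y * e ^ g) ≤
          1 / 2 * (2 : ℝ) ^ (-(2 / 5 * (d : ℝ))) * (((2 : ℝ) ^ (1 / 5 * (d : ℝ)) * y') * e ^ g) := by
          gcongr
      _ = 1 / 2 * y' * (((2 : ℝ) ^ (-(2 / 5 * (d : ℝ))) * (2 : ℝ) ^ (1 / 5 * (d : ℝ))) *
          e ^ g) := by ring
      _ ≤ 1 / 2 * y' * ((2 : ℝ) ^ (-(3 / 20 * (d : ℝ))) * e ^ g) := by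
          rw [← Real.rpow_add two_pos]
          have h1 : (2 : ℝ) ^ (-(2 / 5 * (d : ℝ)) + 1 / 5 * (d : ℝ)) ≤
              (2 : ℝ) ^ (-(3 / 20 * (d : ℝ))) :=
            Real.rpow_le_rpow_of_exponent_le one_le_two (by linarith)
          gcongr
      _ ≤ 1 / 2 * y' * e' ^ g' := mul_le_mul_of_nonneg_left hgg (by positivity)
      _ = _ := by ring
  calc 1 / 2 * (2 : ℝ) ^ (-(2 / 5 * (d : ℝ))) * (y ^ (2 - κ) + y * e ^ g) =
      1 / 2 * (2 : ℝ) ^ (-(2 / 5 * (d : ℝ))) * y ^ (2 - κ) +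
        1 / 2 * (2 : ℝ) ^ (-(2 / 5 * (d : ℝ))) * (y * e ^ g) := by ring
    _ ≤ _ := add_le_add t1 t2

/-- the sources -/
lemma chb_t34 {th thp κ : ℝ} (hth : 0 < th) (hth1 : th ≤ thp) (hκ : 100 * thp ≤ κ)
    {e e' y y' : ℝ} {d : ℕ} (he : 0 < e) (he1 : e ≤ 1) (he' : 0 < e') (he'1 : e' ≤ 1)
    (hhi : e' ≤ e ^ (19 / 20 : ℝ)) (hy : 0 < y) (hy' : 0 < y') (hye' : y' ^ (39 / 20 : ℝ) ≤ e')
    (hd : d ≤ 4 * lg thp e) (hyy : y ≤ (2 : ℝ) ^ (1 / 5 * (d : ℝ)) * y')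
    (q1 : 32 * e ^ (19 * thp) ≤ 1) (q1' : 32 * e' ^ (19 * thp) ≤ 1) :
    e ^ (-(26 * thp)) * (e ^ (-(thp / 20)) * y) ^ 2 ≤ 1 / 8 * y' ^ (2 - κ) ∧
      e' ^ (-(3 * (th + 4 * (2 : ℕ) * thp))) * (e' ^ (-(thp / 20)) * y') ^ 2 ≤
        1 / 8 * y' ^ (2 - κ) := by
  have hthp : 0 < thp := by linarith
  have hκ0 : 0 ≤ κ := by linarith
  have hyb' := y_up' hy' hye'
  have hY : 0 < y' ^ (2 - κ) := by positivity
  have hsq : y' ^ 2 = y' ^ κ * y' ^ (2 - κ) := by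
    rw [← Real.rpow_add hy', ← Real.rpow_natCast]
    congr 1
    push_cast
    ring
  have hyκ' : y' ^ κ ≤ e' ^ (50 * thp) := by
    calc y' ^ κ ≤ (e' ^ (20 / 39 : ℝ)) ^ κ := Real.rpow_le_rpow hy'.le hyb' hκ0
      _ = e' ^ (20 / 39 * κ) := by rw [← Real.rpow_mul he'.le]
      _ ≤ e' ^ (50 * thp) := Real.rpow_le_rpow_of_exponent_ge he' he'1 (by linarith)
  have hyκ : y' ^ κ ≤ e ^ (95 / 2 * thp) := by
    calc y' ^ κ ≤ e' ^ (50 * thp) := hyκ'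
      _ ≤ (e ^ (19 / 20 : ℝ)) ^ (50 * thp) := Real.rpow_le_rpow he'.le hhi (by positivity)
      _ = e ^ (95 / 2 * thp) := by
          rw [← Real.rpow_mul he.le]
          congr 1
          ring
  constructor
  · have h2 : (2 : ℝ) ^ (2 / 5 * (d : ℝ)) ≤ 4 * e ^ (-(2 * thp)) := by
      have h3 : (2 : ℝ) ^ (2 / 5 * (d : ℝ)) ≤ ((2 : ℝ) ^ lg thp e) ^ 2 := by
        rw [← pow_mul, ← Real.rpow_natCast]
        refine Real.rpow_le_rpow_of_exponent_le one_le_two ?_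
        have h3 : (d : ℝ) ≤ 4 * (lg thp e : ℝ) := by exact_mod_cast hd
        push_cast
        have h4 : (0 : ℝ) ≤ (lg thp e : ℝ) := Nat.cast_nonneg _
        linarith
      refine h3.trans ?_
      calc ((2 : ℝ) ^ lg thp e) ^ 2 ≤ (2 * e ^ (-thp)) ^ 2 :=
            pow_le_pow_left₀ (by positivity) (lg_up' hthp.le he he1) 2
        _ = 4 * (e ^ (-thp)) ^ 2 := by ring
        _ = 4 * e ^ (-(2 * thp)) := by
            rw [← Real.rpow_natCast (e ^ (-thp)) 2, ← Real.rpow_mul he.le]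
            congr 2
            push_cast
            ring
    have h1 : y ^ 2 ≤ 4 * e ^ (-(2 * thp)) * y' ^ 2 := by
      calc y ^ 2 ≤ ((2 : ℝ) ^ (1 / 5 * (d : ℝ)) * y') ^ 2 := pow_le_pow_left₀ hy.le hyy 2
        _ = (2 : ℝ) ^ (2 / 5 * (d : ℝ)) * y' ^ 2 := by
            rw [mul_pow, ← Real.rpow_natCast ((2 : ℝ) ^ (1 / 5 * (d : ℝ))) 2,
              ← Real.rpow_mul two_pos.le]
            congr 2
            push_cast
            ring
        _ ≤ 4 * e ^ (-(2 * thp)) * y' ^ 2 := mul_le_mul_of_nonneg_right h2 (sq_nonneg _)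
    have h5 : e ^ (-(26 * thp)) * (e ^ (-(thp / 20))) ^ 2 * e ^ (-(2 * thp)) *
        e ^ (95 / 2 * thp) ≤ e ^ (19 * thp) := by
      have h6 : e ^ (-(26 * thp)) * (e ^ (-(thp / 20))) ^ 2 * e ^ (-(2 * thp)) *
        e ^ (95 / 2 * thp) = e ^ (-(26 * thp) + -(thp / 20) * 2 + -(2 * thp) + 95 / 2 * thp) := by
        rw [← Real.rpow_natCast (e ^ (-(thp / 20))) 2, ← Real.rpow_mul he.le,
          ← Real.rpow_add he, ← Real.rpow_add he, ← Real.rpow_add he]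
        norm_num
      rw [h6]
      exact Real.rpow_le_rpow_of_exponent_ge he he1 (by linarith)
    calc e ^ (-(26 * thp)) * (e ^ (-(thp / 20)) * y) ^ 2 =
          e ^ (-(26 * thp)) * (e ^ (-(thp / 20))) ^ 2 * y ^ 2 := by ring
      _ ≤ e ^ (-(26 * thp)) * (e ^ (-(thp / 20))) ^ 2 * (4 * e ^ (-(2 * thp)) * y' ^ 2) := by
          gcongr
      _ = 4 * (e ^ (-(26 * thp)) * (e ^ (-(thp / 20))) ^ 2 * e ^ (-(2 * thp)) * y' ^ κ) *
          y' ^ (2 - κ) := by rw [hsq]; ring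
      _ ≤ 4 * (e ^ (-(26 * thp)) * (e ^ (-(thp / 20))) ^ 2 * e ^ (-(2 * thp)) *
          e ^ (95 / 2 * thp)) * y' ^ (2 - κ) := by gcongr
      _ ≤ 4 * (e ^ (19 * thp)) * y' ^ (2 - κ) := by gcongr
      _ ≤ 1 / 8 * y' ^ (2 - κ) := by
          refine mul_le_mul_of_nonneg_right ?_ hY.le
          linarith
  · have h5 : e' ^ (-(3 * (th + 4 * (2 : ℕ) * thp))) * (e' ^ (-(thp / 20))) ^ 2 *
        e' ^ (50 * thp) ≤ e' ^ (19 * thp) := by
      have h6 : e' ^ (-(3 * (th + 4 * (2 : ℕ) * thp))) * (e' ^ (-(thp / 20))) ^ 2 *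
          e' ^ (50 * thp) = e' ^ (-(3 * (th + 4 * (2 : ℕ) * thp)) + -(thp / 20) * 2 + 50 * thp) := by
        rw [← Real.rpow_natCast (e' ^ (-(thp / 20))) 2, ← Real.rpow_mul he'.le,
          ← Real.rpow_add he', ← Real.rpow_add he']
        norm_num
      rw [h6]
      refine Real.rpow_le_rpow_of_exponent_ge he' he'1 ?_
      push_cast
      linarith
    calc e' ^ (-(3 * (th + 4 * (2 : ℕ) * thp))) * (e' ^ (-(thp / 20)) * y') ^ 2 =
          (e' ^ (-(3 * (th + 4 * (2 : ℕ) * thp))) * (e' ^ (-(thp / 20))) ^ 2 * y' ^ κ) *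
            y' ^ (2 - κ) := by rw [mul_pow, hsq]; ring
      _ ≤ (e' ^ (-(3 * (th + 4 * (2 : ℕ) * thp))) * (e' ^ (-(thp / 20))) ^ 2 *
          e' ^ (50 * thp)) * y' ^ (2 - κ) := by gcongr
      _ ≤ e' ^ (19 * thp) * y' ^ (2 - κ) := mul_le_mul_of_nonneg_right h5 hY.le
      _ ≤ 1 / 8 * y' ^ (2 - κ) := by
          refine mul_le_mul_of_nonneg_right ?_ hY.le
          have : 0 < e' ^ (19 * thp) := by positivity
          linarith

/-- the exponentially small terms -/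
lemma chb_t56 {th c1 κ : ℝ} (hth : 0 < th) (hth1 : th ≤ 1) (hκ0 : 0 ≤ κ) (hc1 : 0 < c1)
    (hc2 : c1 ≤ th / 256) {e e' y' : ℝ} (he : 0 < e) (he1 : e ≤ 1) (he' : 0 < e') (he'1 : e' ≤ 1)
    (hee : e / 2 ≤ e') (hy' : 0 < y') (hy1' : y' ≤ 1) (hv : Real.log (1 / y') ≤ e' ^ (-c1))
    (q2 : 7 * e ^ (th / 256) ≤ 1) (q2' : 7 * e' ^ (th / 256) ≤ 1) :
    Real.exp (-(e ^ (-(th / 128)))) ≤ 1 / 8 * y' ^ (2 - κ) ∧
      Real.exp (-(e' ^ (-(th / 4)))) ≤ 1 / 8 * y' ^ (2 - κ) := by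
  have hylo := y_lo hy' hy1' hκ0 hv
  have h2 : Real.exp (-3) ≤ 1 / 8 := by
    have h3 : (2 : ℝ) ≤ Real.exp 1 := by
      have := Real.add_one_le_exp (1 : ℝ)
      linarith
    have h4 : (8 : ℝ) ≤ Real.exp 3 := by
      have h5 : Real.exp 3 = Real.exp 1 ^ 3 := by rw [← Real.exp_nat_mul]; norm_num
      rw [h5]
      calc (8 : ℝ) = 2 ^ 3 := by norm_num
        _ ≤ _ := pow_le_pow_left₀ (by norm_num) h3 3
    rw [Real.exp_neg, ← one_div]
    exact one_div_le_one_div_of_le (by norm_num) h4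
  have hexp : ∀ x : ℝ, 3 ≤ x - 2 * e' ^ (-c1) → Real.exp (-x) ≤ 1 / 8 * y' ^ (2 - κ) := by
    intro x hx
    have h1 : Real.exp (-x) ≤ Real.exp (-3) * Real.exp (-(2 * e' ^ (-c1))) := by
      rw [← Real.exp_add]
      exact Real.exp_le_exp.2 (by linarith)
    calc Real.exp (-x) ≤ Real.exp (-3) * Real.exp (-(2 * e' ^ (-c1))) := h1
      _ ≤ 1 / 8 * y' ^ (2 - κ) := mul_le_mul h2 hylo (Real.exp_pos _).le (by norm_num)
  have hX : ∀ {u : ℝ}, 0 < u → 7 * u ^ (th / 256) ≤ 1 → 7 ≤ u ^ (-(th / 256)) := by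
    intro u hu h
    rw [Real.rpow_neg hu.le, ← one_div, le_div_iff₀ (by positivity)]
    linarith
  have hXe := hX he q2
  have hXe' := hX he' q2'
  constructor
  · refine hexp _ ?_
    have h1 : e' ^ (-c1) ≤ 2 * e ^ (-(th / 256)) := by
      calc e' ^ (-c1) ≤ (e / 2) ^ (-c1) := Real.rpow_le_rpow_of_nonpos (by positivity) hee
            (by linarith)
        _ = e ^ (-c1) * (2 : ℝ) ^ c1 := by
            rw [Real.div_rpow he.le two_pos.le, Real.rpow_neg two_pos.le, div_inv_eq_mul]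
        _ ≤ e ^ (-(th / 256)) * 2 := by
            refine mul_le_mul ?_ ?_ (by positivity) (by positivity)
            · exact Real.rpow_le_rpow_of_exponent_ge he he1 (by linarith)
            · calc (2 : ℝ) ^ c1 ≤ 2 ^ (1 : ℝ) :=
                    Real.rpow_le_rpow_of_exponent_le one_le_two (by linarith)
                _ = 2 := Real.rpow_one 2
        _ = _ := by ring
    have h2 : e ^ (-(th / 128)) = (e ^ (-(th / 256))) ^ 2 := by
      rw [← Real.rpow_natCast, ← Real.rpow_mul he.le]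
      congr 1
      push_cast
      ring
    rw [h2]
    nlinarith
  · refine hexp _ ?_
    have h1 : e' ^ (-c1) ≤ e' ^ (-(th / 256)) :=
      Real.rpow_le_rpow_of_exponent_ge he' he'1 (by linarith)
    have h2 : (e' ^ (-(th / 256))) ^ 2 ≤ e' ^ (-(th / 4)) := by
      rw [← Real.rpow_natCast, ← Real.rpow_mul he'.le]
      refine Real.rpow_le_rpow_of_exponent_ge he' he'1 ?_
      push_cast
      linarith
    nlinarith

/-- **the numbers of the step** -/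
theorem close_chb {th thp c1 κ : ℝ} (hth : 0 < th) (hth1 : th ≤ thp) (hκ : 100 * thp ≤ κ)
    (hκ1 : κ ≤ 1) (hc1 : 0 < c1) (hc2 : c1 ≤ th / 256) :
    ∃ E0 : ℝ, 0 < E0 ∧ E0 ≤ 1 / 2 ∧ ∀ (e e' y y' g g' : ℝ) (d : ℕ), 0 < e → e ≤ E0 → e / 2 ≤ e' →
      e' ≤ E0 → e' ≤ e ^ (19 / 20 : ℝ) → 0 < y → 0 < y' → y' ^ (39 / 20 : ℝ) ≤ e' →
      Real.log (1 / y') ≤ e' ^ (-c1) → d ≤ 4 * lg thp e → y ≤ (2 : ℝ) ^ (1 / 5 * (d : ℝ)) * y' →
      (2 : ℝ) ^ (-(3 / 20 * (d : ℝ))) * e ^ g ≤ e' ^ g' →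
      1 / 2 * (2 : ℝ) ^ (-(2 / 5 * (d : ℝ))) * (y ^ (2 - κ) + y * e ^ g) +
        e ^ (-(26 * thp)) * (e ^ (-(thp / 20)) * y) ^ 2 +
        e' ^ (-(3 * (th + 4 * (2 : ℕ) * thp))) * (e' ^ (-(thp / 20)) * y') ^ 2 +
        Real.exp (-(e ^ (-(th / 128)))) + Real.exp (-(e' ^ (-(th / 4)))) ≤
          y' ^ (2 - κ) + y' * e' ^ g' := by
  have hthp : 0 < thp := by linarith
  have hκ0 : 0 ≤ κ := by linarith
  obtain ⟨E1, p1, -, k1⟩ := H415.pow_le_const (A := 1 / 32) (c := 19 * thp) (by norm_num)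
    (by positivity)
  obtain ⟨E2, p2, -, k2⟩ := H415.pow_le_const (A := 1 / 7) (c := th / 256) (by norm_num)
    (by positivity)
  refine ⟨min (min E1 E2) (1 / 2), by positivity, min_le_right _ _, ?_⟩
  intro e e' y y' g g' d he heE hee he'E hhi hy hy' hye' hv hd hyy hgg
  have he' : 0 < e' := by linarith
  have he1 : e ≤ 1 := (heE.trans (min_le_right _ _)).trans (by norm_num)
  have he'1 : e' ≤ 1 := (he'E.trans (min_le_right _ _)).trans (by norm_num)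
  have q1 := k1 e he (heE.trans ((min_le_left _ _).trans (min_le_left _ _)))
  have q1' := k1 e' he' (he'E.trans ((min_le_left _ _).trans (min_le_left _ _)))
  have q2 := k2 e he (heE.trans ((min_le_left _ _).trans (min_le_right _ _)))
  have q2' := k2 e' he' (he'E.trans ((min_le_left _ _).trans (min_le_right _ _)))
  have hyb' := y_up' hy' hye'
  have hy1' : y' ≤ 1 := hyb'.trans (Real.rpow_le_one he'.le he'1 (by norm_num))
  have a1 := chb_t12 hκ0 hκ1 he hy hy' hyy hgg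
  have a2 := chb_t34 hth hth1 hκ he he1 he' he'1 hhi hy hy' hye' hd hyy (by linarith) (by linarith)
  have a3 := chb_t56 hth (by linarith) hκ0 hc1 hc2 he he1 he' he'1 hee hy' hy1' hv (by linarith)
    (by linarith)
  have hY : 0 < y' ^ (2 - κ) := by positivity
  have h0 : 0 ≤ y' * e' ^ g' := by positivity
  obtain ⟨a4, a5⟩ := a2
  obtain ⟨a6, a7⟩ := a3
  clear q1 q1' q2 q2' hyb' hv hd hyy hgg hhi
  calc _ ≤ (1 / 2 * y' ^ (2 - κ) + 1 / 2 * (y' * e' ^ g')) + 1 / 8 * y' ^ (2 - κ) +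
        1 / 8 * y' ^ (2 - κ) + 1 / 8 * y' ^ (2 - κ) + 1 / 8 * y' ^ (2 - κ) :=
        add_le_add (add_le_add (add_le_add (add_le_add a1 a4) a5) a6) a7
    _ = y' ^ (2 - κ) + 1 / 2 * (y' * e' ^ g') := by ring
    _ ≤ _ := by linarith

/-- the small range of tori is a part of the range -/
lemma TT_of_P2 {P : Par} (hq : 2 ≤ P.q0) {n : ℕ} {e : ℝ} {r : ℕ} (h : (P2 P).TT n e r) :
    P.TT n e r := by
  unfold Par.TT at *
  have h1 : 2 * (4 * P.w e) ≤ P.q0 * (4 * P.w e) := Nat.mul_le_mul_right _ hq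
  have h2 : (P2 P).kE e = P.kE e := rfl
  have h3 : (P2 P).w e = P.w e := rfl
  have h4 : (P2 P).q0 = 2 := rfl
  rw [h2, h3, h4] at h
  omega

lemma CHB.mono {P : Par} {b : ℝ} {n : ℕ} {e Z Z' : ℝ} (h : CHB P b n e Z) (hZ : Z ≤ Z') :
    CHB P b n e Z' := H415.CH2.mono h hZ

/-- the crude start: restriction of CH2 -/
lemma CHB.of_ch2 {P : Par} (hq : 2 ≤ P.q0) {b : ℝ} {n : ℕ} {e Z : ℝ} (h : CH2 P b n e Z) :
    CHB P b n e Z := fun r hr => h r (TT_of_P2 hq hr)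

/-- **the step of CHB in the letters of `Good`** -/
theorem ev_chb {b1 : ℝ} (hb1 : 0 < b1) (b2 pf : ℝ) (Q : ℕ) :
    Ev b1 b2 pf Q fun P c1 => ∀ b : ℝ, TypT P b →
      ∀ (n m : ℕ) (e e' y y' g g' : ℝ), CI P b c1 n m e e' y y' → e' ≤ e ^ (19 / 20 : ℝ) →
        y ≤ (2 : ℝ) ^ (1 / 5 * ((m - n : ℕ) : ℝ)) * y' →
        (2 : ℝ) ^ (-(3 / 20 * ((m - n : ℕ) : ℝ))) * e ^ g ≤ e' ^ g' →
        CHB P b n e (y ^ (2 - P.x1 / 50) + y * e ^ g) →
        CHB P b m e' (y' ^ (2 - P.x1 / 50) + y' * e' ^ g') := by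
  obtain ⟨W₀, h⟩ := H415.ch2_next' hb1 b2
  refine H801.Ev.of ⟨W₀, fun W hW => ?_⟩
  obtain ⟨ys0, X, hys0, h⟩ := h W hW
  refine ⟨ys0, hys0, fun ys hy1 hy2 => ⟨X, fun X0 hX0 => ⟨1, by norm_num,
    fun x1 hx1 hx1' => ⟨min (1 / 5000) (x1 / 5000), by positivity,
    fun thp ht1 ht2 => ⟨thp / 1000, by positivity, fun th hs1 hs2 => ⟨1, fun C0 hC0 => ?_⟩⟩⟩⟩⟩⟩
  have t1 : thp ≤ 1 / 5000 := ht2.trans (min_le_left _ _)
  have t2 : thp ≤ x1 / 5000 := ht2.trans (min_le_right _ _)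
  have hq : th + 4 * (2 : ℕ) * thp ≤ 1 / 500 := by push_cast; linarith
  obtain ⟨Ea, hEa, h⟩ := h th thp C0 2 hs1 (by linarith) (by linarith) (by linarith)
    (by linarith)
  obtain ⟨Ec, hEc, hEc2, hc⟩ := H415.le_of_ev
    ((H415.sc1' (C0 := C0) hs1 (by linarith : 1000 * th ≤ thp) (by linarith)).and
      (H415.sc13 2 hs1 ht1 (by linarith) hq))
  refine ⟨th / 256, by positivity, fun c1 hc1 hc2 => ?_⟩
  obtain ⟨Eb, hEb, hEb2, hb⟩ := close_chb (th := th) (thp := thp) (κ := x1 / 50) hs1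
    (by linarith) (by linarith) (by linarith) hc1 hc2
  refine ⟨min Ea (min Eb Ec), lt_min hEa (lt_min hEb hEc), fun P hP b hT => ?_⟩
  intro n m e e' y y' g g' H hhi hyy hgg hZ
  have he := H.e0
  have hesE : P.es ≤ min Ea (min Eb Ec) := hP.ees
  have hEsa : P.es ≤ Ea := hesE.trans (min_le_left _ _)
  have hEsb : P.es ≤ Eb := hesE.trans ((min_le_right _ _).trans (min_le_left _ _))
  have hEsc : P.es ≤ Ec := hesE.trans ((min_le_right _ _).trans (min_le_right _ _))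
  have he' : 0 < e' := by linarith [H.ee]
  have hw : P.w e = lg thp e := by
    unfold Par.w
    rw [hP.ethp]
  have hw' : P.w e' = lg thp e' := by
    unfold Par.w
    rw [hP.ethp]
  have hkE : P.kE e = lg th e := by
    unfold Par.kE
    rw [hP.eth]
  have hkE' : P.kE e' = lg th e' := by
    unfold Par.kE
    rw [hP.eth]
  have hw2 := H.w2
  have hw1 := H.w1
  have hd1 : lg thp e ≤ 20 * (m - n) := by rw [hw] at hw1; omega
  have hd2 : m - n ≤ 4 * lg thp e := by rw [hw] at hw2; omega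
  have hnm : n ≤ m := by omega
  have c0 := hb e e' y y' g g' (m - n) he (H.es.trans hEsb) H.ee (H.es'.trans hEsb) hhi
    H.y0 H.y0' H.ye' H.hv hd2 hyy hgg
  obtain ⟨⟨s1, s1'⟩, s13⟩ := hc e he (H.es.trans hEsc)
  obtain ⟨-, s13'⟩ := hc e' he' (H.es'.trans hEsc)
  obtain ⟨-, hdk, -, -⟩ := s1 (m - n) hd1
  obtain ⟨τ, a, hτ1, hτ2, hG⟩ := H.G
  have hGe := hG e le_rfl H.es
  obtain ⟨τ', a', hτ1', hτ2', hG'⟩ := H.G'
  have hGe' := hG' e' le_rfl H.es'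
  -- the base torus
  have hk1 : lg th e' ≤ lg th e + 1 := H415.lg_near hs1.le (by linarith) he H.ee
  have hq2 : 2 ≤ P.q0 := by
    rw [hP.eq0]
    omega
  have hTT : (P2 P).TT n e (m + P.kE e') := by
    have h2 : (P2 P).kE e = P.kE e := rfl
    have h3 : (P2 P).w e = P.w e := rfl
    have h4 : (P2 P).q0 = 2 := rfl
    unfold Par.TT
    rw [h2, h3, h4, hkE, hkE', hw]
    exact ⟨by omega, by omega⟩
  have hkq : m + P.kE e' - n ≤ lg th e + 2 * (4 * lg thp e) := by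
    rw [hkE']
    omega
  have htm : 4 * tn m < tn n := by
    have h4 : (256 : ℝ) ≤ 4 ^ (m - n) := by
      calc (256 : ℝ) = 4 ^ 4 := by norm_num
        _ ≤ 4 ^ (m - n) := pow_le_pow_right₀ (by norm_num) (by
          have := (s1 (m - n) hd1).1
          omega)
    have h5 : tn m = tn n / 4 ^ (m - n) := by
      rw [← H415.tn_add]
      congr 1
      omega
    have h6 := H415.tn_pos' n
    rw [h5]
    have : tn n / 4 ^ (m - n) ≤ tn n / 256 := div_le_div_of_nonneg_left h6.le (by norm_num) h4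
    linarith
  have hty := hT n e τ a he H.es hτ1 hτ2 hGe _ (TT_of_P2 hq2 hTT) (4 * tn m) (by
    have := H415.tn_pos' m
    linarith) htm
  rw [hP.eth] at hty
  have hvy := H.vy
  rw [hP.ethp] at hvy
  have hyb := H415.y_le H.y0 H.ye
  have hyb' := H415.y_le H.y0' H.ye'
  have hx1P : P.x1 = x1 := hP.ex1
  rw [hx1P] at hZ ⊢
  have hstep := h (P2 P) hP.eb1 hP.eb2 hP.eW (by
      show P.ys ≤ ys0
      rw [hP.eys]; exact hy2) (by
      show X ≤ P.X0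
      rw [hP.eX0]; exact hX0)
    hP.eth hP.ethp hP.eC0 le_rfl le_rfl b n m e e' (y ^ (2 - x1 / 50) + y * e ^ g)
    (e ^ (-(thp / 20)) * y)
    (e' ^ (-(thp / 20)) * y') he (H.es.trans hEsa) H.ee (H.es'.trans hEsa) hw1 hw2 (by
      have := hGe.nE
      rw [hP.eC0] at this
      omega) (hGe.rng _ (Or.inl (TT_of_P2 hq2 hTT))).1
    (fun r hr => (hGe'.rng r (Or.inl (TT_of_P2 hq2 hr))).2) hty hZ hvy
    ((mul_le_mul_of_nonneg_left (mul_le_mul_of_nonneg_left (mul_le_mul_of_nonneg_left hyb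
      (Real.rpow_pos_of_pos he _).le) (by positivity)) (by norm_num)).trans (s13 _ hkq))
    (fun r hr => ⟨by
      have := H.vy' r (TT_of_P2 hq2 hr)
      rwa [hP.ethp] at this, (mul_le_mul_of_nonneg_left (mul_le_mul_of_nonneg_left
        (mul_le_mul_of_nonneg_left hyb' (Real.rpow_pos_of_pos he' _).le) (by positivity))
        (by norm_num)).trans (s13' _ (by
        unfold Par.TT at hr
        have h2 : (P2 P).kE e' = P.kE e' := rfl
        have h3 : (P2 P).w e' = P.w e' := rfl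
        have h4 : (P2 P).q0 = 2 := rfl
        rw [h2, h3, h4, hkE', hw'] at hr
        omega))⟩)
  exact H415.CH2.mono hstep c0

end

end Vale.Agent.P159.H43
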