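import Vale.Agent.P159.H43.Se3
import Vale.Agent.P159.H43.Chb
import Vale.Agent.P159.H801.VIn
import Vale.Agent.P159.H813.Sq17
import Vale.Agent.P159.H159.Sp5
import Vale.Agent.P159.H114.Chain3

/-!
P159 / P# (helper43): **the sharp data of the master** (`SDOut` of helper801): from the content of the
`V` states, the extrapolation at a state and the torus change at a state.
-/

set_option linter.unusedSectionVars false

namespace Vale.Agent.P159.H43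

open Finset Filter Topology
open Vale.Agent.P159.H889 (Cx VSs)
open Vale.Agent.P159.H813 (xqk)
open Vale.Agent.P159.H114 (TB SD2 aT pS RW)
open Vale.Agent.P159.H972 (Par tn FL Good)
open Vale.Agent.P159.H801 (Ev PS FLC SDOut xa)

noncomputable section

/-- the content of the `V` states: cells, coefficient, and the higher charges on the small tori -/
def VC (K b : ℝ) (P : Par) (_c1 : ℝ) (_a : ℕ → ℝ) (VS : ℕ → ℝ → ℝ → Prop) (_u : ℕ → ℝ) : Prop :=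
  ∃ C1 A1 dl : ℝ, P.C0 ≤ C1 ∧ C1 ≤ K * P.C0 ∧ ∀ n ε z, VS n ε z → ∃ (s : ℕ) (ζ : ℂ),
    VSs P b C1 A1 dl n ε z s ζ ∧ CHB P b n ε (z ^ (2 - P.x1 / 50) + z * ε ^ (2 : ℝ))

/-- the stiffness from its number -/
lemma a_near2 {a x : ℝ} (h : |a⁻¹ - 2 / Real.pi| ≤ x) (hx : x ≤ 1 / 200) :
    11 / 10 ≤ a ∧ a ≤ 159 / 100 := by
  have hpi := Real.pi_gt_d2
  have hpi2 := Real.pi_lt_d2
  have h2 := abs_le.1 (h.trans hx)
  have h3 : 2 / Real.pi ≤ 2 / 3.14 := div_le_div_of_nonneg_left (by norm_num) (by norm_num) hpi.le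
  have h4 : 2 / 3.15 ≤ 2 / Real.pi :=
    div_le_div_of_nonneg_left (by norm_num) (by positivity) hpi2.le
  have h5 : (100 : ℝ) / 159 ≤ a⁻¹ := by
    refine le_trans ?_ (by linarith [h2.1] : 2 / 3.15 - 1 / 200 ≤ a⁻¹)
    norm_num
  have h6 : a⁻¹ ≤ 10 / 11 := by
    refine (by linarith [h2.2] : a⁻¹ ≤ 2 / 3.14 + 1 / 200).trans ?_
    norm_num
  have h0 : 0 < a⁻¹ := lt_of_lt_of_le (by norm_num) h5
  have ha : 0 < a := inv_pos.1 h0
  have e1 : a * a⁻¹ = 1 := mul_inv_cancel₀ ha.ne'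
  constructor
  · nlinarith
  · nlinarith

/-- the sizes of the parameters -/
lemma ev_szp {b1 b2 pf : ℝ} (Q : ℕ) (c : ℝ) : Ev b1 b2 pf Q fun P _ => c ≤ P.C0 ∧
    P.x1 ≤ 3 / 10 ∧ P.th + 4 * P.q0 * P.thp ≤ 1 / 2 := by
  refine H801.Ev.of ⟨0, fun W hW => ⟨1, one_pos, fun ys _ _ => ⟨0, fun X0 hX0 =>
    ⟨1 / 40, by norm_num, fun x1 hx1 hx1' => ⟨1 / (40 * ((Q : ℝ) + 3)), by positivity,
    fun thp ht1 ht2 => ⟨1 / 40, by norm_num, fun th hs1 hs2 =>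
    ⟨c, fun C0 hC0 => ⟨1, one_pos, fun c1 hc1 hc2 => ⟨1, one_pos, fun P hP => ?_⟩⟩⟩⟩⟩⟩⟩⟩⟩
  have h1 := PS.rho hP hx1 ht1
  have h2 : ((Q : ℝ) + 3) * thp ≤ 1 / 40 := by
    rw [le_div_iff₀ (by positivity)] at ht2
    linarith
  rw [hP.eC0, hP.ex1, hP.eth]
  refine ⟨hC0, by linarith, ?_⟩
  have h3 : 4 * (P.q0 : ℝ) * P.thp = 4 * ((P.q0 : ℝ) * P.thp) := by ring
  rw [h3]
  linarith

/-- **the sharp data of the master** -/
theorem sdout_ev {b b1 b2 qx k : ℝ} {Q : ℕ} (hb1 : 0 < b1) (h1 : b1 ≤ b) (h2 : b ≤ b2)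
    (hqx : 0 < qx) (hk : 0 < k) (K : ℝ) :
    H846.Two.Ev2 b1 b2 (9 / 10) Q fun P P' c1 => ∀ a : ℕ → ℝ, FLC P b a → ∀ VS u,
      VC K b P c1 a VS u → SDOut P P' b k qx c1 VS u a := by
  have g1 := H846.Two.Ev.to2 (ev_sdi (b2 := b2) (pf := 9 / 10) hb1 h1 h2 (by norm_num) Q K)
  have g2 := H846.Two.Ev.to2 (H813.ext_ev hb1 h1 h2 K Q)
  have g3 := H846.Two.Ev.to2 (ev_szp (b1 := b1) (b2 := b2) (pf := 9 / 10) Q (15 / k + 21 / 2 + 4))
  have g4 := H159.tor_ev (K := K) (Q := Q) hb1 h1 h2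
  have g5 := H846.Two.Ev2.order (b1 := b1) (b2 := b2) (pf := 9 / 10) (Q := Q)
    (g1 := fun x _ => x / 5000) (g2 := fun _ => 1 / 2) (g3 := fun _ => 0) (g4 := fun _ => 1)
    (g5 := fun _ _ => 1) (fun x _ hx _ => by positivity) (fun _ _ => by norm_num)
    (fun _ _ => one_pos) (fun _ _ _ _ => one_pos)
  refine ((((g1.and g2).and g3).and g4).and g5).mono ?_
  rintro P P' c1 hQ hc1 ⟨⟨⟨⟨f1, f2⟩, f3, f4, f5⟩, f6⟩, f7, f8, -⟩ a ha VS u hV
  obtain ⟨C1, A1, dl, hC1, hC2, hVS⟩ := hV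
  have hx := hQ.x1
  have hk0 : 0 < 15 / k := by positivity
  have hC4 : 4 ≤ C1 := by linarith
  have hth := P.th0
  have hthp := P.thp0
  obtain ⟨q, hq1, hq2, hq3⟩ := H813.exists_q (x1 := P.x1) (ρ := P.th + 4 * P.q0 * P.thp) hx
    (by linarith) f5 (by positivity)
  obtain ⟨μ, hμ⟩ := H114.exists_RW q hq1
  obtain ⟨E1, p1, q1, k1⟩ := f1 C1 (by linarith) hC1 hC2 A1 dl q
  obtain ⟨E2, p2, q2, k2⟩ := f2 C1 (by linarith) hC1 hC2 q μ hμ hq2 (hq3.trans hC4)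
  obtain ⟨E3, p3, k3⟩ := f6 C1 (by linarith) hC1 hC2
  obtain ⟨E4, p4, -, k4⟩ := H415.pow_le_const (A := 1 / 200) (c := qx) (by norm_num) hqx
  refine ⟨C1, 10 / 3 * C1, P.x1, P.x1 / 2, q, μ, hμ, by linarith, ?_, by linarith, by linarith,
    by linarith, by linarith, Eventually.of_forall fun N0 => ⟨min (min E1 E2) (min E3 E4),
    by positivity, fun n ε y _ hS hy hxa => ?_⟩⟩
  · have h3 : 15 / k ≤ C1 := by linarith
    rw [div_le_iff₀ hk] at h3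
    linarith
  have hy0 := hS.ms.z0
  obtain ⟨j, ζ, hvs, hch⟩ := hVS n ε y hS.ms.V
  obtain ⟨ha1, ha2⟩ := a_near2 hxa (k4 y hy0 (hy.trans ((min_le_right _ _).trans
    (min_le_right _ _))))
  have hSt := st2_of_ss hS hvs ha ha1 ha2
  obtain ⟨hcx, hI, hsq⟩ := k1 n j ε y (a n) ζ (hy.trans ((min_le_left _ _).trans
    (min_le_left _ _))) hSt
  refine ⟨j, sd2_of hSt hI hsq (by linarith) (by linarith) (fun r hr => ?_) ?_⟩
  · exact k2 n j ε y P.x1 hcx (hy.trans ((min_le_left _ _).trans (min_le_right _ _))) hSt.up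
      (by linarith) r hr
  · have hC : H801.Cnd P P' (P.x1 / 100) (1 / 20) (P.x1 / 30) (P.x1 / 100) :=
      ⟨hQ.th.ge, f8, by rw [hQ.thp]; linarith, hQ.es, by positivity, by positivity, by norm_num,
        by norm_num, by positivity, by linarith, by linarith⟩
    have hB := H801.base_of_ss hC hQ.adm hQ.adm' hQ.th (by linarith [hQ.adm.hth])
      (hQ.epf'.trans hQ.epf.symm) (by linarith) ha hS
    have e1 : (2 : ℝ) - 3 * (P.x1 / 30) = 2 - P.x1 / 10 := by ring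
    rw [e1] at hB
    exact k3 (a n) ε y n j _ hB hcx hSt.up ha1 ha2 hch
      (hy.trans ((min_le_right _ _).trans (min_le_left _ _)))

end

end Vale.Agent.P159.H43
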