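import Vale.Agent.P159.H43.Chb2

/-!
P159 / V, P# (helper43): the step of `CHB` with the gain `P.thp / 400` of the exponent per window,
and its start.
-/

set_option linter.unusedSectionVars false

namespace Vale.Agent.P159.H43

open Finset Matrix Filter Topology
open Vale.Agent.P159.TM.Spec (V)
open Vale.Agent.P159.TM.SpecC (Tor wT)
open Vale.Agent.P159.H864 (yt MC)
open Vale.Agent.P159.H972 (Par tn lg)
open Vale.Agent.P159.H801 (Ev PS)
open Vale.Agent.P159.H415 (CH2 CI TypT)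

noncomputable section

/-- gain of the exponent in one window -/
lemma gg_of {thp e e' g g' : ℝ} {d : ℕ} (hthp : 0 < thp) (he : 0 < e) (he1 : e ≤ 1)
    (hee : e / 2 ≤ e') (hhi : e' ≤ e ^ (19 / 20 : ℝ)) (hd : lg thp e ≤ 20 * d)
    (hs : e ^ (thp / 200) ≤ 1 / 4) (hg : -(thp / 10) ≤ g) (hg' : g' ≤ 2)
    (hgg : g' ≤ g + thp / 400) :
    (2 : ℝ) ^ (-(3 / 20 * (d : ℝ))) * e ^ g ≤ e' ^ g' := by
  have he' : 0 < e' := by linarith
  have h1 : (2 : ℝ) ^ (-(3 / 20 * (d : ℝ))) ≤ e ^ (3 / 400 * thp) := by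
    have h2 : e ^ (3 / 400 * thp) = (2 : ℝ) ^ (-(3 / 400 * thp) * Real.logb 2 (1 / e)) := by
      rw [H415.two_rpow_logb he, neg_neg]
    rw [h2]
    refine Real.rpow_le_rpow_of_exponent_le one_le_two ?_
    have h3 := H415.lg_ge' thp e
    have h4 : (lg thp e : ℝ) ≤ 20 * (d : ℝ) := by exact_mod_cast hd
    linarith
  have h5 : (2 : ℝ) ^ (-(3 / 20 * (d : ℝ))) * e ^ g ≤ e ^ (3 / 400 * thp + g) := by
    rw [Real.rpow_add he]
    exact mul_le_mul_of_nonneg_right h1 (by positivity)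
  refine h5.trans ?_
  by_cases h : 0 ≤ g'
  · have h6 : (e / 2) ^ g' ≤ e' ^ g' := Real.rpow_le_rpow (by positivity) hee h
    refine le_trans ?_ h6
    rw [Real.div_rpow he.le two_pos.le, le_div_iff₀ (by positivity)]
    have h7 : (2 : ℝ) ^ g' ≤ 4 := by
      calc (2 : ℝ) ^ g' ≤ 2 ^ (2 : ℝ) := Real.rpow_le_rpow_of_exponent_le one_le_two hg'
        _ = 4 := by norm_num
    have h8 : e ^ (3 / 400 * thp + g) ≤ e ^ (thp / 200) * e ^ g' := by
      rw [← Real.rpow_add he]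
      exact Real.rpow_le_rpow_of_exponent_ge he he1 (by linarith)
    calc e ^ (3 / 400 * thp + g) * (2 : ℝ) ^ g' ≤ (e ^ (thp / 200) * e ^ g') * 4 :=
          mul_le_mul h8 h7 (by positivity) (by positivity)
      _ ≤ (1 / 4 * e ^ g') * 4 := by gcongr
      _ = e ^ g' := by ring
  · have h9 : g' ≤ 0 := (not_le.1 h).le
    calc e ^ (3 / 400 * thp + g) ≤ e ^ (19 / 20 * g') :=
          Real.rpow_le_rpow_of_exponent_ge he he1 (by linarith)
      _ = (e ^ (19 / 20 : ℝ)) ^ g' := by rw [Real.rpow_mul he.le]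
      _ ≤ e' ^ g' := Real.rpow_le_rpow_of_nonpos he' hhi h9

/-- **the step of CHB with the gain `thp / 400`**, and the start at `g = - thp / 10` -/
theorem ev_chbc {b1 : ℝ} (hb1 : 0 < b1) (b2 pf : ℝ) (Q : ℕ) :
    Ev b1 b2 pf Q fun P c1 => ∀ b : ℝ, TypT P b →
      (∀ (n m : ℕ) (e e' y y' g g' : ℝ), CI P b c1 n m e e' y y' → e' ≤ e ^ (19 / 20 : ℝ) →
        y ≤ (2 : ℝ) ^ (1 / 5 * ((m - n : ℕ) : ℝ)) * y' →
        -(P.thp / 10) ≤ g → g' ≤ 2 → g' ≤ g + P.thp / 400 →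
        CHB P b n e (y ^ (2 - P.x1 / 50) + y * e ^ g) →
        CHB P b m e' (y' ^ (2 - P.x1 / 50) + y' * e' ^ g')) ∧
      ∀ (n : ℕ) (e y : ℝ), 0 < b → 0 < e → e ≤ P.es → 0 < y → y ^ (39 / 20 : ℝ) ≤ e →
        (∀ r, P.TT n e r → yt (2 ^ r) b (4 * tn n) ≤ e ^ (-(P.thp / 20)) * y) →
        CHB P b n e (y ^ (2 - P.x1 / 50) + y * e ^ (-(P.thp / 10))) := by
  have h0 : Ev b1 b2 pf Q fun P _ => 2 ≤ P.q0 ∧ ∀ e : ℝ, 0 < e → e ≤ P.es →
      e ^ (P.thp / 200) ≤ 1 / 4 ∧ e ^ (P.thp / 20) ≤ 1 / 2 := by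
    refine H801.Ev.of ⟨0, fun W hW => ⟨1, one_pos, fun ys _ _ => ⟨0, fun X0 hX0 =>
      ⟨1, one_pos, fun x1 hx1 hx1' => ⟨1, one_pos, fun thp ht1 ht2 => ⟨1, one_pos, fun th hs1 hs2 =>
      ⟨1, fun C0 hC0 => ⟨1, one_pos, fun c1 hc1 hc2 => ?_⟩⟩⟩⟩⟩⟩⟩⟩
    obtain ⟨E1, p1, -, k1⟩ := H415.pow_le_const (A := 1 / 4) (c := thp / 200) (by norm_num)
      (by positivity)
    obtain ⟨E2, p2, -, k2⟩ := H415.pow_le_const (A := 1 / 2) (c := thp / 20) (by norm_num)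
      (by positivity)
    refine ⟨min E1 E2, by positivity, fun P hP => ⟨?_, fun e he hes => ?_⟩⟩
    · rw [hP.eq0]
      omega
    · rw [hP.ethp]
      have hE := hes.trans hP.ees
      exact ⟨k1 e he (hE.trans (min_le_left _ _)), k2 e he (hE.trans (min_le_right _ _))⟩
  refine ((ev_chb hb1 b2 pf Q).and ((H415.ev_ch2 hb1 b2 pf Q).and h0)).mono ?_
  rintro P c1 hA ⟨h1, h2, hq, h3⟩ b hT
  refine ⟨fun n m e e' y y' g g' H hhi hyy hg hg' hgg hZ => ?_, fun n e y hb he hes hy hye hyt => ?_⟩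
  · have he := H.e0
    have hw1 := H.w1
    refine h1 b hT n m e e' y y' g g' H hhi hyy (gg_of (thp := P.thp) P.thp0 he (H.es.trans
      (hA.es4.trans (by norm_num))) H.ee hhi ?_ (h3 e he H.es).1 hg hg' hgg) hZ
    have h4 : P.w e = lg P.thp e := rfl
    rw [← h4]
    omega
  · refine (CHB.of_ch2 hq ((h2 b hT).2 n e y hb he hes hy hye hyt)).mono ?_
    have h5 : 2 * e ^ (-(P.thp / 20)) ≤ e ^ (-(P.thp / 10)) := by
      have h6 := (h3 e he hes).2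
      have h7 : e ^ (-(P.thp / 20)) = e ^ (P.thp / 20) * e ^ (-(P.thp / 10)) := by
        rw [← Real.rpow_add he]
        congr 1
        ring
      rw [h7]
      have h8 : 0 < e ^ (-(P.thp / 10)) := by positivity
      nlinarith
    have h9 : 0 < y ^ (2 - P.x1 / 50) := by positivity
    calc 2 * (e ^ (-(P.thp / 20)) * y) = (2 * e ^ (-(P.thp / 20))) * y := by ring
      _ ≤ e ^ (-(P.thp / 10)) * y := mul_le_mul_of_nonneg_right h5 hy.le
      _ ≤ _ := by linarith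

end

end Vale.Agent.P159.H43
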