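import Vale.Agent.P159.H43.Sd2
import Vale.Agent.P159.H889.Vreal
import Vale.Agent.P159.H801.ParEv
import Vale.Agent.P159.H316.Yb2

/-!
P159 / V glue (helper43): piece (P7) of helper889's division of the letter part: the number `e₁`
(`|Φ₁ - W₁|`) and the activity `om_1` at the `V` level, from `yt` and `CH2`.
-/

set_option linter.unusedSectionVars false

namespace Vale.Agent.P159.H43

open Finset Matrix
open Vale.Agent.P159.H37 (qf)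
open Vale.Agent.P159.TM.Spec (V)
open Vale.Agent.P159.TM.SpecC (Tor wT)
open Vale.Agent.P159.H896 (om WM Om)
open Vale.Agent.P159.H145 (mt OscZ)
open Vale.Agent.P159.H864 (yt)
open Vale.Agent.P159.H972 (Par tn lg)
open Vale.Agent.P159.H801 (Ev PS)

noncomputable section

section torus

variable {b : ℝ} {n r : ℕ} {Y Z : ℝ}

lemma tn_mul_sq (hr : n ≤ r) : tn n * ((2 ^ r : ℕ) : ℝ) ^ 2 = (2 ^ (r - n)) ^ 2 := by
  unfold tn
  obtain ⟨k, rfl⟩ := Nat.exists_eq_add_of_le hr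
  rw [Nat.add_sub_cancel_left]
  push_cast
  rw [pow_add, show (4 : ℝ) ^ n = (2 ^ n) ^ 2 by rw [← pow_mul, mul_comm, pow_mul]; norm_num]
  field_simp

/-- the activity `om_1` at every mass `T ≤ 4 t_n` -/
theorem om_tor (hb : 0 < b) (hr : n ≤ r) (hy : yt (2 ^ r) b (4 * tn n) ≤ Y)
    (hs : 4 * ((2 ^ (r - n)) ^ 2 * Y) ≤ 1) {T : ℝ} (hT : 0 < T) (h2 : T ≤ 4 * tn n) :
    om (wT b (2 ^ r)) (mt (2 ^ r) T) 1 ≤ (2 ^ (r - n)) ^ 2 * Y := by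
  have ht0 : 0 < tn n := by unfold tn; positivity
  have e1 : 4 * tn n * ((2 ^ r : ℕ) : ℝ) ^ 2 * yt (2 ^ r) b (4 * tn n) =
      4 * ((2 ^ (r - n)) ^ 2 * yt (2 ^ r) b (4 * tn n)) := by
    rw [← tn_mul_sq hr]
    ring
  have h3 : (2 ^ (r - n)) ^ 2 * yt (2 ^ r) b (4 * tn n) ≤ (2 ^ (r - n)) ^ 2 * Y :=
    mul_le_mul_of_nonneg_left hy (by positivity)
  have h4 := (H316.om_le_yt (N := 2 ^ r) hb (t := 4 * tn n) (by positivity)
    (by rw [e1]; linarith)).2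
  rw [e1] at h4
  obtain ⟨K, σ, _, h5⟩ := H415.chn_scalar (V := Tor (2 ^ r)) hT h2
  have h6 := H896.om_mono h5 (H896.wp_t (N := 2 ^ r) hb.le hT).toWM 1
  have h7 : om (wT b (2 ^ r)) (mt (2 ^ r) T) 1 ≤
      om (wT b (2 ^ r)) ((4 * tn n) • (1 : Matrix (Tor (2 ^ r)) (Tor (2 ^ r)) ℝ)) 1 := h6
  linarith

/-- all the charges together at the mass `4 t_n` -/
theorem ch2_crude (hb : 0 < b) (hr : n ≤ r) (hy : yt (2 ^ r) b (4 * tn n) ≤ Y)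
    (hs : 4 * ((2 ^ (r - n)) ^ 2 * Y) ≤ 1) :
    ch2 (wT b (2 ^ r)) ((4 * tn n) • (1 : Matrix (Tor (2 ^ r)) (Tor (2 ^ r)) ℝ)) 0 ≤
      2 * ((2 ^ (r - n)) ^ 2 * Y) := by
  have ht0 : 0 < tn n := by unfold tn; positivity
  have e1 : 4 * tn n * ((2 ^ r : ℕ) : ℝ) ^ 2 * yt (2 ^ r) b (4 * tn n) =
      4 * ((2 ^ (r - n)) ^ 2 * yt (2 ^ r) b (4 * tn n)) := by
    rw [← tn_mul_sq hr]
    ring
  have h3 : (2 ^ (r - n)) ^ 2 * yt (2 ^ r) b (4 * tn n) ≤ (2 ^ (r - n)) ^ 2 * Y :=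
    mul_le_mul_of_nonneg_left hy (by positivity)
  have h4 := (H316.om_le_yt (N := 2 ^ r) hb (t := 4 * tn n) (by positivity)
    (by rw [e1]; linarith)).1
  rw [e1] at h4
  have hw := (H896.wp_t (N := 2 ^ r) (t := 4 * tn n) hb.le (by positivity)).toWM
  have h5 := ch2_zero_le hw
  have h6 := omT_eq hw
  have h7 := H896.om_nonneg hw 1
  have h8 : omT (wT b (2 ^ r)) ((4 * tn n) • (1 : Matrix (Tor (2 ^ r)) (Tor (2 ^ r)) ℝ)) =
      Om (wT b (2 ^ r)) ((4 * tn n) • (1 : Matrix (Tor (2 ^ r)) (Tor (2 ^ r)) ℝ)) := rfl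
  linarith

/-- **the number `e₁` on the torus at the mass `t_n`** -/
theorem e1_tor (hb : 0 < b) (hr : n ≤ r) (hy : yt (2 ^ r) b (4 * tn n) ≤ Y)
    (hs : 4 * ((2 ^ (r - n)) ^ 2 * Y) ≤ 1)
    (hc : ch2 (wT b (2 ^ r)) ((4 * tn n) • (1 : Matrix (Tor (2 ^ r)) (Tor (2 ^ r)) ℝ)) 0 ≤ Z)
    (F : Tor (2 ^ r) → ℝ) :
    ‖H896.Ph (wT b (2 ^ r)) (mt (2 ^ r) (tn n)) 1 F - Wq (wT b (2 ^ r)) (mt (2 ^ r) (tn n)) 1 F‖ ≤
      4 * ((2 ^ (r - n)) ^ 2 * Y) * Z + 192 * ((2 ^ (r - n)) ^ 2 * Y) ^ 3 := by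
  have ht0 : 0 < tn n := by unfold tn; positivity
  have hw := (H896.wp_t (N := 2 ^ r) hb.le ht0).toWM
  have h1 := omT_le_osc hw (osc_post hb hr le_rfl (by linarith) hy hs)
  have h0 : 0 ≤ omT (wT b (2 ^ r)) (mt (2 ^ r) (tn n)) := omT_nonneg hw
  have hR : 0 ≤ (2 ^ (r - n)) ^ 2 * Y := by
    have : 0 ≤ 2 * ((2 ^ (r - n)) ^ 2 * Y) := h0.trans h1
    linarith
  have h2 := e1_le hw (h1.trans (by linarith)) F
  have h3 : ch2 (wT b (2 ^ r)) (mt (2 ^ r) (tn n)) 0 ≤ Z :=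
    (H415.ch2_scalar ht0 (by linarith) hw).trans hc
  have h4 : 0 ≤ ch2 (wT b (2 ^ r)) (mt (2 ^ r) (tn n)) 0 := nm_nonneg _
  refine h2.trans ?_
  set o := omT (wT b (2 ^ r)) (mt (2 ^ r) (tn n)) with ho
  set x := (2 ^ (r - n)) ^ 2 * Y with hx
  set c := ch2 (wT b (2 ^ r)) (mt (2 ^ r) (tn n)) 0 with hcc
  have h5 : o * c ≤ 2 * x * Z := mul_le_mul h1 h3 h4 (by linarith)
  have h6 : o ^ 3 ≤ (2 * x) ^ 3 := pow_le_pow_left₀ h0 h1 3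
  nlinarith

end torus

section scal

lemma lg_up {c e : ℝ} (hc : 0 ≤ c) (he : 0 < e) (he1 : e ≤ 1) :
    (2 : ℝ) ^ lg c e ≤ 2 * e ^ (-c) := by
  have h1 : (lg c e : ℝ) ≤ c * Real.logb 2 (1 / e) + 1 :=
    (Nat.ceil_lt_add_one (mul_nonneg hc (Real.logb_nonneg one_lt_two
      (by rw [le_div_iff₀ he]; linarith)))).le
  have h2 : e ^ (-c) = (2 : ℝ) ^ (c * Real.logb 2 (1 / e)) := by
    rw [mul_comm, Real.rpow_mul two_pos.le, Real.rpow_logb two_pos (by norm_num) (by positivity),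
      one_div, Real.inv_rpow he.le, Real.rpow_neg he.le]
  rw [h2, ← Real.rpow_natCast]
  refine (Real.rpow_le_rpow_of_exponent_le one_le_two h1).trans (le_of_eq ?_)
  rw [Real.rpow_add two_pos, Real.rpow_one]
  ring

/-- the size of the admissible tori -/
lemma tt_R {P : Par} {n r : ℕ} {e : ℝ} (h : P.TT n e r) (he : 0 < e) (he1 : e ≤ 1) :
    (2 : ℝ) ^ (r - n) ≤ 2 ^ (1 + 4 * P.q0) * e ^ (-(P.th + 4 * P.q0 * P.thp)) := by
  have h1 : r - n ≤ P.kE e + P.q0 * (4 * P.w e) := by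
    have := h.2
    omega
  have h2 : (2 : ℝ) ^ P.kE e ≤ 2 * e ^ (-P.th) := lg_up P.th0.le he he1
  have h3 : (2 : ℝ) ^ P.w e ≤ 2 * e ^ (-P.thp) := lg_up P.thp0.le he he1
  calc (2 : ℝ) ^ (r - n) ≤ 2 ^ (P.kE e + P.q0 * (4 * P.w e)) :=
        pow_le_pow_right₀ one_le_two h1
    _ = 2 ^ P.kE e * (2 ^ P.w e) ^ (4 * P.q0) := by
        rw [pow_add, ← pow_mul]
        congr 2
        ring
    _ ≤ (2 * e ^ (-P.th)) * (2 * e ^ (-P.thp)) ^ (4 * P.q0) := by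
        gcongr
    _ = _ := by
        rw [mul_pow, ← Real.rpow_natCast (e ^ (-P.thp)) (4 * P.q0), ← Real.rpow_mul he.le,
          show -(P.th + 4 * P.q0 * P.thp) = -P.th + -P.thp * ((4 * P.q0 : ℕ) : ℝ) by
            push_cast; ring, Real.rpow_add he, pow_add, pow_one]
        ring

/-- small `e` absorbs constants -/
lemma abs_const {C η : ℝ} (hC : 0 < C) (hη : 0 < η) : ∃ E : ℝ, 0 < E ∧ E ≤ 1 ∧
    ∀ e, 0 < e → e ≤ E → C * e ^ η ≤ 1 := by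
  refine ⟨min 1 ((1 / C) ^ (1 / η)), lt_min one_pos (by positivity), min_le_left _ _,
    fun e he h => ?_⟩
  have h1 : e ^ η ≤ ((1 / C) ^ (1 / η)) ^ η :=
    Real.rpow_le_rpow he.le (h.trans (min_le_right _ _)) hη.le
  rw [← Real.rpow_mul (by positivity), one_div_mul_cancel hη.ne', Real.rpow_one] at h1
  calc C * e ^ η ≤ C * (1 / C) := by gcongr
    _ = 1 := by field_simp

/-- the numbers of (P7) in powers of `e` -/
structure P7n (c ρ th e : ℝ) : Prop where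
  c0 : 1 ≤ c
  ρ0 : 0 ≤ ρ
  ρ1 : ρ ≤ 1 / 1000
  th0 : 0 ≤ th
  th1 : th ≤ ρ
  a1 : 4 * c ^ 2 * e ^ (1 / 200 : ℝ) ≤ 1
  a2 : 16 * c ^ 4 * e ^ (1 / 200 : ℝ) ≤ 1
  a3 : 384 * c ^ 6 * e ^ (1 / 200 : ℝ) ≤ 1
  a4 : c ^ 2 * e ^ th ≤ 1

lemma y_up {y e : ℝ} (hy : 0 < y) (h : y ^ (39 / 20 : ℝ) ≤ e) : y ≤ e ^ (20 / 39 : ℝ) := by
  have h1 : (y ^ (39 / 20 : ℝ)) ^ (20 / 39 : ℝ) ≤ e ^ (20 / 39 : ℝ) :=
    Real.rpow_le_rpow (by positivity) h (by norm_num)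
  rw [← Real.rpow_mul hy.le] at h1
  norm_num at h1
  exact h1

variable {c ρ th e y g X : ℝ}

lemma P7n.x (_ : P7n c ρ th e) (he : 0 < e) (hy : 0 < y) {R : ℝ} (hR0 : 0 ≤ R)
    (hR : R ≤ c * e ^ (-ρ)) :
    R ^ 2 * (e ^ (-(th / 20)) * y) ≤ c ^ 2 * e ^ (-(2 * ρ + th / 20)) * y := by
  have h1 : R ^ 2 ≤ (c * e ^ (-ρ)) ^ 2 := pow_le_pow_left₀ hR0 hR 2
  calc R ^ 2 * (e ^ (-(th / 20)) * y) ≤ (c * e ^ (-ρ)) ^ 2 * (e ^ (-(th / 20)) * y) := by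
        gcongr
    _ = c ^ 2 * ((e ^ (-ρ)) ^ 2 * e ^ (-(th / 20))) * y := by ring
    _ = _ := by
        rw [← Real.rpow_natCast (e ^ (-ρ)) 2, ← Real.rpow_mul he.le, ← Real.rpow_add he]
        congr 3
        push_cast
        ring

/-- small -/
lemma P7n.s (h : P7n c ρ th e) (he : 0 < e) (he1 : e ≤ 1) (hy : 0 < y)
    (hye : y ^ (39 / 20 : ℝ) ≤ e) {R : ℝ} (hR0 : 0 ≤ R) (hR : R ≤ c * e ^ (-ρ)) :
    4 * (R ^ 2 * (e ^ (-(th / 20)) * y)) ≤ 1 := by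
  have h1 := h.x he hy hR0 hR
  have h2 := y_up hy hye
  have hρ := h.ρ1
  have hth := h.th1
  calc 4 * (R ^ 2 * (e ^ (-(th / 20)) * y)) ≤ 4 * (c ^ 2 * e ^ (-(2 * ρ + th / 20)) * y) := by
        linarith
    _ ≤ 4 * (c ^ 2 * e ^ (-(2 * ρ + th / 20)) * e ^ (20 / 39 : ℝ)) := by
        gcongr
    _ = 4 * c ^ 2 * e ^ (-(2 * ρ + th / 20) + 20 / 39) := by
        rw [Real.rpow_add he]
        ring
    _ ≤ 4 * c ^ 2 * e ^ (1 / 200 : ℝ) := by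
        refine mul_le_mul_of_nonneg_left ?_ (by positivity)
        exact Real.rpow_le_rpow_of_exponent_ge he he1 (by linarith)
    _ ≤ 1 := h.a1

/-- the activity -/
lemma P7n.om (h : P7n c ρ th e) (he : 0 < e) (he1 : e ≤ 1) (hy : 0 < y) {R : ℝ} (hR0 : 0 ≤ R)
    (hR : R ≤ c * e ^ (-ρ)) (h20 : th ≤ ρ - th) :
    R ^ 2 * (e ^ (-(th / 20)) * y) ≤ y * e ^ (-ρ * 3) := by
  refine (h.x he hy hR0 hR).trans ?_
  have hth0 := h.th0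
  have h1 : e ^ (-(2 * ρ + th / 20)) ≤ e ^ th * e ^ (-ρ * 3) := by
    rw [← Real.rpow_add he]
    exact Real.rpow_le_rpow_of_exponent_ge he he1 (by linarith)
  calc c ^ 2 * e ^ (-(2 * ρ + th / 20)) * y ≤ c ^ 2 * (e ^ th * e ^ (-ρ * 3)) * y := by gcongr
    _ = (c ^ 2 * e ^ th) * (y * e ^ (-ρ * 3)) := by ring
    _ ≤ 1 * (y * e ^ (-ρ * 3)) := mul_le_mul_of_nonneg_right h.a4 (by positivity)
    _ = _ := one_mul _

/-- the number `e₁` -/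
lemma P7n.e1 (h : P7n c ρ th e) (he : 0 < e) (he1 : e ≤ 1) (hy : 0 < y)
    (hye : y ^ (39 / 20 : ℝ) ≤ e) {R : ℝ} (hR0 : 0 ≤ R) (hR : R ≤ c * e ^ (-ρ)) (hg : g ≤ 1 / 2) :
    4 * (R ^ 2 * (e ^ (-(th / 20)) * y)) * (R ^ 2 * (y * e ^ g)) +
      192 * (R ^ 2 * (e ^ (-(th / 20)) * y)) ^ 3 ≤ y * e ^ (1 / 2 + g) := by
  have h1 := h.x he hy hR0 hR
  have h2 := y_up hy hye
  have hρ := h.ρ1
  have hth := h.th1
  have hth0 := h.th0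
  have hc := h.c0
  have hc0 : 0 < c := by linarith
  have hR2 : R ^ 2 ≤ (c * e ^ (-ρ)) ^ 2 := pow_le_pow_left₀ hR0 hR 2
  have hx0 : 0 ≤ R ^ 2 * (e ^ (-(th / 20)) * y) := by positivity
  have hy2 : y ^ 2 ≤ (e ^ (20 / 39 : ℝ)) ^ 2 := pow_le_pow_left₀ hy.le h2 2
  have s1 : 4 * (R ^ 2 * (e ^ (-(th / 20)) * y)) * (R ^ 2 * (y * e ^ g)) ≤
      1 / 2 * (y * e ^ (1 / 2 + g)) := by
    calc 4 * (R ^ 2 * (e ^ (-(th / 20)) * y)) * (R ^ 2 * (y * e ^ g)) ≤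
        4 * (c ^ 2 * e ^ (-(2 * ρ + th / 20)) * y) * ((c * e ^ (-ρ)) ^ 2 *
          (e ^ (20 / 39 : ℝ) * e ^ g)) := by
          gcongr
      _ = 4 * c ^ 4 * (e ^ (-(2 * ρ + th / 20)) * (e ^ (-ρ)) ^ 2 * e ^ (20 / 39 : ℝ) * e ^ g) *
          y := by ring
      _ = 4 * c ^ 4 * e ^ (-(2 * ρ + th / 20) + -ρ * 2 + 20 / 39 + g) * y := by
          rw [← Real.rpow_natCast (e ^ (-ρ)) 2, ← Real.rpow_mul he.le, ← Real.rpow_add he,
            ← Real.rpow_add he, ← Real.rpow_add he]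
          norm_num
      _ ≤ 4 * c ^ 4 * e ^ (1 / 200 + (1 / 2 + g)) * y := by
          refine mul_le_mul_of_nonneg_right ?_ hy.le
          refine mul_le_mul_of_nonneg_left ?_ (by positivity)
          exact Real.rpow_le_rpow_of_exponent_ge he he1 (by linarith)
      _ = 1 / 4 * (16 * c ^ 4 * e ^ (1 / 200 : ℝ)) * (y * e ^ (1 / 2 + g)) := by
          rw [Real.rpow_add he]
          ring
      _ ≤ 1 / 4 * 1 * (y * e ^ (1 / 2 + g)) := by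
          refine mul_le_mul_of_nonneg_right ?_ (by positivity)
          exact mul_le_mul_of_nonneg_left h.a2 (by norm_num)
      _ ≤ _ := by
          have : 0 ≤ y * e ^ (1 / 2 + g) := by positivity
          linarith
  have s2 : 192 * (R ^ 2 * (e ^ (-(th / 20)) * y)) ^ 3 ≤ 1 / 2 * (y * e ^ (1 / 2 + g)) := by
    calc 192 * (R ^ 2 * (e ^ (-(th / 20)) * y)) ^ 3 ≤
        192 * (c ^ 2 * e ^ (-(2 * ρ + th / 20)) * y) ^ 3 := by gcongr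
      _ = 192 * c ^ 6 * ((e ^ (-(2 * ρ + th / 20))) ^ 3 * y ^ 2) * y := by ring
      _ ≤ 192 * c ^ 6 * ((e ^ (-(2 * ρ + th / 20))) ^ 3 * (e ^ (20 / 39 : ℝ)) ^ 2) * y := by
          gcongr
      _ = 192 * c ^ 6 * e ^ (-(2 * ρ + th / 20) * 3 + 20 / 39 * 2) * y := by
          rw [← Real.rpow_natCast (e ^ (-(2 * ρ + th / 20))) 3, ← Real.rpow_mul he.le,
            ← Real.rpow_natCast (e ^ (20 / 39 : ℝ)) 2, ← Real.rpow_mul he.le, ← Real.rpow_add he]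
          norm_num
      _ ≤ 192 * c ^ 6 * e ^ (1 / 200 + (1 / 2 + g)) * y := by
          refine mul_le_mul_of_nonneg_right ?_ hy.le
          refine mul_le_mul_of_nonneg_left ?_ (by positivity)
          exact Real.rpow_le_rpow_of_exponent_ge he he1 (by linarith)
      _ = 1 / 2 * (384 * c ^ 6 * e ^ (1 / 200 : ℝ)) * (y * e ^ (1 / 2 + g)) := by
          rw [Real.rpow_add he]
          ring
      _ ≤ 1 / 2 * 1 * (y * e ^ (1 / 2 + g)) := by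
          refine mul_le_mul_of_nonneg_right ?_ (by positivity)
          exact mul_le_mul_of_nonneg_left h.a3 (by norm_num)
      _ = _ := by ring
  linarith

/-- the number `e₁` without `CH2` -/
lemma P7n.e1' (h : P7n c ρ th e) (he : 0 < e) (he1 : e ≤ 1) (hy : 0 < y)
    (hye : y ^ (39 / 20 : ℝ) ≤ e) {R : ℝ} (hR0 : 0 ≤ R) (hR : R ≤ c * e ^ (-ρ)) :
    4 * (R ^ 2 * (e ^ (-(th / 20)) * y)) * (2 * (R ^ 2 * (e ^ (-(th / 20)) * y))) +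
      192 * (R ^ 2 * (e ^ (-(th / 20)) * y)) ^ 3 ≤ y * e ^ (1 / 2 : ℝ) := by
  have h1 := h.x he hy hR0 hR
  have h2 := y_up hy hye
  have hρ := h.ρ1
  have hth := h.th1
  have hth0 := h.th0
  have hc := h.c0
  have hc0 : 0 < c := by linarith
  have hx0 : 0 ≤ R ^ 2 * (e ^ (-(th / 20)) * y) := by positivity
  have hx1 := h.s he he1 hy hye hR0 hR
  have s0 : 16 * (R ^ 2 * (e ^ (-(th / 20)) * y)) ^ 2 ≤ 1 * (y * e ^ (1 / 2 : ℝ)) := by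
    calc 16 * (R ^ 2 * (e ^ (-(th / 20)) * y)) ^ 2 ≤
        16 * (c ^ 2 * e ^ (-(2 * ρ + th / 20)) * y) ^ 2 := by gcongr
      _ = 16 * c ^ 4 * ((e ^ (-(2 * ρ + th / 20))) ^ 2 * y) * y := by ring
      _ ≤ 16 * c ^ 4 * ((e ^ (-(2 * ρ + th / 20))) ^ 2 * e ^ (20 / 39 : ℝ)) * y := by gcongr
      _ = 16 * c ^ 4 * e ^ (-(2 * ρ + th / 20) * 2 + 20 / 39) * y := by
          rw [← Real.rpow_natCast (e ^ (-(2 * ρ + th / 20))) 2, ← Real.rpow_mul he.le,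
            ← Real.rpow_add he]
          norm_num
      _ ≤ 16 * c ^ 4 * e ^ (1 / 200 + 1 / 2 : ℝ) * y := by
          refine mul_le_mul_of_nonneg_right ?_ hy.le
          refine mul_le_mul_of_nonneg_left ?_ (by positivity)
          exact Real.rpow_le_rpow_of_exponent_ge he he1 (by linarith)
      _ = (16 * c ^ 4 * e ^ (1 / 200 : ℝ)) * (y * e ^ (1 / 2 : ℝ)) := by
          rw [Real.rpow_add he]
          ring
      _ ≤ 1 * (y * e ^ (1 / 2 : ℝ)) := mul_le_mul_of_nonneg_right h.a2 (by positivity)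
  have s1 : 384 * (R ^ 2 * (e ^ (-(th / 20)) * y)) ^ 3 ≤ 1 * (y * e ^ (1 / 2 : ℝ)) := by
    calc 384 * (R ^ 2 * (e ^ (-(th / 20)) * y)) ^ 3 ≤
        384 * (c ^ 2 * e ^ (-(2 * ρ + th / 20)) * y) ^ 3 := by gcongr
      _ = 384 * c ^ 6 * ((e ^ (-(2 * ρ + th / 20))) ^ 3 * y ^ 2) * y := by ring
      _ ≤ 384 * c ^ 6 * ((e ^ (-(2 * ρ + th / 20))) ^ 3 * (e ^ (20 / 39 : ℝ)) ^ 2) * y := by
          have hy2 : y ^ 2 ≤ (e ^ (20 / 39 : ℝ)) ^ 2 := pow_le_pow_left₀ hy.le h2 2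
          gcongr
      _ = 384 * c ^ 6 * e ^ (-(2 * ρ + th / 20) * 3 + 20 / 39 * 2) * y := by
          rw [← Real.rpow_natCast (e ^ (-(2 * ρ + th / 20))) 3, ← Real.rpow_mul he.le,
            ← Real.rpow_natCast (e ^ (20 / 39 : ℝ)) 2, ← Real.rpow_mul he.le, ← Real.rpow_add he]
          norm_num
      _ ≤ 384 * c ^ 6 * e ^ (1 / 200 + 1 / 2 : ℝ) * y := by
          refine mul_le_mul_of_nonneg_right ?_ hy.le
          refine mul_le_mul_of_nonneg_left ?_ (by positivity)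
          exact Real.rpow_le_rpow_of_exponent_ge he he1 (by linarith)
      _ = (384 * c ^ 6 * e ^ (1 / 200 : ℝ)) * (y * e ^ (1 / 2 : ℝ)) := by
          rw [Real.rpow_add he]
          ring
      _ ≤ 1 * (y * e ^ (1 / 2 : ℝ)) := mul_le_mul_of_nonneg_right h.a3 (by positivity)
  nlinarith

end scal

section fam

variable {b1 b2 pf : ℝ} {Q : ℕ}

/-- the numbers hold in the order of constants -/
theorem ev_p7n : Ev b1 b2 pf Q fun P _ => 4 * P.thp ≤ P.th + 4 * P.q0 * P.thp ∧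
    ∀ e, 0 < e → e ≤ P.es →
      P7n (2 ^ (1 + 4 * P.q0)) (P.th + 4 * P.q0 * P.thp) P.thp e := by
  refine Ev.of ⟨0, fun W _ => ⟨1, one_pos, fun ys _ _ => ⟨0, fun X0 _ => ⟨1 / 10000,
    by norm_num, fun x1 hx0 hx1 => ⟨1 / (10000 * ((Q : ℝ) + 3)), by positivity,
    fun thp ht0 ht1 => ⟨1 / 10000, by norm_num, fun th hs0 hs1 => ⟨1, fun C0 _ => ⟨1, one_pos,
    fun c1 _ _ => ?_⟩⟩⟩⟩⟩⟩⟩⟩
  have hc : (0 : ℝ) < 2 ^ (1 + 4 * (Q + ⌈x1 / thp⌉₊ + 2)) := by positivity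
  obtain ⟨E1, hE1, hE11, k1⟩ := abs_const (C := 4 * (2 ^ (1 + 4 * (Q + ⌈x1 / thp⌉₊ + 2))) ^ 2)
    (η := 1 / 200) (by positivity) (by norm_num)
  obtain ⟨E2, hE2, hE21, k2⟩ := abs_const (C := 16 * (2 ^ (1 + 4 * (Q + ⌈x1 / thp⌉₊ + 2))) ^ 4)
    (η := 1 / 200) (by positivity) (by norm_num)
  obtain ⟨E3, hE3, hE31, k3⟩ := abs_const (C := 384 * (2 ^ (1 + 4 * (Q + ⌈x1 / thp⌉₊ + 2))) ^ 6)
    (η := 1 / 200) (by positivity) (by norm_num)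
  obtain ⟨E4, hE4, hE41, k4⟩ := abs_const (C := (2 ^ (1 + 4 * (Q + ⌈x1 / thp⌉₊ + 2))) ^ 2)
    (η := thp) (by positivity) ht0
  refine ⟨min (min E1 E2) (min E3 E4), by positivity, fun P hP => ?_⟩
  have hρ := hP.rho hx0 ht0
  have hq : (2 : ℝ) ≤ P.q0 := by exact_mod_cast hP.adm.hq
  have e1 := hP.eth
  have e2 := hP.ethp
  have e3 := hP.eq0
  have h1 : ((Q : ℝ) + 3) * thp ≤ 1 / 10000 := by
    rw [le_div_iff₀ (by positivity)] at ht1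
    linarith
  rw [e2] at hρ ⊢
  rw [e1]
  have h3 : 2 * thp ≤ (P.q0 : ℝ) * thp := mul_le_mul_of_nonneg_right hq ht0.le
  refine ⟨by linarith, fun e he hes => ?_⟩
  have h2 := hes.trans hP.ees
  exact ⟨one_le_pow₀ one_le_two, by nlinarith, by linarith, ht0.le, by linarith,
    by rw [e3]; exact k1 e he (h2.trans ((min_le_left _ _).trans (min_le_left _ _))),
    by rw [e3]; exact k2 e he (h2.trans ((min_le_left _ _).trans (min_le_right _ _))),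
    by rw [e3]; exact k3 e he (h2.trans ((min_le_right _ _).trans (min_le_left _ _))),
    by rw [e3]; exact k4 e he (h2.trans ((min_le_right _ _).trans (min_le_right _ _)))⟩

/-- **(P7)**: `e₁` and `om_1` at the `V` level -/
theorem ev_p7 : Ev b1 b2 pf Q fun P _ => ∀ (b : ℝ) (n : ℕ) (e y : ℝ), 0 < b → 0 < e → e ≤ P.es →
    0 < y → y ^ (39 / 20 : ℝ) ≤ e →
    (∀ r, P.TT n e r → yt (2 ^ r) b (4 * tn n) ≤ e ^ (-(P.thp / 20)) * y) →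
    ∀ r, P.TT n e r →
      (∀ g : ℝ, g ≤ 1 / 2 →
        ch2 (wT b (2 ^ r)) ((4 * tn n) • (1 : Matrix (Tor (2 ^ r)) (Tor (2 ^ r)) ℝ)) 0 ≤
          (2 ^ (r - n)) ^ 2 * (y * e ^ g) →
        ∀ F : Tor (2 ^ r) → ℝ, ‖H896.Ph (wT b (2 ^ r)) (mt (2 ^ r) (tn n)) 1 F -
          Wq (wT b (2 ^ r)) (mt (2 ^ r) (tn n)) 1 F‖ ≤ y * e ^ (1 / 2 + g)) ∧
      (∀ F : Tor (2 ^ r) → ℝ, ‖H896.Ph (wT b (2 ^ r)) (mt (2 ^ r) (tn n)) 1 F -
          Wq (wT b (2 ^ r)) (mt (2 ^ r) (tn n)) 1 F‖ ≤ y * e ^ (1 / 2 : ℝ)) ∧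
      ∀ T, 0 < T → T ≤ 4 * tn n →
        om (wT b (2 ^ r)) (mt (2 ^ r) T) 1 ≤ y * e ^ (-(P.th + 4 * P.q0 * P.thp) * 3) := by
  refine ev_p7n.mono fun P _ hA h b n e y hb he hes hy hye hv r hr => ?_
  obtain ⟨h4, h⟩ := h
  have h1 := h e he hes
  have he1 : e ≤ 1 := hes.trans (P.es1.trans (by norm_num))
  have hnr : n ≤ r := le_trans (Nat.le_add_right _ _) hr.1
  have hR := tt_R hr he he1
  have hR0 : (0 : ℝ) ≤ 2 ^ (r - n) := by positivity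
  have hs := h1.s he he1 hy hye hR0 hR
  refine ⟨fun g hg hc F => ?_, fun F => ?_, fun T hT hT2 => ?_⟩
  · exact (e1_tor hb hnr (hv r hr) hs hc F).trans (h1.e1 he he1 hy hye hR0 hR hg)
  · exact (e1_tor hb hnr (hv r hr) hs (ch2_crude hb hnr (hv r hr) hs) F).trans
      (h1.e1' he he1 hy hye hR0 hR)
  · refine (om_tor hb hnr (hv r hr) hs hT hT2).trans (h1.om he he1 hy hR0 hR ?_)
    have := P.thp0
    linarith

/-- **(P7) in cell letters** -/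
theorem ev_p7c : Ev b1 b2 pf Q fun P _ => ∀ (b : ℝ) (n s : ℕ) (e y : ℝ), 0 < b → 0 < e →
    e ≤ P.es → 0 < y → y ^ (39 / 20 : ℝ) ≤ e →
    (∀ r, P.TT n e r → yt (2 ^ r) b (4 * tn n) ≤ e ^ (-(P.thp / 20)) * y) →
    ∀ r, P.TT n e r → ∀ [NeZero (2 ^ r / 2 ^ s)],
      (∀ g : ℝ, g ≤ 1 / 2 →
        ch2 (wT b (2 ^ r)) ((4 * tn n) • (1 : Matrix (Tor (2 ^ r)) (Tor (2 ^ r)) ℝ)) 0 ≤
          (2 ^ (r - n)) ^ 2 * (y * e ^ g) →
        ∀ F : V (2 ^ r / 2 ^ s) → ℝ, ‖H896.Ph (wT b (2 ^ r)) (mt (2 ^ r) (tn n)) 1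
          (H363.lf (2 ^ r) (2 ^ s) F) - H889.Wc (2 ^ r) (2 ^ s) b (tn n) F‖ ≤
            y * e ^ (1 / 2 + g)) ∧
      (∀ F : V (2 ^ r / 2 ^ s) → ℝ, ‖H896.Ph (wT b (2 ^ r)) (mt (2 ^ r) (tn n)) 1
          (H363.lf (2 ^ r) (2 ^ s) F) - H889.Wc (2 ^ r) (2 ^ s) b (tn n) F‖ ≤
            y * e ^ (1 / 2 : ℝ)) ∧
      ∀ T, 0 < T → T ≤ 4 * tn n →
        om (wT b (2 ^ r)) (mt (2 ^ r) T) 1 ≤ y * e ^ (-(P.th + 4 * P.q0 * P.thp) * 3) :=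
  ev_p7.mono fun _ _ _ h b n _ e y hb he hes hy hye hv r hr _ =>
    have h1 := h b n e y hb he hes hy hye hv r hr
    ⟨fun g hg hc _ => h1.1 g hg hc _, fun _ => h1.2.1 _, h1.2.2⟩

end fam

end

end Vale.Agent.P159.H43
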