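import Vale.Agent.P159.H316.St1

/-!
P159 / START (helper43): the second part of the start from its window (`Part2a → Part2`): iteration
and the final state.
-/

set_option linter.unusedSectionVars false

namespace Vale.Agent.P159.H43.P2

open Filter Topology
open Vale.Agent.P159.H864 (yt)
open Vale.Agent.P159.H972 (Par Good YBn tn)
open Vale.Agent.P159.H801 (Ev)
open Vale.Agent.P159.H889 (Cx Cw SV TV VB lam nu CH2 VSs Lg lam_pos)
open Vale.Agent.P159.H316

noncomputable section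

variable {P : Par} {b C1 c1 A1 : ℝ} {n s : ℕ} {e : ℝ} {ζ : ℂ} {Δ E : ℝ}

/-- **iteration of the window** -/
theorem iter {N0 : ℕ} (h : Step2 P b C1 c1 A1 N0) (hn : N0 ≤ n)
    (h0 : S2J P b C1 c1 A1 0 n s e ζ Δ E) : ∀ j : ℕ, (j : ℝ) * P.thp ≤ 1000 →
    ∃ (n' s' : ℕ) (e' : ℝ) (ζ' : ℂ) (Δ' E' : ℝ), n ≤ n' ∧ 0 < e' ∧ e' ≤ e ∧
      S2J P b C1 c1 A1 (j + 1) n' s' e' ζ' Δ' E' ∧
      CH2 P b n' e' (‖ζ'‖ * e' ^ gJ P (j + 1)) ∧
      CHB P b n' e' (‖ζ'‖ ^ (2 - P.x1 / 50) + ‖ζ'‖ * e' ^ gB P (j + 1)) := by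
  have hthp := P.thp0
  intro j
  induction j with
  | zero =>
    intro _
    obtain ⟨s', ζ', Δ', E', h1, h2, h3⟩ := h 0 n s e ζ Δ E hn (by
      rw [Nat.cast_zero, zero_mul]
      norm_num) h0
    have he := h0.e0
    exact ⟨n + P.w e, s', e / 2, ζ', Δ', E', Nat.le_add_right _ _, by linarith, by linarith, h1, h2,
      h3⟩
  | succ j ih =>
    intro hj
    push_cast at hj
    obtain ⟨n1, s1, e1, ζ1, Δ1, E1, a1, a2, a3, a4, -, -⟩ := ih (by nlinarith)
    obtain ⟨s', ζ', Δ', E', h1, h2, h3⟩ := h (j + 1) n1 s1 e1 ζ1 Δ1 E1 (hn.trans a1) (by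
      push_cast
      exact hj) a4
    exact ⟨n1 + P.w e1, s', e1 / 2, ζ', Δ', E', a1.trans (Nat.le_add_right _ _), by linarith,
      by linarith, h1, h2, h3⟩

/-- the cells contain many sites -/
lemma ns_of (hC1 : 24 ≤ C1) (hn : 4 ≤ n) {x : ℝ} (hx : 0 < x)
    (h1 : 1 / 2 * x ^ (69 / 64 * C1) ≤ lam n s) (hdx : -Real.log x ≤ 1 / (16 * C1) * n) :
    n ≤ 2 * s := by
  have hl2 := Real.log_two_gt_d9
  have hl20 : 0 < Real.log 2 := by linarith
  have h2 := Real.log_le_log (by positivity) h1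
  have h3 : Real.log (lam n s) = ((s : ℝ) - n) * Real.log 2 := by
    unfold H889.lam
    rw [Real.log_div (by positivity) (by positivity), Real.log_pow, Real.log_pow]
    ring
  rw [h3, Real.log_mul (by norm_num) (by positivity), Real.log_rpow hx, one_div,
    Real.log_inv] at h2
  have h4 : 69 / 64 * C1 * (-Real.log x) ≤ 69 / 1024 * n := by
    calc 69 / 64 * C1 * (-Real.log x) ≤ 69 / 64 * C1 * (1 / (16 * C1) * n) :=
          mul_le_mul_of_nonneg_left hdx (by positivity)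
      _ = 69 / 1024 * n := by field_simp; ring
  have hn4 : (4 : ℝ) ≤ n := by exact_mod_cast hn
  have h5 : ((n : ℝ) - s) * Real.log 2 ≤ Real.log 2 + 69 / 1024 * n := by nlinarith
  have h6 : (n : ℝ) ≤ 2 * s := by
    by_contra hc
    push Not at hc
    have h7 : (n : ℝ) / 2 * Real.log 2 ≤ ((n : ℝ) - s) * Real.log 2 :=
      mul_le_mul_of_nonneg_right (by linarith) hl20.le
    nlinarith
  exact_mod_cast h6

/-- the final state -/
theorem fin_of (hA : P.Adm) (hC1 : 24 ≤ C1) (hn : 4 ≤ n) {N0 j : ℕ} (hN : N0 ≤ n)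
    (hyb : YBB P b N0) (hj1 : 840 ≤ (j : ℝ) * P.thp) (hj2 : (j : ℝ) * P.thp ≤ 1001)
    (h : S2J P b C1 c1 A1 j n s e ζ Δ E) (hch : CH2 P b n e (‖ζ‖ * e ^ gJ P j))
    (hchb : CHB P b n e (‖ζ‖ ^ (2 - P.x1 / 50) + ‖ζ‖ * e ^ gB P j)) :
    Fin2 P b C1 c1 A1 n e ζ := by
  have hthp := P.thp0
  have hth := P.th0
  have hthp1 := hA.thp1
  have hx := hA.hx
  have he := h.e0
  have he4 : e ≤ 1 / 4 := h.es.trans hA.es4
  have he1 : e ≤ 1 := he4.trans (by norm_num)
  have hz : 0 < ‖ζ‖ := norm_pos_iff.2 h.z0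
  have eg : gJ P j = 1 / 2 := by
    unfold gJ
    refine min_eq_left ?_
    have : (j : ℝ) * (P.thp / 200) = (j : ℝ) * P.thp / 200 := by ring
    rw [this]
    linarith
  have eB : gB P j = 2 := by
    unfold gB
    refine min_eq_left ?_
    have : (j : ℝ) * (P.thp / 400) = (j : ℝ) * P.thp / 400 := by ring
    rw [this]
    linarith
  have ed : dJ P j = 7 / 8 := by
    unfold dJ
    refine min_eq_left ?_
    have : (j : ℝ) * (P.thp / 200) = (j : ℝ) * P.thp / 200 := by ring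
    rw [this]
    linarith
  have eE : eJ P j = 439 / 500 := by
    unfold eJ
    refine min_eq_left ?_
    have : (j : ℝ) * (P.thp / 200) = (j : ℝ) * P.thp / 200 := by ring
    rw [this]
    linarith
  have eu : 529 / 1000 ≤ uJ P j := by
    unfold uJ
    have : (j : ℝ) * (P.thp / 10 ^ 6) = (j : ℝ) * P.thp / 10 ^ 6 := by ring
    rw [this]
    linarith
  rw [eg] at hch
  rw [eB] at hchb
  have hzu : ‖ζ‖ ≤ e ^ (529 / 1000 : ℝ) :=
    h.zu.trans (Real.rpow_le_rpow_of_exponent_ge he he1 eu)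
  have hz1 : ‖ζ‖ ≤ 1 := hzu.trans (Real.rpow_le_one he.le he1 (by norm_num))
  have hez : 0 < e * ‖ζ‖ := by positivity
  have hez1 : e * ‖ζ‖ ≤ 1 / 4 := by nlinarith
  have hyr : ‖ζ‖ ≤ yr P e ζ := by
    unfold yr
    exact le_mul_of_one_le_left hz.le
      (Real.one_le_rpow_of_pos_of_le_one_of_nonpos he he1 (by linarith))
  have hp50 : e ^ (-(P.thp / 50)) * e ^ (P.thp / 50) = 1 := by
    rw [← Real.rpow_add he, neg_add_cancel, Real.rpow_zero]
  refine ⟨h.G, ⟨s, ?_⟩, hchb, ?_, h.vz, ?_, h.zl⟩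
  · refine ⟨rfl, hz, fun r hr => ?_, ?_, ?_, ?_, ?_, ?_, hch⟩
    · refine (h.vz r hr.1).trans ?_
      refine mul_le_mul_of_nonneg_right ?_ hz.le
      exact Real.rpow_le_rpow_of_exponent_ge he he1 (by linarith)
    · refine le_trans ?_ h.s1
      have h1 : (e * ‖ζ‖) ^ (69 / 64 * C1) ≤ (e * yr P e ζ) ^ (69 / 64 * C1) :=
        Real.rpow_le_rpow hez.le (mul_le_mul_of_nonneg_left hyr he.le) (by linarith)
      have h2 : (e * ‖ζ‖) ^ (3 / 64 * C1) ≤ 1 / 2 := by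
        calc (e * ‖ζ‖) ^ (3 / 64 * C1) ≤ (e * ‖ζ‖) ^ (1 : ℝ) :=
              Real.rpow_le_rpow_of_exponent_ge hez (by linarith) (by linarith)
          _ = e * ‖ζ‖ := Real.rpow_one _
          _ ≤ 1 / 2 := by linarith
      calc (e * ‖ζ‖) ^ (9 / 8 * C1) = (e * ‖ζ‖) ^ (3 / 64 * C1) * (e * ‖ζ‖) ^ (69 / 64 * C1) := by
            rw [← Real.rpow_add hez]
            congr 1
            ring
        _ ≤ 1 / 2 * (e * yr P e ζ) ^ (69 / 64 * C1) :=
            mul_le_mul h2 h1 (by positivity) (by norm_num)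
    · refine h.s2.trans ?_
      have hyr0 : 0 < yr P e ζ := lt_of_lt_of_le hz hyr
      have h1 : (e * yr P e ζ) ^ (69 / 64 : ℝ) ≤ e * ‖ζ‖ := by
        have h2 : e * yr P e ζ = e ^ (1 - P.thp / 50) * ‖ζ‖ := by
          unfold yr
          rw [sub_eq_add_neg, Real.rpow_add he, Real.rpow_one]
          ring
        rw [h2, Real.mul_rpow (by positivity) hz.le, ← Real.rpow_mul he.le]
        refine mul_le_mul ?_ ?_ (by positivity) he.le
        · calc e ^ ((1 - P.thp / 50) * (69 / 64)) ≤ e ^ (1 : ℝ) :=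
                Real.rpow_le_rpow_of_exponent_ge he he1 (by linarith)
            _ = e := Real.rpow_one _
        · calc ‖ζ‖ ^ (69 / 64 : ℝ) ≤ ‖ζ‖ ^ (1 : ℝ) :=
                Real.rpow_le_rpow_of_exponent_ge hz hz1 (by norm_num)
            _ = ‖ζ‖ := Real.rpow_one _
      calc (e * yr P e ζ) ^ (69 / 64 * C1) = ((e * yr P e ζ) ^ (69 / 64 : ℝ)) ^ C1 := by
            rw [← Real.rpow_mul (by positivity)]
        _ ≤ (e * ‖ζ‖) ^ C1 := Real.rpow_le_rpow (by positivity) h1 (by linarith)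
    · refine ns_of hC1 hn hez (le_trans ?_ h.s1) h.dx
      refine mul_le_mul_of_nonneg_left ?_ (by norm_num)
      exact Real.rpow_le_rpow hez.le (mul_le_mul_of_nonneg_left hyr he.le) (by linarith)
    · refine h.dx.trans ?_
      refine mul_le_mul_of_nonneg_right ?_ (Nat.cast_nonneg _)
      exact one_div_le_one_div_of_le (by positivity) (by linarith)
    · have h1 := h.dv
      have h2 := h.er
      rw [ed] at h1
      rw [eE] at h2
      exact H889.SV.mono h.sv h1 h2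
  · have h1 := hyb n e (e ^ (-(P.thp / 100)) * ‖ζ‖) hN he h.es h.G (by positivity) (by
      have h2 : e ^ (-(P.thp / 100)) * ‖ζ‖ ≤ e ^ (1 / 4 : ℝ) := by
        calc e ^ (-(P.thp / 100)) * ‖ζ‖ ≤ e ^ (-(P.thp / 100)) * e ^ (529 / 1000 : ℝ) :=
              mul_le_mul_of_nonneg_left hzu (by positivity)
          _ = e ^ (-(P.thp / 100) + 529 / 1000) := by rw [← Real.rpow_add he]
          _ ≤ e ^ (1 / 4 : ℝ) := Real.rpow_le_rpow_of_exponent_ge he he1 (by linarith)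
      have h3 : 0 < e ^ (1 / 4 : ℝ) := by positivity
      linarith) (h.vz _ le_rfl)
    have h4 : e ^ (-(P.thp / 200)) * (e ^ (-(P.thp / 100)) * ‖ζ‖) ≤
        e ^ (-(P.x1 / 100)) * ‖ζ‖ := by
      rw [← mul_assoc, ← Real.rpow_add he]
      refine mul_le_mul_of_nonneg_right ?_ hz.le
      exact Real.rpow_le_rpow_of_exponent_ge he he1 (by linarith)
    obtain ⟨g1, g2, g3⟩ := h1
    exact ⟨g1.trans_le h4, fun e' h5 h6 r hr => (g2 e' h5 h6 r hr).trans (max_le_max h4 le_rfl),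
      fun e' h5 h6 r hr => (g3 e' h5 h6 r hr).trans (max_le_max h4 le_rfl)⟩
  · calc ‖ζ‖ ^ (39 / 20 : ℝ) ≤ (e ^ (529 / 1000 : ℝ)) ^ (39 / 20 : ℝ) :=
          Real.rpow_le_rpow hz.le hzu (by norm_num)
      _ = e ^ (529 / 1000 * (39 / 20) : ℝ) := by rw [← Real.rpow_mul he.le]
      _ ≤ e ^ (1 : ℝ) := Real.rpow_le_rpow_of_exponent_ge he he1 (by norm_num)
      _ = e := Real.rpow_one _

/-- **the second part from its window** -/
theorem part2_of {b1 b2 pf : ℝ} {Q : ℕ} {K : ℝ} (h : Part2a b1 b2 pf Q K) :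
    Part2 b1 b2 pf Q K := by
  refine h.mono fun P c1 hA h C1 h1 h2 h3 b a A1 => ?_
  filter_upwards [h C1 h1 h2 h3 b a A1, eventually_ge_atTop 4] with N0 hN hN4 hI n s e ζ Δ E hn hS
  have hthp := P.thp0
  have hthp1 := hA.thp1
  have hc := Nat.le_ceil (840 / P.thp)
  have hc2 := (Nat.ceil_lt_add_one (show 0 ≤ 840 / P.thp by positivity)).le
  have e1 : 840 / P.thp * P.thp = 840 := by field_simp
  have hj : ((⌈840 / P.thp⌉₊ : ℕ) : ℝ) * P.thp ≤ 841 := by
    calc ((⌈840 / P.thp⌉₊ : ℕ) : ℝ) * P.thp ≤ (840 / P.thp + 1) * P.thp :=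
          mul_le_mul_of_nonneg_right hc2 hthp.le
      _ = 840 / P.thp * P.thp + P.thp := by ring
      _ ≤ 841 := by rw [e1]; linarith
  have hj0 : 840 ≤ ((⌈840 / P.thp⌉₊ : ℕ) : ℝ) * P.thp := by
    calc (840 : ℝ) = 840 / P.thp * P.thp := e1.symm
      _ ≤ _ := mul_le_mul_of_nonneg_right hc hthp.le
  obtain ⟨n', s', e', ζ', Δ', E', a1, a2, a3, a4, a5, a6⟩ := iter (hN hI) hn hS
    ⌈840 / P.thp⌉₊ (by linarith)
  refine ⟨n', e', ζ', a1, a2, a3, fin_of hA h1 (hN4.trans (hn.trans a1)) (hn.trans a1) hI.yb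
    ?_ ?_ a4 a5 a6⟩
  · push_cast
    linarith
  · push_cast
    linarith

end

end Vale.Agent.P159.H43.P2
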