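import Vale.Agent.P159.H43.Chb
import Vale.Agent.P159.H43.P7

/-!
P159 / P# (helper43): the number `omH` on the small tori of a level, from `CHB`.
-/

set_option linter.unusedSectionVars false

namespace Vale.Agent.P159.H43

open Finset Matrix Filter Topology
open Vale.Agent.P159.TM.Spec (V)
open Vale.Agent.P159.TM.SpecC (Tor wT)
open Vale.Agent.P159.H864 (yt MC)
open Vale.Agent.P159.H145 (mt)
open Vale.Agent.P159.H972 (Par tn lg)
open Vale.Agent.P159.H801 (Ev PS)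

noncomputable section

lemma num_omh {x1 : ℝ} (hx : 0 < x1) (hx1 : x1 ≤ 1) : ∃ E : ℝ, 0 < E ∧ E ≤ 1 ∧
    ∀ y R Z : ℝ, 0 < y → y ≤ E → 1 ≤ R → R ≤ 512 * y ^ (-(x1 / 250)) → 0 ≤ Z →
      Z ≤ R ^ 2 * (2 * y ^ (2 - x1 / 50)) →
      √(2 * (⌈R * y ^ (-(x1 / 250))⌉₊ : ℕ)) * Z +
        2 * (Real.exp (-(2 * Real.pi ^ 2 / R ^ 2 * ((⌈R * y ^ (-(x1 / 250))⌉₊ : ℕ) : ℝ) ^ 2)) /
          (2 * Real.pi ^ 2 / R ^ 2 * ((⌈R * y ^ (-(x1 / 250))⌉₊ : ℕ) : ℝ))) ≤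
        y ^ (2 - x1 / 25) := by
  obtain ⟨E1, p1, q1, k1⟩ := H415.pow_le_const (A := 1 / (2 * (8 * 512 ^ 3))) (c := x1 / 250)
    (by norm_num) (by positivity)
  obtain ⟨E2, p2, q2, k2⟩ := H415.log_le_pow 0 1 (c := x1 / 125) (by positivity)
  refine ⟨min (min E1 E2) (1 / 4096), by positivity, (min_le_right _ _).trans (by norm_num), ?_⟩
  intro y R Z hy hyE hR1 hR hZ0 hZ
  have g1 := k1 y hy (hyE.trans ((min_le_left _ _).trans (min_le_left _ _)))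
  have g2 := k2 y hy (hyE.trans ((min_le_left _ _).trans (min_le_right _ _)))
  have g3 : y ≤ 1 / 4096 := hyE.trans (min_le_right _ _)
  have hy1 : y ≤ 1 := by linarith
  have hR0 : 0 < R := by linarith
  obtain ⟨X, hX⟩ : ∃ X : ℝ, X = y ^ (-(x1 / 250)) := ⟨_, rfl⟩
  obtain ⟨Qn, hQn⟩ : ∃ Qn : ℕ, Qn = ⌈R * X⌉₊ := ⟨_, rfl⟩
  rw [← hX] at hR
  have hX1 : 1 ≤ X := by
    rw [hX]
    exact Real.one_le_rpow_of_pos_of_le_one_of_nonpos hy hy1 (by linarith)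
  rw [← hX, ← hQn]
  have hRX : 1 ≤ R * X := one_le_mul_of_one_le_of_one_le hR1 hX1
  have b1 : R * X ≤ (Qn : ℝ) := by rw [hQn]; exact Nat.le_ceil _
  have b2 : (Qn : ℝ) ≤ 2 * (R * X) := by
    have := (Nat.ceil_lt_add_one (by linarith : 0 ≤ R * X)).le
    rw [hQn]
    linarith
  have hQ1 : (1 : ℝ) ≤ Qn := hRX.trans b1
  have b3 : √(2 * (Qn : ℝ)) ≤ 4 * (R * X) := by
    have h1 : √(2 * (Qn : ℝ)) ≤ 2 * Qn := by
      rw [Real.sqrt_le_left (by linarith)]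
      nlinarith
    linarith
  obtain ⟨D, hD⟩ : ∃ D : ℝ, D = y ^ (2 - x1 / 25) := ⟨_, rfl⟩
  rw [← hD]
  have hD0 : 0 < D := by rw [hD]; positivity
  -- the first term
  have s1 : √(2 * (Qn : ℝ)) * Z ≤ 1 / 2 * D := by
    have h1 : y ^ (2 - x1 / 50) * X ^ 4 * y ^ (-(x1 / 250)) = D := by
      rw [hX, hD, ← Real.rpow_natCast, ← Real.rpow_mul hy.le, ← Real.rpow_add hy,
        ← Real.rpow_add hy]
      congr 1
      push_cast
      ring
    have h2 : y ^ (2 - x1 / 50) * X ^ 4 = D * y ^ (x1 / 250) := by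
      rw [← h1, mul_assoc, ← Real.rpow_add hy, neg_add_cancel, Real.rpow_zero, mul_one]
    calc √(2 * (Qn : ℝ)) * Z ≤ (4 * (R * X)) * (R ^ 2 * (2 * y ^ (2 - x1 / 50))) :=
          mul_le_mul b3 hZ hZ0 (by positivity)
      _ = 8 * R ^ 3 * X * y ^ (2 - x1 / 50) := by ring
      _ ≤ 8 * (512 * X) ^ 3 * X * y ^ (2 - x1 / 50) := by gcongr
      _ = 8 * 512 ^ 3 * (y ^ (2 - x1 / 50) * X ^ 4) := by ring
      _ = (8 * 512 ^ 3 * y ^ (x1 / 250)) * D := by rw [h2]; ring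
      _ ≤ 1 / 2 * D := by
          refine mul_le_mul_of_nonneg_right ?_ hD0.le
          linarith
  -- the second term
  have hpi : (3 : ℝ) < Real.pi := Real.pi_gt_three
  have s2 : 2 * (Real.exp (-(2 * Real.pi ^ 2 / R ^ 2 * (Qn : ℝ) ^ 2)) /
      (2 * Real.pi ^ 2 / R ^ 2 * (Qn : ℝ))) ≤ 1 / 2 * D := by
    have h1 : X ^ 2 * 18 ≤ 2 * Real.pi ^ 2 / R ^ 2 * (Qn : ℝ) ^ 2 := by
      have h2 : X ^ 2 ≤ (Qn : ℝ) ^ 2 / R ^ 2 := by
        rw [le_div_iff₀ (by positivity)]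
        calc X ^ 2 * R ^ 2 = (R * X) ^ 2 := by ring
          _ ≤ (Qn : ℝ) ^ 2 := pow_le_pow_left₀ (by positivity) b1 2
      calc X ^ 2 * 18 ≤ (Qn : ℝ) ^ 2 / R ^ 2 * (2 * Real.pi ^ 2) :=
            mul_le_mul h2 (by nlinarith) (by norm_num) (by positivity)
        _ = _ := by ring
    have h3 : Real.logb 2 (1 / y) ≤ X ^ 2 := by
      have h4 : X ^ 2 = y ^ (-(x1 / 125)) := by
        rw [hX, ← Real.rpow_natCast, ← Real.rpow_mul hy.le]
        congr 1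
        push_cast
        ring
      rw [h4]
      linarith
    have h5 : Real.log (1 / y) ≤ X ^ 2 := by
      have h6 : Real.log (1 / y) = Real.log 2 * Real.logb 2 (1 / y) := by
        rw [Real.logb]
        have : Real.log 2 ≠ 0 := (Real.log_pos one_lt_two).ne'
        field_simp
      have h7 : 0 ≤ Real.logb 2 (1 / y) :=
        Real.logb_nonneg one_lt_two ((le_div_iff₀ hy).2 (by linarith))
      rw [h6]
      calc Real.log 2 * Real.logb 2 (1 / y) ≤ 1 * Real.logb 2 (1 / y) :=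
            mul_le_mul_of_nonneg_right (by linarith [Real.log_two_lt_d9]) h7
        _ ≤ X ^ 2 := by linarith
    have h8 : Real.exp (-(2 * Real.pi ^ 2 / R ^ 2 * (Qn : ℝ) ^ 2)) ≤ y ^ 4 := by
      have h9 : y ^ 4 = Real.exp (-(4 * Real.log (1 / y))) := by
        rw [one_div, Real.log_inv, mul_neg, neg_neg]
        have : Real.exp (4 * Real.log y) = Real.exp (((4 : ℕ) : ℝ) * Real.log y) := by norm_num
        rw [this, Real.exp_nat_mul, Real.exp_log hy]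
      rw [h9]
      refine Real.exp_le_exp.2 (neg_le_neg ?_)
      have hX2 : 0 ≤ X ^ 2 := sq_nonneg X
      linarith
    have h10 : 1 / R ≤ 2 * Real.pi ^ 2 / R ^ 2 * (Qn : ℝ) := by
      have h11 : R * 1 ≤ (Qn : ℝ) := by
        refine le_trans ?_ b1
        exact mul_le_mul_of_nonneg_left hX1 hR0.le
      rw [div_mul_eq_mul_div, div_le_div_iff₀ hR0 (by positivity)]
      have h12 : (1 : ℝ) ≤ 2 * Real.pi ^ 2 := by nlinarith
      calc 1 * R ^ 2 = (1 * R) * R := by ring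
        _ ≤ (2 * Real.pi ^ 2 * (Qn : ℝ)) * R := by
            refine mul_le_mul_of_nonneg_right ?_ hR0.le
            exact mul_le_mul h12 (by linarith) hR0.le (by positivity)
    have h13 : R * y ≤ 512 := by
      have h14 : X * y ≤ 1 := by
        rw [hX]
        have h15 : y ^ (-(x1 / 250)) * y = y ^ (1 - x1 / 250) := by
          rw [sub_eq_neg_add, Real.rpow_add hy, Real.rpow_one]
        rw [h15]
        exact Real.rpow_le_one hy.le hy1 (by linarith)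
      calc R * y ≤ (512 * X) * y := mul_le_mul_of_nonneg_right hR hy.le
        _ = 512 * (X * y) := by ring
        _ ≤ 512 * 1 := mul_le_mul_of_nonneg_left h14 (by norm_num)
        _ = 512 := by norm_num
    have hDy : y ^ 2 ≤ D := by
      rw [hD, ← Real.rpow_natCast]
      refine Real.rpow_le_rpow_of_exponent_ge hy hy1 ?_
      push_cast
      linarith
    calc 2 * (Real.exp (-(2 * Real.pi ^ 2 / R ^ 2 * (Qn : ℝ) ^ 2)) /
          (2 * Real.pi ^ 2 / R ^ 2 * (Qn : ℝ))) ≤ 2 * (y ^ 4 / (1 / R)) := by gcongr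
      _ = 2 * (R * y) * y * y ^ 2 := by field_simp
      _ ≤ 2 * 512 * y * y ^ 2 := by gcongr
      _ ≤ 1 / 2 * y ^ 2 := by
          refine mul_le_mul_of_nonneg_right ?_ (sq_nonneg _)
          linarith
      _ ≤ 1 / 2 * D := by linarith
  linarith

/-- the tori between `n + kE e` and `n + kE e + w e + 1` are small tori -/
lemma tt_P2_of {P : Par} (hth : P.th ≤ P.thp) {n r : ℕ} {e y : ℝ} (he : 0 < e) (hes : e ≤ 1 / 4)
    (hw : 1 ≤ P.w e) (hy : 0 < y) (hy1 : y ≤ 1) (hhi : e ≤ y ^ (9 / 5 : ℝ))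
    (h1 : n + P.kE e ≤ r) (h2 : (2 : ℝ) ^ (r - n) ≤ 2 * y ^ (-(2 * P.th))) : (P2 P).TT n e r := by
  have h3 : (P2 P).kE e = P.kE e := rfl
  have h4 : (P2 P).w e = P.w e := rfl
  have h5 : (P2 P).q0 = 2 := rfl
  have hth0 := P.th0
  unfold Par.TT
  rw [h3, h4, h5]
  refine ⟨h1, ?_⟩
  -- `y ≥ e ^ (5 / 9)`
  have h6 : e ^ (5 / 9 : ℝ) ≤ y := by
    have h7 := Real.rpow_le_rpow he.le hhi (show (0 : ℝ) ≤ 5 / 9 by norm_num)
    rw [← Real.rpow_mul hy.le] at h7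
    norm_num at h7
    exact h7
  have h8 : y ^ (-(2 * P.th)) ≤ (e ^ (-P.th)) ^ 2 := by
    calc y ^ (-(2 * P.th)) ≤ (e ^ (5 / 9 : ℝ)) ^ (-(2 * P.th)) :=
          Real.rpow_le_rpow_of_nonpos (by positivity) h6 (by linarith)
      _ = e ^ (-(10 / 9 * P.th)) := by
          rw [← Real.rpow_mul he.le]
          congr 1
          ring
      _ ≤ e ^ (-(2 * P.th)) :=
          Real.rpow_le_rpow_of_exponent_ge he (by linarith) (by linarith)
      _ = (e ^ (-P.th)) ^ 2 := by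
          rw [← Real.rpow_natCast, ← Real.rpow_mul he.le]
          congr 1
          push_cast
          ring
  have h9 : e ^ (-P.th) ≤ 2 ^ P.kE e := by
    unfold Par.kE
    rw [← H415.two_rpow_logb he, ← Real.rpow_natCast]
    exact Real.rpow_le_rpow_of_exponent_le one_le_two (H415.lg_ge' _ _)
  have h10 : (2 : ℝ) ^ (r - n) ≤ 2 ^ (1 + 2 * P.kE e) := by
    refine h2.trans ?_
    rw [pow_add, pow_one, mul_comm 2 (P.kE e), pow_mul]
    refine mul_le_mul_of_nonneg_left (h8.trans ?_) (by norm_num)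
    exact pow_le_pow_left₀ (by positivity) h9 2
  have h11 : r - n ≤ 1 + 2 * P.kE e :=
    (pow_le_pow_iff_right₀ (by norm_num : (1 : ℝ) < 2)).1 h10
  have h12 : P.kE e ≤ P.w e := H972.lg_mono hth he (by linarith)
  omega

/-- **the number `omH` on the small tori, sharp size** -/
theorem ev_omh (b1 b2 pf : ℝ) (Q : ℕ) :
    Ev b1 b2 pf Q fun P _ => ∀ b : ℝ, 0 < b → ∀ (n r j : ℕ) (e y : ℝ)
      [NeZero (2 ^ r / 2 ^ j)], 0 < e → e ≤ P.es → 0 < y → y ^ (39 / 20 : ℝ) ≤ e →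
      e ≤ y ^ (9 / 5 : ℝ) → CHB P b n e (y ^ (2 - P.x1 / 50) + y * e ^ (2 : ℝ)) →
      (P2 P).TT n e r →
      omH (wT b (2 ^ r)) (MC (2 ^ r) (2 ^ j) (tn n) (tn n)) ≤ y ^ (2 - P.x1 / 25) := by
  refine H801.Ev.of ⟨0, fun W hW => ⟨1, one_pos, fun ys _ _ => ⟨0, fun X0 hX0 =>
    ⟨1, one_pos, fun x1 hx1 hx1' => ⟨x1 / 5000, by positivity, fun thp ht1 ht2 =>
    ⟨thp, by positivity, fun th hs1 hs2 => ⟨1, fun C0 hC0 => ⟨1, one_pos, fun c1 hc1 hc2 => ?_⟩⟩⟩⟩⟩⟩⟩⟩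
  obtain ⟨E, hE, hE1, hnum⟩ := num_omh hx1 hx1'
  refine ⟨min (1 / 4) (E ^ (39 / 20 : ℝ)), by positivity, fun P hP b hb n r j e y _ he hes hy hlo hhi
    hch hr => ?_⟩
  have he4 : e ≤ 1 / 4 := hes.trans (hP.ees.trans (min_le_left _ _))
  have he1 : e ≤ 1 := he4.trans (by norm_num)
  have heE : e ≤ E ^ (39 / 20 : ℝ) := hes.trans (hP.ees.trans (min_le_right _ _))
  have hyE : y ≤ E := by
    have h1 := hlo.trans heE
    exact (Real.rpow_le_rpow_iff hy.le hE.le (by norm_num)).1 h1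
  have hy1' : y ≤ 1 := hyE.trans hE1
  rw [hP.ex1] at hch ⊢
  have hT : 0 < tn n := H415.tn_pos' n
  have hnr : n ≤ r := le_trans (Nat.le_add_right _ _) hr.1
  have hR := tt_R hr he he1
  have hR1 : (1 : ℝ) ≤ 2 ^ (r - n) := one_le_pow₀ one_le_two
  have hR0 : (0 : ℝ) < 2 ^ (r - n) := by linarith
  have hRX : (2 : ℝ) ^ (r - n) ≤ 512 * y ^ (-(x1 / 250)) := by
    refine hR.trans ?_
    have h5 : (P2 P).q0 = 2 := rfl
    have h6 : (P2 P).th = th := hP.eth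
    have h7 : (P2 P).thp = thp := hP.ethp
    rw [h5, h6, h7]
    norm_num
    have h8 : e ^ (-(8 * thp) + -th) ≤ y ^ (-(x1 / 250)) := by
      calc e ^ (-(8 * thp) + -th) ≤ (y ^ (39 / 20 : ℝ)) ^ (-(8 * thp) + -th) :=
            Real.rpow_le_rpow_of_nonpos (by positivity) hlo (by linarith)
        _ = y ^ (39 / 20 * (-(8 * thp) + -th)) := by rw [← Real.rpow_mul hy.le]
        _ ≤ _ := Real.rpow_le_rpow_of_exponent_ge hy hy1' (by linarith)
    refine h8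
  have hy0 : 0 < y ^ (2 - x1 / 50) := by positivity
  have hZ : y ^ (2 - x1 / 50) + y * e ^ (2 : ℝ) ≤ 2 * y ^ (2 - x1 / 50) := by
    have h1 : e ^ (2 : ℝ) ≤ y ^ (18 / 5 : ℝ) := by
      calc e ^ (2 : ℝ) ≤ (y ^ (9 / 5 : ℝ)) ^ (2 : ℝ) := Real.rpow_le_rpow he.le hhi (by norm_num)
        _ = y ^ (18 / 5 : ℝ) := by
            rw [← Real.rpow_mul hy.le]
            norm_num
    have h2 : y * e ^ (2 : ℝ) ≤ y ^ (2 - x1 / 50) := by
      calc y * e ^ (2 : ℝ) ≤ 1 * y ^ (18 / 5 : ℝ) := mul_le_mul hy1' h1 (by positivity) (by norm_num)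
        _ = y ^ (18 / 5 : ℝ) := one_mul _
        _ ≤ y ^ (2 - x1 / 50) := Real.rpow_le_rpow_of_exponent_ge hy hy1' (by linarith)
    linarith
  have hc := hch r hr
  have hN : tn n * ((2 ^ r : ℕ) : ℝ) ^ 2 = (2 ^ (r - n)) ^ 2 := tn_mul_sq hnr
  obtain ⟨X, hX⟩ : ∃ X : ℝ, X = y ^ (-(x1 / 250)) := ⟨_, rfl⟩
  have hX1 : 1 ≤ X := by
    rw [hX]
    exact Real.one_le_rpow_of_pos_of_le_one_of_nonpos hy hy1' (by linarith)
  have hQ : 1 ≤ ⌈(2 : ℝ) ^ (r - n) * y ^ (-(x1 / 250))⌉₊ := by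
    rw [← hX]
    exact Nat.one_le_ceil_iff.2 (by positivity)
  refine (omH_ch2 (2 ^ j) hb.le hT (t := 4 * tn n) (by linarith) (hc.trans
    (mul_le_mul_of_nonneg_left hZ (by positivity))) hQ
    (a := 2 * Real.pi ^ 2 / (2 ^ (r - n)) ^ 2) (by positivity) ?_).trans
    (hnum y (2 ^ (r - n)) _ hy hyE hR1 hRX (by positivity) le_rfl)
  rw [hN]
  exact le_of_eq (div_mul_cancel₀ _ (by positivity))

end

end Vale.Agent.P159.H43
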