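import Vale.Agent.P159.H43.LK
import Vale.Agent.P159.H363.L2

/-!
P159 (helper43), module DLK, first part: Landau-Kolmogorov inequalities in `L²` of any measure.
`lk_nodes`: pointwise, `m`-th derivative from `n` values and a bound for the `n`-th derivative.
`lk_n2`: the same in `L²`.
-/

open Finset Set MeasureTheory
open Vale.Agent.P159.H363 (n2 n2_nonneg n2_const_mul n2_sum_le n2_add_le memLp_sum)

namespace Vale.Agent.P159.H43

noncomputable section

/-- the node number `j` -/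
def nod (n : ℕ) (j : Fin n) : ℝ := ((j : ℕ) + 1 : ℝ) / n

lemma nod_pos {n : ℕ} (j : Fin n) : 0 < nod n j := by
  have : (0 : ℝ) < n := by exact_mod_cast j.pos
  unfold nod
  positivity

lemma nod_le {n : ℕ} (j : Fin n) : nod n j ≤ 1 := by
  have h0 : (0 : ℝ) < n := by exact_mod_cast j.pos
  unfold nod
  rw [div_le_one h0]
  exact_mod_cast j.isLt

section pointwise

variable {E : Type*} [NormedAddCommGroup E] [NormedSpace ℝ E]

/-- **Landau-Kolmogorov with nodes** -/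
theorem lk_nodes (n : ℕ) : ∃ C : ℝ, 0 < C ∧ ∀ (f : ℝ → E) (h B : ℝ), 0 < h →
    ContDiff ℝ n f → (∀ x ∈ Icc 0 h, ‖iteratedDeriv n f x‖ ≤ B) →
    ∀ m < n, ‖iteratedDeriv m f 0‖ * h ^ m ≤ C * (∑ j : Fin n, ‖f (nod n j * h)‖ + B * h ^ n) := by
  classical
  rcases n with _ | n
  · exact ⟨1, one_pos, fun f h B _ _ _ m hm => absurd hm (Nat.not_lt_zero m)⟩
  choose c hc using exists_coef (n + 1)
  set S : ℝ := ∑ m, ∑ j, |c m j| with hS
  have hS0 : 0 ≤ S := sum_nonneg fun _ _ => sum_nonneg fun _ _ => abs_nonneg _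
  refine ⟨(n + 1).factorial * (S + 1), by positivity, ?_⟩
  intro f h B hh hf hB m hm
  have hB0 : 0 ≤ B := (norm_nonneg _).trans (hB 0 ⟨le_rfl, hh.le⟩)
  have hu : UniqueDiffOn ℝ (Icc (0 : ℝ) h) := uniqueDiffOn_Icc hh
  have hw : ∀ k ≤ n + 1, ∀ x ∈ Icc 0 h,
      iteratedDerivWithin k f (Icc 0 h) x = iteratedDeriv k f x := by
    intro k hk x hx
    exact iteratedDerivWithin_eq_iteratedDeriv hu
      ((hf.of_le (by exact_mod_cast hk)).contDiffAt) hx
  set Sn : ℝ := ∑ j : Fin (n + 1), ‖f (nod (n + 1) j * h)‖ with hSn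
  have hSn0 : 0 ≤ Sn := sum_nonneg fun _ _ => norm_nonneg _
  -- Taylor with remainder at the nodes
  have htay : ∀ j : Fin (n + 1), ‖f (nod (n + 1) j * h) -
      ∑ i : Fin (n + 1), (nod (n + 1) j * h) ^ (i : ℕ) •
        ((1 / ((i : ℕ).factorial : ℝ)) • iteratedDeriv (i : ℕ) f 0)‖ ≤ B * h ^ (n + 1) := by
    intro j
    set τ : ℝ := nod (n + 1) j with hτ
    have hτ0 : 0 ≤ τ := (nod_pos j).le
    have hτ1 : τ ≤ 1 := nod_le j
    have hx : τ * h ∈ Icc (0 : ℝ) h := ⟨by positivity, by nlinarith⟩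
    have h1 := taylor_mean_remainder_bound (f := f) (a := 0) (b := h) (C := B) (x := τ * h)
      (n := n) hh.le (by exact_mod_cast hf.contDiffOn) hx
      (fun y hy => by rw [hw (n + 1) le_rfl y hy]; exact hB y hy)
    have h2 : taylorWithinEval f n (Icc 0 h) 0 (τ * h) = ∑ i : Fin (n + 1), (τ * h) ^ (i : ℕ) •
        ((1 / ((i : ℕ).factorial : ℝ)) • iteratedDeriv (i : ℕ) f 0) := by
      rw [taylor_within_apply, Finset.sum_range fun k =>
        ((k.factorial : ℝ)⁻¹ * (τ * h - 0) ^ k) • iteratedDerivWithin k f (Icc 0 h) 0]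
      refine sum_congr rfl fun i _ => ?_
      rw [hw (i : ℕ) (by have := i.isLt; omega) 0 ⟨le_rfl, hh.le⟩, smul_smul, sub_zero, one_div,
        mul_comm]
    rw [h2] at h1
    refine h1.trans ?_
    rw [sub_zero]
    have h3 : (τ * h) ^ (n + 1) ≤ h ^ (n + 1) := by
      apply pow_le_pow_left₀ (by positivity)
      nlinarith
    have h4 : (1 : ℝ) ≤ (n.factorial : ℝ) := by
      exact_mod_cast Nat.one_le_iff_ne_zero.2 (Nat.factorial_ne_zero n)
    rw [div_le_iff₀ (by positivity)]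
    have h5 : B * (τ * h) ^ (n + 1) ≤ B * h ^ (n + 1) := mul_le_mul_of_nonneg_left h3 hB0
    have h6 : 0 ≤ B * h ^ (n + 1) := by positivity
    nlinarith
  set M : Fin (n + 1) := ⟨m, hm⟩ with hM
  -- the linear combination
  have hsum : ∑ j, c M j • ∑ i : Fin (n + 1), (nod (n + 1) j * h) ^ (i : ℕ) •
        ((1 / ((i : ℕ).factorial : ℝ)) • iteratedDeriv (i : ℕ) f 0) =
      (h ^ m * (1 / (m.factorial : ℝ))) • iteratedDeriv m f 0 := by
    simp only [smul_sum, smul_smul]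
    rw [sum_comm]
    have h1 : ∀ i : Fin (n + 1), ∑ j : Fin (n + 1), (c M j * ((nod (n + 1) j * h) ^ (i : ℕ) *
        (1 / ((i : ℕ).factorial : ℝ)))) • iteratedDeriv (i : ℕ) f 0 =
        (if i = M then (h ^ m * (1 / (m.factorial : ℝ))) else 0) • iteratedDeriv (i : ℕ) f 0 := by
      intro i
      rw [← sum_smul]
      congr 1
      have h2 : ∀ j : Fin (n + 1), c M j * ((nod (n + 1) j * h) ^ (i : ℕ) *
          (1 / ((i : ℕ).factorial : ℝ))) = (c M j * (((j : ℕ) + 1 : ℝ) / (n + 1 : ℕ)) ^ (i : ℕ)) *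
            (h ^ (i : ℕ) * (1 / ((i : ℕ).factorial : ℝ))) := by
        intro j
        rw [mul_pow]
        unfold nod
        ring
      rw [sum_congr rfl fun j _ => h2 j, ← sum_mul, hc M i]
      by_cases hi : i = M
      · rw [if_pos hi, if_pos hi, one_mul, hi]
      · rw [if_neg hi, if_neg hi, zero_mul]
    rw [sum_congr rfl fun i _ => h1 i]
    simp [hM]
  have hbound : ‖(h ^ m * (1 / (m.factorial : ℝ))) • iteratedDeriv m f 0‖ ≤
      S * (Sn + B * h ^ (n + 1)) := by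
    rw [← hsum]
    calc ‖∑ j, c M j • ∑ i : Fin (n + 1), (nod (n + 1) j * h) ^ (i : ℕ) •
          ((1 / ((i : ℕ).factorial : ℝ)) • iteratedDeriv (i : ℕ) f 0)‖
        ≤ ∑ j, |c M j| * (Sn + B * h ^ (n + 1)) := by
          refine norm_sum_le_of_le _ fun j _ => ?_
          rw [norm_smul, Real.norm_eq_abs]
          refine mul_le_mul_of_nonneg_left ?_ (abs_nonneg _)
          have h3 := norm_le_norm_add_norm_sub' (∑ i : Fin (n + 1),
            (nod (n + 1) j * h) ^ (i : ℕ) •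
            ((1 / ((i : ℕ).factorial : ℝ)) • iteratedDeriv (i : ℕ) f 0)) (f (nod (n + 1) j * h))
          have h4 := htay j
          rw [norm_sub_rev] at h4
          have h5 : ‖f (nod (n + 1) j * h)‖ ≤ Sn :=
            single_le_sum (f := fun j => ‖f (nod (n + 1) j * h)‖) (fun _ _ => norm_nonneg _)
              (mem_univ j)
          exact h3.trans (add_le_add h5 h4)
      _ = (∑ j, |c M j|) * (Sn + B * h ^ (n + 1)) := by rw [sum_mul]
      _ ≤ S * (Sn + B * h ^ (n + 1)) := by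
          refine mul_le_mul_of_nonneg_right ?_ (by positivity)
          rw [hS]
          exact single_le_sum (f := fun m => ∑ j, |c m j|)
            (fun _ _ => sum_nonneg fun _ _ => abs_nonneg _) (mem_univ M)
  rw [norm_smul, Real.norm_of_nonneg (by positivity)] at hbound
  have hfac : (0 : ℝ) < (m.factorial : ℝ) := by positivity
  have hfac2 : (m.factorial : ℝ) ≤ ((n + 1).factorial : ℝ) := by
    exact_mod_cast Nat.factorial_le hm.le
  have h7 : ‖iteratedDeriv m f 0‖ * h ^ m ≤ m.factorial * (S * (Sn + B * h ^ (n + 1))) := by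
    calc ‖iteratedDeriv m f 0‖ * h ^ m = m.factorial * (h ^ m * (1 / (m.factorial : ℝ)) *
          ‖iteratedDeriv m f 0‖) := by field_simp
      _ ≤ _ := mul_le_mul_of_nonneg_left hbound hfac.le
  refine h7.trans ?_
  have h8 : 0 ≤ Sn + B * h ^ (n + 1) := by positivity
  calc (m.factorial : ℝ) * (S * (Sn + B * h ^ (n + 1)))
      ≤ (n + 1).factorial * ((S + 1) * (Sn + B * h ^ (n + 1))) := by
        apply mul_le_mul hfac2 _ (by positivity) (by positivity)
        nlinarith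
    _ = _ := by ring

end pointwise

section n2

variable {α : Type*} [MeasurableSpace α] {μ : Measure α}

lemma n2_mono {u v : α → ℂ} (hv : MemLp v 2 μ) (h : ∀ a, ‖u a‖ ≤ ‖v a‖) : n2 μ u ≤ n2 μ v := by
  unfold n2
  exact ENNReal.toReal_mono hv.eLpNorm_ne_top (eLpNorm_mono h)

lemma n2_norm (u : α → ℂ) : n2 μ (fun a => ((‖u a‖ : ℝ) : ℂ)) = n2 μ u := by
  unfold n2
  congr 1
  refine eLpNorm_congr_norm_ae (Filter.Eventually.of_forall fun a => ?_)
  simp

lemma memLp_norm {u : α → ℂ} (hu : MemLp u 2 μ) : MemLp (fun a => ((‖u a‖ : ℝ) : ℂ)) 2 μ :=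
  hu.norm.ofReal

/-- **Landau-Kolmogorov in `L²`** -/
theorem lk_n2 (n : ℕ) : ∃ C : ℝ, 0 < C ∧ ∀ {α : Type*} [MeasurableSpace α] (μ : Measure α)
    (f : α → ℝ → ℂ) (h A D : ℝ) (B : α → ℝ), 0 < h → (∀ a, ContDiff ℝ n (f a)) →
    (∀ a, ∀ x ∈ Icc 0 h, ‖iteratedDeriv n (f a) x‖ ≤ B a) →
    (∀ x ∈ Icc 0 h, MemLp (fun a => f a x) 2 μ) → (∀ x ∈ Icc 0 h, n2 μ (fun a => f a x) ≤ A) →
    MemLp B 2 μ → n2 μ (fun a => (B a : ℂ)) ≤ D →
    ∀ m < n, n2 μ (fun a => iteratedDeriv m (f a) 0) * h ^ m ≤ C * (A + D * h ^ n) := by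
  obtain ⟨C, hC, key⟩ := lk_nodes (E := ℂ) n
  refine ⟨C * (n + 1), by positivity, ?_⟩
  intro α _ μ f h A D B hh hf hB hL hA hBL hD m hm
  have hA0 : 0 ≤ A := (n2_nonneg _).trans (hA 0 ⟨le_rfl, hh.le⟩)
  have hD0 : 0 ≤ D := (n2_nonneg _).trans hD
  have hmem : ∀ j : Fin n, nod n j * h ∈ Icc (0 : ℝ) h := fun j =>
    ⟨mul_nonneg (nod_pos j).le hh.le, by nlinarith [nod_le j, nod_pos j]⟩
  set v : α → ℂ := fun a => (C : ℂ) * ((∑ j : Fin n, ((‖f a (nod n j * h)‖ : ℝ) : ℂ)) +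
    ((h ^ n : ℝ) : ℂ) * (B a : ℂ)) with hv
  have m1 : ∀ j : Fin n, MemLp (fun a => ((‖f a (nod n j * h)‖ : ℝ) : ℂ)) 2 μ := fun j =>
    memLp_norm (hL _ (hmem j))
  have m2 : MemLp (fun a => ∑ j : Fin n, ((‖f a (nod n j * h)‖ : ℝ) : ℂ)) 2 μ :=
    memLp_sum _ fun j _ => m1 j
  have m3 : MemLp (fun a => ((h ^ n : ℝ) : ℂ) * (B a : ℂ)) 2 μ := hBL.ofReal.const_mul _
  have m4 : MemLp v 2 μ := (m2.add m3).const_mul _
  have hB0 : ∀ a, 0 ≤ B a := fun a => (norm_nonneg _).trans (hB a 0 ⟨le_rfl, hh.le⟩)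
  have hvn : ∀ a, ‖v a‖ = C * (∑ j : Fin n, ‖f a (nod n j * h)‖ + B a * h ^ n) := by
    intro a
    have e : v a = ((C * (∑ j : Fin n, ‖f a (nod n j * h)‖ + B a * h ^ n) : ℝ) : ℂ) := by
      rw [hv]
      push_cast
      ring
    rw [e, Complex.norm_real, Real.norm_eq_abs, abs_of_nonneg]
    exact mul_nonneg hC.le (add_nonneg (sum_nonneg fun _ _ => norm_nonneg _)
      (mul_nonneg (hB0 a) (by positivity)))
  have h1 : n2 μ (fun a => ((h ^ m : ℝ) : ℂ) * iteratedDeriv m (f a) 0) ≤ n2 μ v := by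
    refine n2_mono m4 fun a => ?_
    rw [hvn, norm_mul, Complex.norm_real, Real.norm_eq_abs, abs_of_nonneg (by positivity), mul_comm]
    exact key (f a) h (B a) hh (hf a) (hB a) m hm
  rw [n2_const_mul, Complex.norm_real, Real.norm_eq_abs, abs_of_nonneg (by positivity),
    mul_comm] at h1
  refine h1.trans ?_
  have h2 : n2 μ v ≤ C * (∑ j : Fin n, A + h ^ n * D) := by
    rw [hv, n2_const_mul, Complex.norm_real, Real.norm_eq_abs, abs_of_pos hC]
    refine mul_le_mul_of_nonneg_left ((n2_add_le m2 m3).trans (add_le_add ?_ ?_)) hC.le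
    · refine (n2_sum_le _ fun j _ => m1 j).trans (sum_le_sum fun j _ => ?_)
      rw [n2_norm]
      exact hA _ (hmem j)
    · rw [n2_const_mul, Complex.norm_real, Real.norm_eq_abs, abs_of_nonneg (by positivity)]
      exact mul_le_mul_of_nonneg_left hD (by positivity)
  refine h2.trans ?_
  rw [sum_const, card_univ, Fintype.card_fin, nsmul_eq_mul, mul_assoc]
  refine mul_le_mul_of_nonneg_left ?_ hC.le
  have h3 : 0 ≤ D * h ^ n := by positivity
  have h4 : (0 : ℝ) ≤ n := Nat.cast_nonneg n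
  nlinarith

end n2

end

end Vale.Agent.P159.H43
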