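import Vale.Agent.P159.H43.Dlk1
import Vale.Agent.P159.H363.Law

/-!
P159 (helper43), module DLK, second part: SHIFT. If the law `μ` of the field is
`(anything independent) + standard Gaussian noise`, then for a shift `v` of the noise
`∫ f(F + v) ≤ exp ((q - 1) |v|² / 2) (∫ f^p)^(1/p)`, `1/p + 1/q = 1`, `f ≥ 0` bounded.
-/

open Finset Set MeasureTheory ProbabilityTheory
open Vale.Agent.P159.H363 (n2 n2_nonneg n2_sq n2_le memLp_bdd)
open Vale.Agent.P159.H37 (gau gau_shift gau_exp integrable_exp_lin)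

namespace Vale.Agent.P159.H43

noncomputable section

variable {I : Type*} [Fintype I]

/-- the law `μ` on `X` tolerates the map `T` with constant `β²` -/
def Sh {X : Type*} [MeasurableSpace X] (μ : Measure X) (T : X → X) (b2 : ℝ) : Prop :=
  ∀ p q : ℝ, p.HolderConjugate q → ∀ (f : X → ℝ) (K : ℝ), Measurable f → (∀ F, 0 ≤ f F) →
    (∀ F, f F ≤ K) → ∫ F, f (T F) ∂μ ≤ Real.exp ((q - 1) * b2 / 2) * (∫ F, f F ^ p ∂μ) ^ (1 / p)

/-- the standard Gaussian measure -/
theorem sh_gau (v : I → ℝ) : Sh (gau I) (fun g => g + v) (∑ i, v i ^ 2) := by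
  intro p q hpq f K hf h0 hK
  set r : (I → ℝ) → ℝ := fun g => Real.exp ((∑ i, v i * g i) - (∑ i, v i ^ 2) / 2) with hr
  have hq0 : 0 < q := hpq.symm.pos
  have hp0 : 0 < p := hpq.pos
  have hK0 : 0 ≤ K := (h0 0).trans (hK 0)
  have hrq : ∀ g : I → ℝ, r g ^ q =
      Real.exp (-(q * (∑ i, v i ^ 2) / 2)) * Real.exp (∑ i, (q * v i) * g i) := by
    intro g
    rw [hr]
    simp only
    rw [← Real.exp_mul, ← Real.exp_add]
    congr 1
    have : ∑ i, (q * v i) * g i = q * ∑ i, v i * g i := by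
      rw [mul_sum]; exact sum_congr rfl fun i _ => by ring
    rw [this]; ring
  have hrm : Measurable r := by
    rw [hr]
    fun_prop
  have hrqi : Integrable (fun g => r g ^ q) (gau I) := by
    simp only [hrq]
    exact (integrable_exp_lin _).const_mul _
  have hrint : ∫ g, r g ^ q ∂(gau I) = Real.exp ((q - 1) * q * (∑ i, v i ^ 2) / 2) := by
    simp only [hrq]
    rw [integral_const_mul, gau_exp, ← Real.exp_add]
    congr 1
    have : ∑ i, (q * v i) ^ 2 = q ^ 2 * ∑ i, v i ^ 2 := by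
      rw [mul_sum]; exact sum_congr rfl fun i _ => by ring
    rw [this]; ring
  have hrL : MemLp r (ENNReal.ofReal q) (gau I) := by
    rw [← integrable_norm_rpow_iff hrm.aestronglyMeasurable
      (by simpa using hq0) ENNReal.ofReal_ne_top]
    rw [ENNReal.toReal_ofReal hq0.le]
    refine hrqi.congr (Filter.Eventually.of_forall fun g => ?_)
    simp only
    rw [Real.norm_of_nonneg (Real.exp_pos _).le]
  have hfL : MemLp f (ENNReal.ofReal p) (gau I) :=
    MemLp.of_bound hf.aestronglyMeasurable K (Filter.Eventually.of_forall fun g => by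
      rw [Real.norm_of_nonneg (h0 g)]; exact hK g)
  have h1 := integral_mul_le_Lp_mul_Lq_of_nonneg (μ := gau I) hpq.symm
    (Filter.Eventually.of_forall fun g => (Real.exp_pos _).le : 0 ≤ᵐ[gau I] r)
    (Filter.Eventually.of_forall h0 : 0 ≤ᵐ[gau I] f) hrL hfL
  rw [hrint] at h1
  have h2 := gau_shift v f
  have h3 : ∫ g, f (g + v) ∂(gau I) = ∫ g, r g * f g ∂(gau I) := h2
  rw [h3]
  refine h1.trans (le_of_eq ?_)
  congr 1
  rw [← Real.exp_mul]
  congr 1
  field_simp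

/-- independent data plus noise -/
theorem sh_prod {Θ : Type*} [MeasurableSpace Θ] (ρ : Measure Θ) [IsProbabilityMeasure ρ]
    (v : I → ℝ) : Sh (ρ.prod (gau I)) (fun x => (x.1, x.2 + v)) (∑ i, v i ^ 2) := by
  intro p q hpq f K hf h0 hK
  have hp0 : 0 < p := hpq.pos
  have hT : Measurable fun x : Θ × (I → ℝ) => (x.1, x.2 + v) := by fun_prop
  have hK0' : 0 ≤ |K| := abs_nonneg K
  have hb : ∀ x, ‖f x‖ ≤ |K| := fun x => by
    rw [Real.norm_of_nonneg (h0 x)]; exact (hK x).trans (le_abs_self K)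
  have hbp : ∀ x, ‖f x ^ p‖ ≤ |K| ^ p := fun x => by
    rw [Real.norm_of_nonneg (Real.rpow_nonneg (h0 x) _)]
    exact Real.rpow_le_rpow (h0 x) ((hK x).trans (le_abs_self K)) hp0.le
  have i1 : Integrable (fun x : Θ × (I → ℝ) => f (x.1, x.2 + v)) (ρ.prod (gau I)) :=
    Integrable.of_bound (C := |K|) (hf.comp hT).aestronglyMeasurable
      (Filter.Eventually.of_forall fun x => hb _)
  have i2 : Integrable (fun x : Θ × (I → ℝ) => f x ^ p) (ρ.prod (gau I)) :=
    Integrable.of_bound (C := |K| ^ p) (hf.pow_const p).aestronglyMeasurable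
      (Filter.Eventually.of_forall fun x => hbp _)
  rw [integral_prod _ i1, integral_prod _ i2]
  set E : ℝ := Real.exp ((q - 1) * (∑ i, v i ^ 2) / 2) with hE
  have hE0 : 0 < E := Real.exp_pos _
  set φ : Θ → ℝ := fun θ => ∫ g, f (θ, g) ^ p ∂(gau I) with hφ
  have hφ0 : ∀ θ, 0 ≤ φ θ := fun θ => integral_nonneg fun g => Real.rpow_nonneg (h0 _) _
  have hφm : Measurable φ := by
    apply StronglyMeasurable.measurable
    exact StronglyMeasurable.integral_prod_right (f := fun θ g => f (θ, g) ^ p)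
      (hf.pow_const p).stronglyMeasurable
  have hφb : ∀ θ, φ θ ≤ |K| ^ p := fun θ => by
    have := norm_integral_le_of_norm_le_const (μ := gau I) (f := fun g => f (θ, g) ^ p)
      (C := |K| ^ p) (Filter.Eventually.of_forall fun g => hbp _)
    simp only [probReal_univ, mul_one] at this
    exact (le_abs_self _).trans this
  have hφi : Integrable φ ρ := Integrable.of_bound (C := |K| ^ p) hφm.aestronglyMeasurable
    (Filter.Eventually.of_forall fun θ => by rw [Real.norm_of_nonneg (hφ0 θ)]; exact hφb θ)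
  have hψm : Measurable fun θ => φ θ ^ (1 / p) := hφm.pow_const _
  have hψL : MemLp (fun θ => φ θ ^ (1 / p)) (ENNReal.ofReal p) ρ :=
    MemLp.of_bound hψm.aestronglyMeasurable ((|K| ^ p) ^ (1 / p))
      (Filter.Eventually.of_forall fun θ => by
        rw [Real.norm_of_nonneg (Real.rpow_nonneg (hφ0 θ) _)]
        exact Real.rpow_le_rpow (hφ0 θ) (hφb θ) (by positivity))
  have hψi : Integrable (fun θ => φ θ ^ (1 / p)) ρ :=
    Integrable.of_bound (C := (|K| ^ p) ^ (1 / p)) hψm.aestronglyMeasurable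
      (Filter.Eventually.of_forall fun θ => by
        rw [Real.norm_of_nonneg (Real.rpow_nonneg (hφ0 θ) _)]
        exact Real.rpow_le_rpow (hφ0 θ) (hφb θ) (by positivity))
  have h1 : ∫ θ, ∫ g, f (θ, g + v) ∂(gau I) ∂ρ ≤ ∫ θ, E * φ θ ^ (1 / p) ∂ρ := by
    refine integral_mono_of_nonneg (Filter.Eventually.of_forall fun θ =>
      integral_nonneg fun g => h0 _) (hψi.const_mul E)
      (Filter.Eventually.of_forall fun θ => ?_)
    exact sh_gau v p q hpq (fun g => f (θ, g)) K (hf.comp (by fun_prop)) (fun g => h0 _)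
      (fun g => hK _)
  refine h1.trans ?_
  rw [integral_const_mul]
  refine mul_le_mul_of_nonneg_left ?_ hE0.le
  -- Jensen
  have h2 := integral_mul_le_Lp_mul_Lq_of_nonneg (μ := ρ) hpq
    (Filter.Eventually.of_forall fun θ => Real.rpow_nonneg (hφ0 θ) _ :
      0 ≤ᵐ[ρ] fun θ => φ θ ^ (1 / p))
    (Filter.Eventually.of_forall fun θ => zero_le_one : 0 ≤ᵐ[ρ] fun _ => (1 : ℝ)) hψL
    (memLp_const 1)
  simp only [mul_one, Real.one_rpow, integral_const, probReal_univ, smul_eq_mul] at h2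
  have h3 : ∀ θ, (φ θ ^ (1 / p)) ^ p = φ θ := by
    intro θ
    rw [← Real.rpow_mul (hφ0 θ), one_div, inv_mul_cancel₀ hp0.ne', Real.rpow_one]
  simp only [h3] at h2
  exact h2

/-- images -/
theorem Sh.map {X Y : Type*} [MeasurableSpace X] [MeasurableSpace Y] {μ : Measure X} {T : X → X}
    {b2 : ℝ} (h : Sh μ T b2) {π : X → Y} (hπ : Measurable π) {T' : Y → Y}
    (hT' : Measurable T') (hcom : ∀ x, π (T x) = T' (π x)) : Sh (μ.map π) T' b2 := by
  intro p q hpq f K hf h0 hK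
  have e1 : ∫ F, f (T' F) ∂(μ.map π) = ∫ x, f (π (T x)) ∂μ := by
    have h1 := integral_map (μ := μ) (f := fun F => f (T' F)) hπ.aemeasurable
      (hf.comp hT').aestronglyMeasurable
    rw [h1]
    refine integral_congr_ae (Filter.Eventually.of_forall fun x => ?_)
    simp only
    rw [hcom]
  have e2 : ∫ F, f F ^ p ∂(μ.map π) = ∫ x, f (π x) ^ p ∂μ :=
    integral_map hπ.aemeasurable (hf.pow_const p).aestronglyMeasurable
  rw [e1, e2]
  exact h p q hpq (fun x => f (π x)) K (hf.comp hπ) (fun x => h0 _) (fun x => hK _)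

/-- **SHIFT, `n2` form**: `|G(T ·)|₂ ≤ exp ((q-1) b2/4) G0^(1-1/p) |G|₂^(1/p)` -/
theorem Sh.n2_le {X : Type*} [MeasurableSpace X] {μ : Measure X} [IsProbabilityMeasure μ]
    {T : X → X} {b2 : ℝ} (h : Sh μ T b2) (hT : Measurable T) {p q : ℝ}
    (hpq : p.HolderConjugate q) {G : X → ℂ} (hG : Measurable G) {G0 A : ℝ} (hG0 : 0 ≤ G0)
    (hGb : ∀ F, ‖G F‖ ≤ G0) (hA0 : 0 ≤ A) (hA : n2 μ G ≤ A) :
    n2 μ (fun F => G (T F)) ≤
      Real.exp ((q - 1) * b2 / 4) * (G0 ^ (1 - 1 / p) * A ^ (1 / p)) := by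
  have hp0 : 0 < p := hpq.pos
  have hp1 : 1 < p := hpq.lt
  have hGL : MemLp G 2 μ := memLp_bdd hG.aestronglyMeasurable hGb
  have hGTL : MemLp (fun F => G (T F)) 2 μ :=
    memLp_bdd (hG.comp hT).aestronglyMeasurable fun F => hGb _
  have hR0 : 0 ≤ Real.exp ((q - 1) * b2 / 4) * (G0 ^ (1 - 1 / p) * A ^ (1 / p)) := by
    positivity
  rw [H363.n2_le hGTL hR0]
  have h1 := h p q hpq (fun F => ‖G F‖ ^ 2) (G0 ^ 2) (hG.norm.pow_const 2)
    (fun F => by positivity) (fun F => pow_le_pow_left₀ (norm_nonneg _) (hGb F) 2)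
  refine h1.trans ?_
  have h2 : ∀ F, (‖G F‖ ^ 2) ^ p ≤ (G0 ^ 2) ^ (p - 1) * ‖G F‖ ^ 2 := by
    intro F
    have e : (‖G F‖ ^ 2) ^ p = (‖G F‖ ^ 2) ^ (p - 1) * ‖G F‖ ^ 2 := by
      rcases (sq_nonneg ‖G F‖).eq_or_lt with h0 | h0
      · rw [← h0, Real.zero_rpow hp0.ne', mul_zero]
      · have : p = (p - 1) + 1 := by ring
        conv_lhs => rw [this]
        rw [Real.rpow_add_one h0.ne']
    rw [e]
    refine mul_le_mul_of_nonneg_right ?_ (sq_nonneg _)
    exact Real.rpow_le_rpow (sq_nonneg _) (pow_le_pow_left₀ (norm_nonneg _) (hGb F) 2)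
      (by linarith)
  have i1 : Integrable (fun F => (‖G F‖ ^ 2) ^ p) μ := by
    refine Integrable.of_bound (C := (G0 ^ 2) ^ p)
      ((hG.norm.pow_const 2).pow_const p).aestronglyMeasurable
      (Filter.Eventually.of_forall fun F => ?_)
    rw [Real.norm_of_nonneg (Real.rpow_nonneg (sq_nonneg _) _)]
    exact Real.rpow_le_rpow (sq_nonneg _) (pow_le_pow_left₀ (norm_nonneg _) (hGb F) 2) hp0.le
  have i2 : Integrable (fun F => ‖G F‖ ^ 2) μ := hGL.integrable_norm_pow (by norm_num)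
  have h3 : ∫ F, (‖G F‖ ^ 2) ^ p ∂μ ≤ (G0 ^ 2) ^ (p - 1) * A ^ 2 := by
    calc ∫ F, (‖G F‖ ^ 2) ^ p ∂μ ≤ ∫ F, (G0 ^ 2) ^ (p - 1) * ‖G F‖ ^ 2 ∂μ :=
          integral_mono i1 (i2.const_mul _) h2
      _ = (G0 ^ 2) ^ (p - 1) * ∫ F, ‖G F‖ ^ 2 ∂μ := integral_const_mul _ _
      _ ≤ (G0 ^ 2) ^ (p - 1) * A ^ 2 := by
          refine mul_le_mul_of_nonneg_left ?_ (Real.rpow_nonneg (sq_nonneg _) _)
          rw [← n2_sq hGL]
          exact pow_le_pow_left₀ (n2_nonneg _) hA 2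
  have h4 : (∫ F, (‖G F‖ ^ 2) ^ p ∂μ) ^ (1 / p) ≤ (G0 ^ (1 - 1 / p) * A ^ (1 / p)) ^ 2 := by
    have h5 : 0 ≤ ∫ F, (‖G F‖ ^ 2) ^ p ∂μ :=
      integral_nonneg fun F => Real.rpow_nonneg (sq_nonneg _) _
    refine (Real.rpow_le_rpow h5 h3 (by positivity)).trans (le_of_eq ?_)
    rw [Real.mul_rpow (Real.rpow_nonneg (sq_nonneg _) _) (sq_nonneg _), mul_pow,
      ← Real.rpow_natCast G0 2, ← Real.rpow_natCast A 2, ← Real.rpow_mul hG0,
      ← Real.rpow_mul hG0, ← Real.rpow_mul hA0, ← Real.rpow_natCast (G0 ^ (1 - 1 / p)) 2,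
      ← Real.rpow_mul hG0, ← Real.rpow_natCast (A ^ (1 / p)) 2, ← Real.rpow_mul hA0]
    congr 2
    · field_simp
    · push_cast; ring
  have h5 : Real.exp ((q - 1) * b2 / 2) = Real.exp ((q - 1) * b2 / 4) ^ 2 := by
    rw [← Real.exp_nat_mul]
    congr 1
    push_cast; ring
  rw [mul_pow, ← h5]
  exact mul_le_mul_of_nonneg_left h4 (Real.exp_pos _).le

end

end Vale.Agent.P159.H43
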