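import Vale.Agent.P159.H239.Loc2
import Vale.Agent.P159.H447.Cg5

/-!
P159 / GLUE P_up, FAR part (helper43), part 1: the far bilinear form (FB).

`E Ψ''(A g)[A a, A a']` for `a ⟂ a'` is the Gaussian mean of `(a·g)(a'·g)` times the mixed
difference of the values of `Ψ` at `F, F - η u, F - η' u', F - η u - η' u'` (`F = A g`, `u = A a`,
`u' = A a'`, `η = a·g/|a|²`).
-/

namespace Vale.Agent.P159.H43

open Finset Matrix MeasureTheory ProbabilityTheory
open Vale.Agent.P159.TM.H104 (EM Ex Cv K3 Lg li nh Gr)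
open Vale.Agent.P159.H37
open Vale.Agent.P159.H159
open Vale.Agent.P159.H708
open Vale.Agent.P159.H239 (cf perp perpM perpM_mulVec perp_shift egr_mv c2g_Lg)

noncomputable section

variable {V : Type*} [Fintype V] {I : Type*} [Fintype I]

/-- mixed difference of the values -/
def md (Ψ : (V → ℝ) → ℝ) (F v v' : V → ℝ) : ℝ :=
  Ψ (F + v + v') - Ψ (F + v) - Ψ (F + v') + Ψ F

/-- the weight of two directions -/
def w2 (a a' g : I → ℝ) : ℝ := (∑ i, a i * g i) * (∑ i, a' i * g i)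

lemma egr_lf (a : I → ℝ) : EGr fun g : I → ℝ => ∑ i, a i * g i :=
  egr_sum _ fun i _ => (egr_co i).cmul (a i)

lemma egr_w2 (a a' : I → ℝ) : EGr (w2 a a') := (egr_lf a).mul (egr_lf a')

lemma w2_comm (a a' g : I → ℝ) : w2 a a' g = w2 a' a g := mul_comm _ _

/-- the weight kills every function of the component orthogonal to `a` -/
lemma w2_perp {Φ : (I → ℝ) → ℝ} (hΦ : EGr Φ) {a a' : I → ℝ} (ha : ∑ i, a i ^ 2 ≠ 0)
    (haa : ∑ i, a i * a' i = 0) : ∫ g, w2 a a' g * Φ (perp a g) ∂(gau I) = 0 := by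
  classical
  have hF : EGr fun g : I → ℝ => Φ (perp a g) := by
    have := egr_lin hΦ 0 (perpM a)
    simpa only [zero_add, perpM_mulVec] using this
  have hG1 : EGr fun g : I → ℝ => (∑ i, a' i * g i) * Φ (perp a g) := (egr_lf a').mul hF
  have hd1 : DirD (fun g : I → ℝ => (∑ i, a' i * g i) * Φ (perp a g)) (fun _ => 0) a := by
    intro g
    have a1 : HasDerivAt (fun s : ℝ => ∑ i, a' i * (g + s • a) i) (∑ i, a' i * a i) 0 := by
      refine HasDerivAt.fun_sum fun i _ => ?_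
      have : HasDerivAt (fun s : ℝ => (g + s • a) i) (a i) 0 := by
        simpa using ((hasDerivAt_id (0 : ℝ)).mul_const (a i)).const_add (g i)
      refine (this.const_mul (a' i)).congr_deriv ?_
      ring
    have a0 : HasDerivAt (fun s : ℝ => Φ (perp a (g + s • a))) 0 0 := by
      simp only [perp_shift ha]
      exact hasDerivAt_const _ _
    have a2 := a1.mul a0
    refine a2.congr_deriv ?_
    have e : ∑ i, a' i * a i = 0 := by
      rw [← haa]
      exact Finset.sum_congr rfl fun i _ => mul_comm _ _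
    rw [e]
    simp
  have s1 := stein hG1 (EGr.const 0) a hd1
  simp only [integral_zero] at s1
  have e : (fun g : I → ℝ => w2 a a' g * Φ (perp a g)) =
      fun g => (∑ i, a i * g i) * ((∑ i, a' i * g i) * Φ (perp a g)) := by
    funext g
    unfold w2
    ring
  rw [e]
  exact s1

/-- `E |(a·g)(a'·g)| ≤ |a| |a'|` -/
lemma int_abs_w2 {a a' : I → ℝ} (ha : 0 < ∑ i, a i ^ 2) (ha' : 0 < ∑ i, a' i ^ 2) :
    ∫ g, |w2 a a' g| ∂(gau I) ≤ √(∑ i, a i ^ 2) * √(∑ i, a' i ^ 2) := by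
  set α := √(∑ i, a i ^ 2) with hα
  set α' := √(∑ i, a' i ^ 2) with hα'
  have h0 : 0 < α := Real.sqrt_pos.2 ha
  have h0' : 0 < α' := Real.sqrt_pos.2 ha'
  have e1 : α ^ 2 = ∑ i, a i ^ 2 := Real.sq_sqrt ha.le
  have e2 : α' ^ 2 = ∑ i, a' i ^ 2 := Real.sq_sqrt ha'.le
  have i1 : EGr fun g : I → ℝ => (∑ i, a i * g i) * (∑ i, a i * g i) := (egr_lf a).mul (egr_lf a)
  have i2 : EGr fun g : I → ℝ => (∑ i, a' i * g i) * (∑ i, a' i * g i) :=
    (egr_lf a').mul (egr_lf a')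
  have h1 : ∫ g, |w2 a a' g| ∂(gau I) ≤ ∫ g, (α' / α / 2 * ((∑ i, a i * g i) *
      (∑ i, a i * g i)) + α / α' / 2 * ((∑ i, a' i * g i) * (∑ i, a' i * g i))) ∂(gau I) := by
    refine integral_mono (egr_integrable (egr_w2 a a').abs)
      (egr_integrable ((i1.cmul _).add (i2.cmul _))) fun g => ?_
    simp only [w2]
    set x := ∑ i, a i * g i
    set y := ∑ i, a' i * g i
    rw [abs_mul]
    have h2 : 0 ≤ (α' * |x| - α * |y|) ^ 2 / (2 * (α * α')) := by positivity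
    have h3 : α' / α / 2 * (x * x) + α / α' / 2 * (y * y) - |x| * |y| =
        (α' * |x| - α * |y|) ^ 2 / (2 * (α * α')) := by
      have k1 : x * x = |x| ^ 2 := by rw [sq_abs]; ring
      have k2 : y * y = |y| ^ 2 := by rw [sq_abs]; ring
      rw [k1, k2]
      field_simp
      ring
    linarith
  refine h1.trans (le_of_eq ?_)
  rw [integral_add (egr_integrable (i1.cmul _)) (egr_integrable (i2.cmul _)), integral_const_mul,
    integral_const_mul, H663.gau_lin_mul, H663.gau_lin_mul]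
  have k1 : ∑ i, a i * a i = α ^ 2 := by
    rw [e1]
    exact Finset.sum_congr rfl fun i _ => by ring
  have k2 : ∑ i, a' i * a' i = α' ^ 2 := by
    rw [e2]
    exact Finset.sum_congr rfl fun i _ => by ring
  rw [k1, k2]
  field_simp
  ring

/-- the component orthogonal to both -/
lemma cf_perp {a a' : I → ℝ} (haa : ∑ i, a i * a' i = 0) (g : I → ℝ) :
    cf a' (perp a g) = cf a' g := by
  unfold cf perp
  congr 1
  simp only [Pi.sub_apply, Pi.smul_apply, smul_eq_mul, mul_sub, Finset.sum_sub_distrib]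
  have : ∑ i, a' i * (cf a g * a i) = cf a g * ∑ i, a i * a' i := by
    rw [Finset.mul_sum]
    exact Finset.sum_congr rfl fun i _ => by ring
  rw [this, haa, mul_zero, sub_zero]

lemma perp_perp {a a' : I → ℝ} (haa : ∑ i, a i * a' i = 0) (g : I → ℝ) :
    perp a' (perp a g) = g - cf a g • a - cf a' g • a' := by
  have h := cf_perp haa g
  unfold perp at h ⊢
  rw [h]

variable {Ψ : (V → ℝ) → ℝ} {D : V → (V → ℝ) → ℝ} {D2 : V → V → (V → ℝ) → ℝ}

/-- the base point of the mixed difference -/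
def bs (A : Matrix V I ℝ) (a a' g : I → ℝ) : V → ℝ :=
  A *ᵥ g - cf a g • (A *ᵥ a) - cf a' g • (A *ᵥ a')

/-- **FB, the identity** -/
theorem far_id (h : C2G Ψ D D2) (A : Matrix V I ℝ) {a a' : I → ℝ} (ha : ∑ i, a i ^ 2 ≠ 0)
    (ha' : ∑ i, a' i ^ 2 ≠ 0) (haa : ∑ i, a i * a' i = 0) :
    ∫ g, ∑ x, ∑ y, (A *ᵥ a) x * (A *ᵥ a') y * D2 x y (A *ᵥ g) ∂(gau I) =
      ∫ g, w2 a a' g * md Ψ (bs A a a' g) (cf a g • (A *ᵥ a)) (cf a' g • (A *ᵥ a')) ∂(gau I) := by
  classical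
  have haa' : ∑ i, a' i * a i = 0 := by
    rw [← haa]
    exact Finset.sum_congr rfl fun i _ => mul_comm _ _
  have b1 := h.bump 0 A a a'
  simp only [zero_add, haa, sub_zero] at b1
  have e0 : EGr fun g : I → ℝ => Ψ (A *ᵥ g) := egr_mv h.g0 A
  have e1 : EGr fun g : I → ℝ => Ψ (A *ᵥ perp a g) := by
    have := egr_lin e0 0 (perpM a)
    simpa only [zero_add, perpM_mulVec] using this
  have e2 : EGr fun g : I → ℝ => Ψ (A *ᵥ perp a' g) := by
    have := egr_lin e0 0 (perpM a')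
    simpa only [zero_add, perpM_mulVec] using this
  have e3 : EGr fun g : I → ℝ => Ψ (A *ᵥ perp a' (perp a g)) := by
    have := egr_lin e2 0 (perpM a)
    simpa only [zero_add, perpM_mulVec] using this
  have z1 := w2_perp e0 ha haa
  have z3 := w2_perp e2 ha haa
  have z2 : ∫ g, w2 a a' g * Ψ (A *ᵥ perp a' g) ∂(gau I) = 0 := by
    have := w2_perp e0 ha' haa'
    simpa only [w2_comm a' a] using this
  have hmd : ∀ g, md Ψ (bs A a a' g) (cf a g • (A *ᵥ a)) (cf a' g • (A *ᵥ a')) =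
      Ψ (A *ᵥ g) - Ψ (A *ᵥ perp a' g) - Ψ (A *ᵥ perp a g) + Ψ (A *ᵥ perp a' (perp a g)) := by
    intro g
    have c0 : bs A a a' g + cf a g • (A *ᵥ a) + cf a' g • (A *ᵥ a') = A *ᵥ g := by
      unfold bs
      abel
    have c1 : bs A a a' g + cf a g • (A *ᵥ a) = A *ᵥ perp a' g := by
      unfold bs perp
      rw [mulVec_sub, mulVec_smul]
      abel
    have c2 : bs A a a' g + cf a' g • (A *ᵥ a') = A *ᵥ perp a g := by
      unfold bs perp
      rw [mulVec_sub, mulVec_smul]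
      abel
    have c3 : bs A a a' g = A *ᵥ perp a' (perp a g) := by
      rw [perp_perp haa, mulVec_sub, mulVec_sub, mulVec_smul, mulVec_smul]
      rfl
    unfold md
    rw [c0, c1, c2, ← c3]
  have ew := egr_w2 a a'
  have i0 := egr_integrable (ew.mul e0)
  have i1 := egr_integrable (ew.mul e1)
  have i2 := egr_integrable (ew.mul e2)
  have i3 := egr_integrable (ew.mul e3)
  rw [← b1]
  have e : (fun g : I → ℝ => w2 a a' g * md Ψ (bs A a a' g) (cf a g • (A *ᵥ a))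
      (cf a' g • (A *ᵥ a'))) = fun g => ((w2 a a' g * Ψ (A *ᵥ g) -
        w2 a a' g * Ψ (A *ᵥ perp a' g)) - w2 a a' g * Ψ (A *ᵥ perp a g)) +
          w2 a a' g * Ψ (A *ᵥ perp a' (perp a g)) := by
    funext g
    rw [hmd]
    ring
  have j1 : Integrable (fun g : I → ℝ => w2 a a' g * Ψ (A *ᵥ g) -
      w2 a a' g * Ψ (A *ᵥ perp a' g)) (gau I) := i0.sub i2
  have j2 : Integrable (fun g : I → ℝ => (w2 a a' g * Ψ (A *ᵥ g) -
      w2 a a' g * Ψ (A *ᵥ perp a' g)) - w2 a a' g * Ψ (A *ᵥ perp a g)) (gau I) := j1.sub i1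
  rw [e, integral_add j2 i3, integral_sub j1 i1, integral_sub i0 i2, z1, z2, z3, sub_zero,
    sub_zero, add_zero]
  rfl

lemma egr_md (h : EGr Ψ) (A : Matrix V I ℝ) {a a' : I → ℝ} (haa : ∑ i, a i * a' i = 0) :
    EGr fun g : I → ℝ => md Ψ (bs A a a' g) (cf a g • (A *ᵥ a)) (cf a' g • (A *ᵥ a')) := by
  classical
  have e0 : EGr fun g : I → ℝ => Ψ (A *ᵥ g) := egr_mv h A
  have e1 : EGr fun g : I → ℝ => Ψ (A *ᵥ perp a g) := by
    have := egr_lin e0 0 (perpM a)
    simpa only [zero_add, perpM_mulVec] using this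
  have e2 : EGr fun g : I → ℝ => Ψ (A *ᵥ perp a' g) := by
    have := egr_lin e0 0 (perpM a')
    simpa only [zero_add, perpM_mulVec] using this
  have e3 : EGr fun g : I → ℝ => Ψ (A *ᵥ perp a' (perp a g)) := by
    have := egr_lin e2 0 (perpM a)
    simpa only [zero_add, perpM_mulVec] using this
  have hmd : (fun g : I → ℝ => md Ψ (bs A a a' g) (cf a g • (A *ᵥ a)) (cf a' g • (A *ᵥ a'))) =
      fun g => Ψ (A *ᵥ g) - Ψ (A *ᵥ perp a' g) - Ψ (A *ᵥ perp a g) +
        Ψ (A *ᵥ perp a' (perp a g)) := by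
    funext g
    have c0 : bs A a a' g + cf a g • (A *ᵥ a) + cf a' g • (A *ᵥ a') = A *ᵥ g := by
      unfold bs
      abel
    have c1 : bs A a a' g + cf a g • (A *ᵥ a) = A *ᵥ perp a' g := by
      unfold bs perp
      rw [mulVec_sub, mulVec_smul]
      abel
    have c2 : bs A a a' g + cf a' g • (A *ᵥ a') = A *ᵥ perp a g := by
      unfold bs perp
      rw [mulVec_sub, mulVec_smul]
      abel
    have c3 : bs A a a' g = A *ᵥ perp a' (perp a g) := by
      rw [perp_perp haa, mulVec_sub, mulVec_sub, mulVec_smul, mulVec_smul]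
      rfl
    unfold md
    rw [c0, c1, c2, ← c3]
  rw [hmd]
  exact ((e0.sub e2).sub e1).add e3

/-- **FB, abstract form**: the bad part is kept as it is -/
theorem far_bump (h : C2G Ψ D D2) (A : Matrix V I ℝ) {a a' : I → ℝ} (ha : 0 < ∑ i, a i ^ 2)
    (ha' : 0 < ∑ i, a' i ^ 2) (haa : ∑ i, a i * a' i = 0) {Gd : Set (I → ℝ)}
    (hGd : MeasurableSet Gd) {ε : ℝ} (hε0 : 0 ≤ ε)
    (hε : ∀ g ∈ Gd, |md Ψ (bs A a a' g) (cf a g • (A *ᵥ a)) (cf a' g • (A *ᵥ a'))| ≤ ε) :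
    |∫ g, ∑ x, ∑ y, (A *ᵥ a) x * (A *ᵥ a') y * D2 x y (A *ᵥ g) ∂(gau I)| ≤
      √(∑ i, a i ^ 2) * √(∑ i, a' i ^ 2) * ε + ∫ g in Gdᶜ, |w2 a a' g| *
        |md Ψ (bs A a a' g) (cf a g • (A *ᵥ a)) (cf a' g • (A *ᵥ a'))| ∂(gau I) := by
  rw [far_id h A ha.ne' ha'.ne' haa]
  have eM := egr_md h.g0 A haa
  have eW := egr_w2 a a'
  have i0 : Integrable (fun g : I → ℝ => |w2 a a' g| *
      |md Ψ (bs A a a' g) (cf a g • (A *ᵥ a)) (cf a' g • (A *ᵥ a'))|) (gau I) :=
    egr_integrable (eW.abs.mul eM.abs)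
  have i1 : Integrable (fun g : I → ℝ => |w2 a a' g|) (gau I) := egr_integrable eW.abs
  refine abs_integral_le_integral_abs.trans ?_
  simp only [abs_mul]
  rw [← integral_add_compl hGd i0]
  refine add_le_add ?_ le_rfl
  have h2 : ∫ g in Gd, |w2 a a' g| *
      |md Ψ (bs A a a' g) (cf a g • (A *ᵥ a)) (cf a' g • (A *ᵥ a'))| ∂(gau I) ≤
      ∫ g in Gd, |w2 a a' g| * ε ∂(gau I) :=
    setIntegral_mono_on i0.integrableOn (i1.mul_const ε).integrableOn hGd fun g hg =>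
      mul_le_mul_of_nonneg_left (hε g hg) (abs_nonneg _)
  refine h2.trans ?_
  rw [integral_mul_const]
  exact mul_le_mul_of_nonneg_right ((setIntegral_le_integral i1
    (Filter.Eventually.of_forall fun g => abs_nonneg _)).trans (int_abs_w2 ha ha')) hε0

/-! ### `Ψ = log Z` minus a quadratic form -/

/-- a quadratic form as a `C2G` function -/
theorem c2g_qf {Q : Matrix V V ℝ} (hQ : Qᵀ = Q) :
    C2G (fun J : V → ℝ => qf Q J / 2) (fun x J => (Q *ᵥ J) x) (fun x y _ => Q x y) := by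
  have hlin : ∀ x, EGr fun J : V → ℝ => (Q *ᵥ J) x := by
    intro x
    simp only [mulVec, dotProduct]
    exact egr_sum _ fun y _ => (egr_coord y).cmul _
  have e1 : EGr fun J : V → ℝ => qf Q J / 2 := by
    have h1 := (egr_qf Q).cmul (1 / 2 : ℝ)
    have e : (fun J : V → ℝ => qf Q J / 2) = fun J => 1 / 2 * qf Q J := by
      funext J
      ring
    rw [e]
    exact h1
  refine ⟨e1, hlin, fun x y => EGr.const _, fun u J => ?_, fun x u J => ?_⟩
  · have e : (fun s : ℝ => qf Q (J + s • u) / 2) =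
        fun s => (qf Q J + 2 * (s * bf Q J u) + s ^ 2 * qf Q u) / 2 := by
      funext s
      rw [qf_add_vec hQ, bf_smul_right, qf_smul]
    have h2 : HasDerivAt (fun s : ℝ => qf Q (J + s • u) / 2) (bf Q u J) 0 := by
      rw [e]
      have a1 : HasDerivAt (fun s : ℝ => 2 * (s * bf Q J u)) (2 * (1 * bf Q J u)) 0 :=
        ((hasDerivAt_id (0 : ℝ)).mul_const _).const_mul 2
      have a2 : HasDerivAt (fun s : ℝ => s ^ 2 * qf Q u)
          (((2 : ℕ) * (0 : ℝ) ^ (2 - 1)) * qf Q u) 0 :=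
        (hasDerivAt_pow 2 (0 : ℝ)).mul_const _
      have a3 := (((hasDerivAt_const (0 : ℝ) (qf Q J)).add a1).add a2).div_const 2
      refine a3.congr_deriv ?_
      rw [bf_comm hQ u J]
      simp
    refine h2.congr_deriv ?_
    rw [bf_eq]
    rfl
  · have e : (fun s : ℝ => (Q *ᵥ (J + s • u)) x) = fun s => (Q *ᵥ J) x + s * (Q *ᵥ u) x := by
      funext s
      rw [mulVec_add, mulVec_smul]
      rfl
    have h2 : HasDerivAt (fun s : ℝ => (Q *ᵥ (J + s • u)) x) ((Q *ᵥ u) x) 0 := by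
      rw [e]
      have := ((hasDerivAt_id (0 : ℝ)).mul_const ((Q *ᵥ u) x)).const_add ((Q *ᵥ J) x)
      simpa using this
    refine h2.congr_deriv ?_
    simp only [mulVec, dotProduct]
    exact Finset.sum_congr rfl fun y _ => mul_comm _ _

theorem c2g_sub {Ψ' : (V → ℝ) → ℝ} {D' : V → (V → ℝ) → ℝ} {D2' : V → V → (V → ℝ) → ℝ}
    (h : C2G Ψ D D2) (h' : C2G Ψ' D' D2') :
    C2G (fun J => Ψ J - Ψ' J) (fun x J => D x J - D' x J) (fun x y J => D2 x y J - D2' x y J) := by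
  refine ⟨h.g0.sub h'.g0, fun x => (h.g1 x).sub (h'.g1 x), fun x y => (h.g2 x y).sub (h'.g2 x y),
    fun u J => ?_, fun x u J => ?_⟩
  · refine ((h.d1 u J).sub (h'.d1 u J)).congr_deriv ?_
    simp only [mul_sub, Finset.sum_sub_distrib]
  · refine ((h.d2 x u J).sub (h'.d2 x u J)).congr_deriv ?_
    simp only [mul_sub, Finset.sum_sub_distrib]

variable {μ : (V → ℤ) → ℝ}

/-- `log Z` without the quadratic part `Q` -/
def lq (μ : (V → ℤ) → ℝ) (Q : Matrix V V ℝ) (J : V → ℝ) : ℝ := Lg μ J - qf Q J / 2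

theorem c2g_lq (hμ : EM μ) (hG : GT μ) {Q : Matrix V V ℝ} (hQ : Qᵀ = Q) :
    C2G (lq μ Q) (fun x J => mn μ J x - (Q *ᵥ J) x) (fun x y J => Cm μ J x y - Q x y) :=
  c2g_sub (c2g_Lg hμ hG) (c2g_qf hQ)

lemma md_qf {Q : Matrix V V ℝ} (hQ : Qᵀ = Q) (F v v' : V → ℝ) :
    md (fun J => qf Q J / 2) F v v' = bf Q v v' := by
  simp only [md]
  rw [qf_add_vec hQ (F + v) v', qf_add_vec hQ F v', bf_add_left]
  ring

lemma md_lq {Q : Matrix V V ℝ} (hQ : Qᵀ = Q) (F v v' : V → ℝ) :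
    md (lq μ Q) F v v' = md (Lg μ) F v v' - bf Q v v' := by
  rw [← md_qf hQ F v v']
  unfold md lq
  ring

lemma sum_lq (Q : Matrix V V ℝ) (J u w : V → ℝ) :
    ∑ x, ∑ y, u x * w y * (Cm μ J x y - Q x y) = bf (Cm μ J) u w - bf Q u w := by
  unfold bf
  rw [← Finset.sum_sub_distrib]
  refine Finset.sum_congr rfl fun x _ => ?_
  rw [← Finset.sum_sub_distrib]
  exact Finset.sum_congr rfl fun y _ => by ring

end

end Vale.Agent.P159.H43
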