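import Vale.Agent.P159.H43.Far1
import Vale.Agent.P159.H159.Trn2
import Vale.Agent.P159.H663.Sgq

/-!
P159 / GLUE P_up, FAR part (helper43), part 2: the far bilinear form (FB) for a Gaussian law of
covariance `≥ κ C Cᵀ`, two sources `C f`, `C f'` with far supports, all constants explicit.
-/

namespace Vale.Agent.P159.H43

open Finset Matrix MeasureTheory ProbabilityTheory
open Vale.Agent.P159.TM.H104 (EM Ex Cv K3 Lg li nh Gr)
open Vale.Agent.P159.H37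
open Vale.Agent.P159.H159
open Vale.Agent.P159.H708
open Vale.Agent.P159.H239 (cf perp perpM perpM_mulVec perp_shift egr_mv c2g_Lg exists_increment)
open Vale.Agent.P159.H447 (Maj NR Wq int_egr egr_mat law_real psd_gram pr_psd pr_smul)

noncomputable section

variable {V : Type} [Fintype V] {W : Type*} [Fintype W] {μ : (V → ℤ) → ℝ}
variable {Bm Qm S : Matrix V V ℝ} {I K : Type*} [Fintype I] [Fintype K]

/-- **far locality of the values**: `f` supported in `P`, `f'` in `P'`, the four vertices in the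
good set `G` -/
def FL (μ : (V → ℤ) → ℝ) (C : Matrix V W ℝ) (P P' : W → Prop) (G : Set (V → ℝ))
    (Qm : Matrix V V ℝ) (Λ ε : ℝ) : Prop :=
  ∀ (F : V → ℝ) (f f' : W → ℝ), (∀ x, ¬P x → f x = 0) → (∀ x, ¬P' x → f' x = 0) →
    ∑ x, f x ^ 2 ≤ Λ → ∑ x, f' x ^ 2 ≤ Λ → F ∈ G → F + C *ᵥ f ∈ G → F + C *ᵥ f' ∈ G →
    F + C *ᵥ f + C *ᵥ f' ∈ G →
    |md (Lg μ) F (C *ᵥ f) (C *ᵥ f') - bf Qm (C *ᵥ f) (C *ᵥ f')| ≤ ε

/-- the quadratic part -/
structure FQ (μ : (V → ℤ) → ℝ) (Bm Qm : Matrix V V ℝ) : Prop where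
  sym : Qmᵀ = Qm
  le : ∀ v, |qf (Gm μ) v - qf Qm v| ≤ qf Bm v

/-- probability of the good set for every covariance `≤ 4 S` -/
structure GP (G : Set (V → ℝ)) (S : Matrix V V ℝ) (p : ℝ) : Prop where
  meas : MeasurableSet G
  prob : ∀ Y : Matrix V V ℝ, ((4 : ℝ) • S - Y * Yᵀ).PosSemidef →
    (gau V).real {g | Y *ᵥ g ∉ G} ≤ p

theorem GP.real {G : Set (V → ℝ)} {p : ℝ} (hG : GP G S p) (Y : Matrix V K ℝ)
    (hY : ((4 : ℝ) • S - Y * Yᵀ).PosSemidef) : (gau K).real {g | Y *ᵥ g ∉ G} ≤ p := by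
  classical
  obtain ⟨Y0, hY0⟩ := exists_increment (psd_gram Y)
  have h1 := hG.prob Y0 (by rw [← hY0]; exact hY)
  have h2 := law_real hY0 hG.meas.compl
  have e1 : {g : K → ℝ | Y *ᵥ g ∉ G} = {g | Y *ᵥ g ∈ Gᶜ} := rfl
  have e2 : {g : V → ℝ | Y0 *ᵥ g ∉ G} = {g | Y0 *ᵥ g ∈ Gᶜ} := rfl
  rw [e1, h2, ← e2]
  exact h1

theorem GP.nonneg {G : Set (V → ℝ)} {p : ℝ} (hG : GP G S p) (hS : S.PosSemidef) : 0 ≤ p := by
  have h := hG.prob 0 (by
    simp only [Matrix.zero_mul, sub_zero]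
    exact hS.smul (by norm_num))
  exact measureReal_nonneg.trans h

/-- the good set `{R(s ·) ≤ τ}` -/
theorem GP.ofRs (h : Maj μ Bm) (A : Matrix V I ℝ) {s τ p : ℝ}
    (hp : (gau I).real {g | τ < Rs μ ((s * 2) • (A *ᵥ g))} ≤ p) :
    GP {F | Rs μ (s • F) ≤ τ} (A * Aᵀ) (2 * p) := by
  refine ⟨measurableSet_le (h.mR.comp (measurable_const_smul s)) measurable_const, fun Y hY => ?_⟩
  have e : (2 : ℝ) ^ 2 = 4 := by norm_num
  have h1 := h.prob_psd (A := Y) (B := A) s 2 (by rw [e]; exact hY) τ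
  have e1 : {g : V → ℝ | Y *ᵥ g ∉ {F : V → ℝ | Rs μ (s • F) ≤ τ}} =
      {g | τ < Rs μ (s • (Y *ᵥ g))} := by
    ext g
    simp only [Set.mem_ofPred_eq, not_le]
  rw [e1]
  linarith

lemma qf_of_psd {M : Matrix V V ℝ} (hM : M.PosSemidef) (v : V → ℝ) : 0 ≤ qf M v := by
  have h := (Matrix.posSemidef_iff_dotProduct_mulVec.1 hM).2 v
  rw [star_trivial] at h
  rwa [qf_eq]

lemma qf_gram' (Y : Matrix V K ℝ) (v : V → ℝ) : qf (Y * Yᵀ) v = ∑ k, (Yᵀ *ᵥ v) k ^ 2 := by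
  have h := qf_gram Yᵀ v
  rwa [Matrix.transpose_transpose] at h

lemma qf_smul_mat (c : ℝ) (M : Matrix V V ℝ) (v : V → ℝ) : qf (c • M) v = c * qf M v := by
  unfold qf
  rw [Finset.mul_sum]
  refine Finset.sum_congr rfl fun i _ => ?_
  rw [Finset.mul_sum]
  exact Finset.sum_congr rfl fun j _ => by rw [Matrix.smul_apply, smul_eq_mul]; ring

lemma qf_sub_mat (M N : Matrix V V ℝ) (v : V → ℝ) : qf (M - N) v = qf M v - qf N v := by
  unfold qf
  rw [← Finset.sum_sub_distrib]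
  refine Finset.sum_congr rfl fun i _ => ?_
  rw [← Finset.sum_sub_distrib]
  exact Finset.sum_congr rfl fun j _ => by rw [Matrix.sub_apply]; ring

/-- one may intersect with a linear subspace which carries the law -/
theorem GP.inter_lin {G : Set (V → ℝ)} {p : ℝ} (hG : GP G S p) (v : V → ℝ) (hv : qf S v = 0) :
    GP (G ∩ {F | ∑ x, v x * F x = 0}) S p := by
  have hm : MeasurableSet {F : V → ℝ | ∑ x, v x * F x = 0} := by
    refine measurableSet_eq_fun ?_ measurable_const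
    fun_prop
  refine ⟨hG.meas.inter hm, fun Y hY => ?_⟩
  have h0 : ∀ g : V → ℝ, ∑ x, v x * (Y *ᵥ g) x = 0 := by
    have h1 := qf_of_psd hY v
    rw [qf_sub_mat, qf_smul_mat, hv, mul_zero, zero_sub, qf_gram'] at h1
    have h2 : ∀ k, (Yᵀ *ᵥ v) k = 0 := by
      intro k
      have h3 : ∑ k, (Yᵀ *ᵥ v) k ^ 2 = 0 :=
        le_antisymm (by linarith) (Finset.sum_nonneg fun _ _ => sq_nonneg _)
      have h4 := (Finset.sum_eq_zero_iff_of_nonneg fun k _ => sq_nonneg ((Yᵀ *ᵥ v) k)).1 h3 k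
        (Finset.mem_univ k)
      exact pow_eq_zero_iff (two_ne_zero) |>.1 h4
    intro g
    have h5 : ∑ x, v x * (Y *ᵥ g) x = v ⬝ᵥ (Y *ᵥ g) := rfl
    rw [h5, Matrix.dotProduct_mulVec, ← Matrix.mulVec_transpose]
    simp only [dotProduct, h2, zero_mul, Finset.sum_const_zero]
  refine (measureReal_mono fun g hg => ?_).trans (hG.prob Y hY)
  intro hc
  exact hg ⟨hc, h0 g⟩

/-! ### the crude bound -/

lemma lq_crude (h : Maj μ Bm) (hQ : FQ μ Bm Qm) (J : V → ℝ) :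
    |lq μ Qm J - Lg μ 0| ≤ qf Bm J := by
  have h1 := h.Rs_nonneg J
  have h2 := h.le J
  have h3 := abs_le.1 (hQ.le J)
  have e : lq μ Qm J - Lg μ 0 = Rs μ J + (qf (Gm μ) J - qf Qm J) / 2 := by
    unfold lq Rs
    ring
  rw [e, abs_le]
  constructor
  · linarith [h3.1]
  · linarith [h3.2]

lemma md_crude (h : Maj μ Bm) (hQ : FQ μ Bm Qm) (F v v' : V → ℝ) :
    |md (lq μ Qm) F v v'| ≤
      qf Bm (F + v + v') + qf Bm (F + v) + qf Bm (F + v') + qf Bm F := by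
  have h1 := abs_le.1 (lq_crude h hQ (F + v + v'))
  have h2 := abs_le.1 (lq_crude h hQ (F + v))
  have h3 := abs_le.1 (lq_crude h hQ (F + v'))
  have h4 := abs_le.1 (lq_crude h hQ F)
  unfold md
  rw [abs_le]
  constructor
  · linarith [h1.1, h2.2, h3.2, h4.1]
  · linarith [h1.2, h2.1, h3.1, h4.2]

/-! ### projections -/

section perp

variable [DecidableEq I]

lemma perpM_symm (a : I → ℝ) : (perpM a)ᵀ = perpM a := by
  ext i j
  simp only [perpM, Matrix.transpose_apply, Matrix.sub_apply, Matrix.of_apply,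
    Matrix.one_apply, eq_comm]
  ring

lemma perpM_eq (a : I → ℝ) : perpM a = 1 - (∑ i, a i ^ 2)⁻¹ • vecMulVec a a := by
  ext i j
  simp only [perpM, Matrix.sub_apply, Matrix.of_apply, Matrix.smul_apply, vecMulVec_apply,
    smul_eq_mul]
  ring

lemma perpM_sq {a : I → ℝ} (ha : ∑ i, a i ^ 2 ≠ 0) : perpM a * perpM a = perpM a := by
  have h : ∀ g : I → ℝ, (perpM a * perpM a) *ᵥ g = perpM a *ᵥ g := by
    intro g
    rw [← mulVec_mulVec, perpM_mulVec, perpM_mulVec]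
    have : perp a g = g + (-cf a g) • a := by
      unfold perp
      rw [neg_smul, sub_eq_add_neg]
    rw [this, perp_shift ha, ← this]
  exact Matrix.mulVec_injective (funext h)

omit [Fintype V] in
/-- covariance of `A perp a g` -/
lemma cov_perp (A : Matrix V I ℝ) {a : I → ℝ} (ha : ∑ i, a i ^ 2 ≠ 0) :
    (A * perpM a) * (A * perpM a)ᵀ =
      A * Aᵀ - (∑ i, a i ^ 2)⁻¹ • vecMulVec (A *ᵥ a) (A *ᵥ a) := by
  rw [Matrix.transpose_mul, perpM_symm, Matrix.mul_assoc, ← Matrix.mul_assoc (perpM a),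
    perpM_sq ha, perpM_eq, Matrix.sub_mul, Matrix.one_mul, Matrix.mul_sub, Matrix.smul_mul,
    Matrix.mul_smul, Matrix.vecMulVec_mul, Matrix.mul_vecMulVec, Matrix.vecMul_transpose]

lemma psd_vv (u : V → ℝ) {c : ℝ} (hc : 0 ≤ c) : (c • vecMulVec u u).PosSemidef := by
  have h1 := Matrix.posSemidef_vecMulVec_self_star u
  rw [star_trivial] at h1
  exact h1.smul hc

lemma psd_perp (A : Matrix V I ℝ) {a : I → ℝ} (ha : ∑ i, a i ^ 2 ≠ 0) :
    (A * Aᵀ - (A * perpM a) * (A * perpM a)ᵀ).PosSemidef := by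
  rw [cov_perp A ha, sub_sub_cancel]
  exact psd_vv _ (inv_nonneg.2 (Finset.sum_nonneg fun _ _ => sq_nonneg _))

lemma psd_perp2 (A : Matrix V I ℝ) {a a' : I → ℝ} (ha : ∑ i, a i ^ 2 ≠ 0)
    (ha' : ∑ i, a' i ^ 2 ≠ 0) :
    (A * Aᵀ - (A * perpM a' * perpM a) * (A * perpM a' * perpM a)ᵀ).PosSemidef := by
  have h1 := (psd_perp A ha').add (psd_perp (A * perpM a') ha)
  rwa [sub_add_sub_cancel] at h1

end perp

/-! ### the weight on a set -/

lemma w2_le {α α' : ℝ} (hα : 0 < α) (hα' : 0 < α') (a a' g : I → ℝ) :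
    |w2 a a' g| ≤ α' / α / 2 * (a ⬝ᵥ g) ^ 2 + α / α' / 2 * (a' ⬝ᵥ g) ^ 2 := by
  have e : w2 a a' g = (a ⬝ᵥ g) * (a' ⬝ᵥ g) := rfl
  rw [e, abs_mul]
  set x := a ⬝ᵥ g
  set y := a' ⬝ᵥ g
  have h2 : 0 ≤ (α' * |x| - α * |y|) ^ 2 / (2 * (α * α')) := by positivity
  have h3 : α' / α / 2 * x ^ 2 + α / α' / 2 * y ^ 2 - |x| * |y| =
      (α' * |x| - α * |y|) ^ 2 / (2 * (α * α')) := by
    rw [← sq_abs x, ← sq_abs y]
    field_simp
    ring
  linarith

/-- `E[(a·g)² Q(Y g); S] ≤ 534 |a|² q √β` -/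
lemma dotQ_set (h : Maj μ Bm) (a : I → ℝ) {α : ℝ} (hα : 0 < α) (ha : ∑ i, a i ^ 2 ≤ α)
    (Y : Matrix V I ℝ) {q : ℝ} (hq : 0 < q) (hY : H447.pr Bm (Y * Yᵀ) ≤ q) {T : Set (I → ℝ)}
    (hT : MeasurableSet T) {β : ℝ} (hβ : (gau I).real T ≤ β) :
    ∫ g in T, (a ⬝ᵥ g) ^ 2 * qf Bm (Y *ᵥ g) ∂(gau I) ≤ 534 * (α * q) * √β := by
  have h1 := h.WQ_set a hα ha Y hq hY hT hβ
  have h2 := h.Q_set Y hq hY hT hβ
  have eQ : EGr fun g : I → ℝ => qf Bm (Y *ᵥ g) := egr_mat (egr_qf Bm) Y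
  have i1 : Integrable (fun g : I → ℝ => |Wq a g| * (qf Bm (Y *ᵥ g) / 2)) (gau I) := by
    have h3 := int_egr ((H447.egr_Wq a).abs.mul eQ)
    refine (h3.div_const 2).congr (Filter.Eventually.of_forall fun g => ?_)
    simp only
    ring
  have i2 : Integrable (fun g : I → ℝ => qf Bm (Y *ᵥ g) / 2) (gau I) :=
    (int_egr eQ).div_const 2
  have i3 : Integrable (fun g : I → ℝ => (a ⬝ᵥ g) ^ 2 * qf Bm (Y *ᵥ g)) (gau I) := by
    have h3 := int_egr (((H447.egr_dot a).mul (H447.egr_dot a)).mul eQ)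
    refine h3.congr (Filter.Eventually.of_forall fun g => ?_)
    simp only
    ring
  have h3 : ∫ g in T, (a ⬝ᵥ g) ^ 2 * qf Bm (Y *ᵥ g) ∂(gau I) ≤
      ∫ g in T, (2 * (|Wq a g| * (qf Bm (Y *ᵥ g) / 2)) + 2 * α * (qf Bm (Y *ᵥ g) / 2))
        ∂(gau I) := by
    refine setIntegral_mono i3.integrableOn
      ((i1.const_mul 2).add (i2.const_mul (2 * α))).integrableOn fun g => ?_
    have h4 : (a ⬝ᵥ g) ^ 2 ≤ |Wq a g| + α := by
      have := le_abs_self (Wq a g)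
      unfold Wq at this ⊢
      linarith
    have h5 := h.qf_nonneg (Y *ᵥ g)
    simp only
    nlinarith
  refine h3.trans ?_
  have e : ∫ g in T, (2 * (|Wq a g| * (qf Bm (Y *ᵥ g) / 2)) + 2 * α * (qf Bm (Y *ᵥ g) / 2))
      ∂(gau I) = 2 * ∫ g in T, |Wq a g| * (qf Bm (Y *ᵥ g) / 2) ∂(gau I) +
        2 * α * ∫ g in T, qf Bm (Y *ᵥ g) / 2 ∂(gau I) := by
    rw [integral_add (i1.const_mul 2).integrableOn (i2.const_mul (2 * α)).integrableOn,
      integral_const_mul, integral_const_mul]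
  rw [e]
  have h6 : 2 * α * ∫ g in T, qf Bm (Y *ᵥ g) / 2 ∂(gau I) ≤ 2 * α * (6 * q * √β) :=
    mul_le_mul_of_nonneg_left h2 (by positivity)
  linarith

/-- `E[|(a·g)(a'·g)| Q(Y g); S] ≤ 534 |a| |a'| q √β` -/
lemma w2Q_set (h : Maj μ Bm) {a a' : I → ℝ} (ha : 0 < ∑ i, a i ^ 2) (ha' : 0 < ∑ i, a' i ^ 2)
    (Y : Matrix V I ℝ) {q : ℝ} (hq : 0 < q) (hY : H447.pr Bm (Y * Yᵀ) ≤ q) {T : Set (I → ℝ)}
    (hT : MeasurableSet T) {β : ℝ} (hβ : (gau I).real T ≤ β) :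
    ∫ g in T, |w2 a a' g| * qf Bm (Y *ᵥ g) ∂(gau I) ≤
      534 * (√(∑ i, a i ^ 2) * √(∑ i, a' i ^ 2) * q) * √β := by
  set α := √(∑ i, a i ^ 2) with hα
  set α' := √(∑ i, a' i ^ 2) with hα'
  have h0 : 0 < α := Real.sqrt_pos.2 ha
  have h0' : 0 < α' := Real.sqrt_pos.2 ha'
  have e1 : α ^ 2 = ∑ i, a i ^ 2 := Real.sq_sqrt ha.le
  have e2 : α' ^ 2 = ∑ i, a' i ^ 2 := Real.sq_sqrt ha'.le
  have h1 := dotQ_set h a ha le_rfl Y hq hY hT hβ
  have h2 := dotQ_set h a' ha' le_rfl Y hq hY hT hβ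
  rw [← e1] at h1
  rw [← e2] at h2
  have eQ : EGr fun g : I → ℝ => qf Bm (Y *ᵥ g) := egr_mat (egr_qf Bm) Y
  have i0 : Integrable (fun g : I → ℝ => |w2 a a' g| * qf Bm (Y *ᵥ g)) (gau I) :=
    int_egr ((egr_w2 a a').abs.mul eQ)
  have i3 : ∀ a : I → ℝ, Integrable (fun g : I → ℝ => (a ⬝ᵥ g) ^ 2 * qf Bm (Y *ᵥ g))
      (gau I) := by
    intro a
    have h3 := int_egr (((H447.egr_dot a).mul (H447.egr_dot a)).mul eQ)
    refine h3.congr (Filter.Eventually.of_forall fun g => ?_)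
    simp only
    ring
  have h3 : ∫ g in T, |w2 a a' g| * qf Bm (Y *ᵥ g) ∂(gau I) ≤
      ∫ g in T, (α' / α / 2 * ((a ⬝ᵥ g) ^ 2 * qf Bm (Y *ᵥ g)) +
        α / α' / 2 * ((a' ⬝ᵥ g) ^ 2 * qf Bm (Y *ᵥ g))) ∂(gau I) := by
    refine setIntegral_mono i0.integrableOn
      (((i3 a).const_mul _).add ((i3 a').const_mul _)).integrableOn fun g => ?_
    have h4 := w2_le h0 h0' a a' g
    have h5 := h.qf_nonneg (Y *ᵥ g)
    have h6 := mul_le_mul_of_nonneg_right h4 h5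
    simp only
    linarith
  refine h3.trans ?_
  rw [integral_add ((i3 a).const_mul _).integrableOn ((i3 a').const_mul _).integrableOn,
    integral_const_mul, integral_const_mul]
  have h7 : α' / α / 2 * ∫ g in T, (a ⬝ᵥ g) ^ 2 * qf Bm (Y *ᵥ g) ∂(gau I) ≤
      α' / α / 2 * (534 * (α ^ 2 * q) * √β) := mul_le_mul_of_nonneg_left h1 (by positivity)
  have h8 : α / α' / 2 * ∫ g in T, (a' ⬝ᵥ g) ^ 2 * qf Bm (Y *ᵥ g) ∂(gau I) ≤
      α / α' / 2 * (534 * (α' ^ 2 * q) * √β) := mul_le_mul_of_nonneg_left h2 (by positivity)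
  have e3 : α' / α / 2 * (534 * (α ^ 2 * q) * √β) = 267 * (α * α' * q) * √β := by
    field_simp
    ring
  have e4 : α / α' / 2 * (534 * (α' ^ 2 * q) * √β) = 267 * (α * α' * q) * √β := by
    field_simp
    ring
  rw [e3] at h7
  rw [e4] at h8
  linarith

/-- **FB in terms of two orthogonal directions**, explicit bad part -/
theorem far_aa (h : Maj μ Bm) (hQ : FQ μ Bm Qm) (A : Matrix V I ℝ) {a a' : I → ℝ}
    (ha : 0 < ∑ i, a i ^ 2) (ha' : 0 < ∑ i, a' i ^ 2) (haa : ∑ i, a i * a' i = 0)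
    {Gd : Set (I → ℝ)} (hGd : MeasurableSet Gd) {ε q β : ℝ} (hε0 : 0 ≤ ε) (hq : 0 < q)
    (hqA : H447.pr Bm (A * Aᵀ) ≤ q) (hβ : (gau I).real Gdᶜ ≤ β)
    (hε : ∀ g ∈ Gd, |md (Lg μ) (bs A a a' g) (cf a g • (A *ᵥ a)) (cf a' g • (A *ᵥ a')) -
      bf Qm (cf a g • (A *ᵥ a)) (cf a' g • (A *ᵥ a'))| ≤ ε) :
    |∫ g, bf (Cm μ (A *ᵥ g)) (A *ᵥ a) (A *ᵥ a') ∂(gau I) - bf Qm (A *ᵥ a) (A *ᵥ a')| ≤
      √(∑ i, a i ^ 2) * √(∑ i, a' i ^ 2) * (ε + 2136 * (q * √β)) := by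
  classical
  have hC := c2g_lq h.em h.gt hQ.sym
  have key := far_bump hC A ha ha' haa hGd hε0 (fun g hg => by
    rw [md_lq hQ.sym]
    exact hε g hg)
  simp only [sum_lq] at key
  have eC : EGr fun J : V → ℝ => bf (Cm μ J) (A *ᵥ a) (A *ᵥ a') := by
    unfold bf
    exact egr_sum _ fun x _ => egr_sum _ fun y _ =>
      ((EGr.const _).mul (egr_Cm h.em h.gt x y)).mul (EGr.const _)
  have iC : Integrable (fun g : I → ℝ => bf (Cm μ (A *ᵥ g)) (A *ᵥ a) (A *ᵥ a')) (gau I) :=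
    int_egr (egr_mat eC A)
  rw [integral_sub iC (integrable_const _), integral_const, probReal_univ, one_smul] at key
  refine key.trans ?_
  rw [mul_add]
  refine add_le_add le_rfl ?_
  -- the four vertices
  have c0 : ∀ g, bs A a a' g + cf a g • (A *ᵥ a) + cf a' g • (A *ᵥ a') = A *ᵥ g := by
    intro g
    unfold bs
    abel
  have c1 : ∀ g, bs A a a' g + cf a g • (A *ᵥ a) = (A * perpM a') *ᵥ g := by
    intro g
    rw [← mulVec_mulVec, perpM_mulVec]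
    unfold bs perp
    rw [mulVec_sub, mulVec_smul]
    abel
  have c2 : ∀ g, bs A a a' g + cf a' g • (A *ᵥ a') = (A * perpM a) *ᵥ g := by
    intro g
    rw [← mulVec_mulVec, perpM_mulVec]
    unfold bs perp
    rw [mulVec_sub, mulVec_smul]
    abel
  have c3 : ∀ g, bs A a a' g = (A * perpM a' * perpM a) *ᵥ g := by
    intro g
    rw [← mulVec_mulVec, ← mulVec_mulVec, perpM_mulVec, perpM_mulVec, perp_perp haa, mulVec_sub,
      mulVec_sub, mulVec_smul, mulVec_smul]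
    rfl
  have hpr : ∀ Y : Matrix V I ℝ, (A * Aᵀ - Y * Yᵀ).PosSemidef → H447.pr Bm (Y * Yᵀ) ≤ q :=
    fun Y hY => (pr_psd h.qf_nonneg hY).trans hqA
  have q0 := w2Q_set h ha ha' A hq hqA hGd.compl hβ
  have q1 := w2Q_set h ha ha' (A * perpM a') hq (hpr _ (psd_perp A ha'.ne')) hGd.compl hβ
  have q2 := w2Q_set h ha ha' (A * perpM a) hq (hpr _ (psd_perp A ha.ne')) hGd.compl hβ
  have q3 := w2Q_set h ha ha' (A * perpM a' * perpM a) hq
    (hpr _ (psd_perp2 A ha.ne' ha'.ne')) hGd.compl hβ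
  have ii : ∀ Y : Matrix V I ℝ, Integrable (fun g : I → ℝ => |w2 a a' g| * qf Bm (Y *ᵥ g))
      (gau I) := fun Y => int_egr ((egr_w2 a a').abs.mul (egr_mat (egr_qf Bm) Y))
  have iM : Integrable (fun g : I → ℝ => |w2 a a' g| * |md (lq μ Qm) (bs A a a' g)
      (cf a g • (A *ᵥ a)) (cf a' g • (A *ᵥ a'))|) (gau I) :=
    egr_integrable ((egr_w2 a a').abs.mul (egr_md hC.g0 A haa).abs)
  have h1 : ∫ g in Gdᶜ, |w2 a a' g| * |md (lq μ Qm) (bs A a a' g)
      (cf a g • (A *ᵥ a)) (cf a' g • (A *ᵥ a'))| ∂(gau I) ≤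
      ∫ g in Gdᶜ, (|w2 a a' g| * qf Bm (A *ᵥ g) + |w2 a a' g| * qf Bm ((A * perpM a') *ᵥ g) +
        |w2 a a' g| * qf Bm ((A * perpM a) *ᵥ g) +
        |w2 a a' g| * qf Bm ((A * perpM a' * perpM a) *ᵥ g)) ∂(gau I) := by
    refine setIntegral_mono iM.integrableOn
      ((((ii _).add (ii _)).add (ii _)).add (ii _)).integrableOn fun g => ?_
    have h2 := md_crude h hQ (bs A a a' g) (cf a g • (A *ᵥ a)) (cf a' g • (A *ᵥ a'))
    rw [c0, c1, c2, c3] at h2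
    have h3 := mul_le_mul_of_nonneg_left h2 (abs_nonneg (w2 a a' g))
    rw [← c3] at h3 ⊢
    linarith
  refine h1.trans ?_
  have j1 : Integrable (fun g : I → ℝ => |w2 a a' g| * qf Bm (A *ᵥ g) +
      |w2 a a' g| * qf Bm ((A * perpM a') *ᵥ g)) (gau I) := (ii _).add (ii _)
  have j2 : Integrable (fun g : I → ℝ => |w2 a a' g| * qf Bm (A *ᵥ g) +
      |w2 a a' g| * qf Bm ((A * perpM a') *ᵥ g) +
      |w2 a a' g| * qf Bm ((A * perpM a) *ᵥ g)) (gau I) := j1.add (ii _)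
  rw [integral_add j2.integrableOn (ii _).integrableOn,
    integral_add j1.integrableOn (ii _).integrableOn,
    integral_add (ii _).integrableOn (ii _).integrableOn]
  linarith

/-! ### the final form: a law of covariance `≥ κ C Cᵀ` -/

/-- tail of a Gaussian vector -/
lemma gau_tail' [DecidableEq I] {Kq : Matrix I I ℝ} (hK : Kqᵀ = Kq) (h0 : ∀ x, 0 ≤ qf Kq x)
    {lam : ℝ} (hl : 0 ≤ lam) (h1 : ∀ x : I → ℝ, lam * qf Kq x ≤ 1 / 2 * ∑ i, x i ^ 2) (a : ℝ) :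
    (gau I).real {g | a ≤ qf Kq g} ≤ Real.exp (lam * trace Kq - lam * a / 2) := by
  have h2 := H663.gau_tail hK h0 hl h1 a
  have hm : MeasurableSet {g : I → ℝ | a ≤ qf Kq g} :=
    measurableSet_le measurable_const (egr_qf Kq).meas
  rw [integral_indicator hm, setIntegral_const, smul_eq_mul, mul_one] at h2
  exact h2

lemma sum_sq_eq_dot (f : W → ℝ) : ∑ x, f x ^ 2 = f ⬝ᵥ f := by
  simp only [dotProduct, pow_two]

lemma eq_zero_of_sum_sq {f : W → ℝ} (hf : ∑ x, f x ^ 2 = 0) : f = 0 := by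
  funext x
  have h4 := (Finset.sum_eq_zero_iff_of_nonneg fun k _ => sq_nonneg (f k)).1 hf x
    (Finset.mem_univ x)
  exact pow_eq_zero_iff (two_ne_zero) |>.1 h4

lemma bf_zero_left (M : Matrix V V ℝ) (v : V → ℝ) : bf M 0 v = 0 := by
  unfold bf
  simp

lemma bf_zero_right (M : Matrix V V ℝ) (v : V → ℝ) : bf M v 0 = 0 := by
  unfold bf
  simp

/-- coordinates: a law of covariance `≥ κ C Cᵀ` with two marked orthonormal cell functions -/
lemma coord {S : Matrix V V ℝ} {C : Matrix V W ℝ} {κ : ℝ} (hκ : 0 ≤ κ)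
    (hA : (S - κ • (C * Cᵀ)).PosSemidef) {J : Type*} [Fintype J] [DecidableEq J]
    {U : Matrix W J ℝ} (hUtU : Uᵀ * U = 1) :
    ∃ X0 : Matrix V V ℝ, fromCols (√κ • (C * U)) X0 * (fromCols (√κ • (C * U)) X0)ᵀ = S := by
  classical
  have hPr : ((1 : Matrix W W ℝ) - U * Uᵀ).PosSemidef := by
    have h1 : (1 : Matrix W W ℝ) - U * Uᵀ = (1 - U * Uᵀ) * (1 - U * Uᵀ)ᵀ := by
      rw [Matrix.transpose_sub, Matrix.transpose_one, Matrix.transpose_mul,
        Matrix.transpose_transpose, Matrix.mul_sub, Matrix.mul_one, Matrix.sub_mul, Matrix.one_mul,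
        Matrix.mul_assoc, ← Matrix.mul_assoc Uᵀ, hUtU, Matrix.one_mul, sub_self, sub_zero]
    rw [h1]
    have h := Matrix.posSemidef_self_mul_conjTranspose ((1 : Matrix W W ℝ) - U * Uᵀ)
    rwa [Matrix.conjTranspose_eq_transpose_of_trivial] at h
  obtain ⟨R, hR⟩ := exists_increment hPr
  have hS : (S - κ • (C * (U * Uᵀ) * Cᵀ)).PosSemidef := by
    have h1 : S - κ • (C * (U * Uᵀ) * Cᵀ) =
        (S - κ • (C * Cᵀ)) + κ • ((C * R) * (C * R)ᵀ) := by
      have h2 : (C * R) * (C * R)ᵀ = C * Cᵀ - C * (U * Uᵀ) * Cᵀ := by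
        rw [Matrix.transpose_mul, Matrix.mul_assoc C R, ← Matrix.mul_assoc R, ← hR,
          Matrix.sub_mul, Matrix.one_mul, Matrix.mul_sub, ← Matrix.mul_assoc C]
      rw [h2, smul_sub]
      abel
    rw [h1]
    exact hA.add ((psd_gram _).smul hκ)
  obtain ⟨X0, hX0⟩ := exists_increment hS
  refine ⟨X0, ?_⟩
  have sκ2 : √κ * √κ = κ := Real.mul_self_sqrt hκ
  rw [Matrix.transpose_fromCols, Matrix.fromCols_mul_fromRows, Matrix.transpose_smul,
    Matrix.smul_mul, Matrix.mul_smul, smul_smul, sκ2, Matrix.transpose_mul,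
    Matrix.mul_assoc C U, ← Matrix.mul_assoc U, ← Matrix.mul_assoc C, ← hX0]
  abel

/-- **FB**: `κ C Cᵀ ≤ A Aᵀ`, `f`, `f'` supported in the disjoint sets `P`, `P'` -/
theorem far_bf (h : Maj μ Bm) (hQ : FQ μ Bm Qm) {A : Matrix V I ℝ} {C : Matrix V W ℝ} {κ : ℝ}
    (hκ : 0 < κ) (hA : (A * Aᵀ - κ • (C * Cᵀ)).PosSemidef) {P P' : W → Prop}
    (hd : ∀ x, P x → ¬P' x) {G : Set (V → ℝ)} {p Λ ε q β : ℝ} (hG : GP G (A * Aᵀ) p)
    (hL : FL μ C P P' G Qm (κ * Λ) ε) (hε0 : 0 ≤ ε) (hq : 0 < q)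
    (hqA : H447.pr Bm (A * Aᵀ) ≤ q) (hβ : 4 * p + 2 * Real.exp (1 / 2 - Λ / 20) ≤ β)
    {f f' : W → ℝ} (hf : ∀ x, ¬P x → f x = 0) (hf' : ∀ x, ¬P' x → f' x = 0) :
    |∫ g, bf (Cm μ (A *ᵥ g)) (C *ᵥ f) (C *ᵥ f') ∂(gau I) - bf Qm (C *ᵥ f) (C *ᵥ f')| ≤
      √(∑ x, f x ^ 2) * √(∑ x, f' x ^ 2) / κ * (ε + 2136 * (q * √β)) := by
  classical
  have hrhs : 0 ≤ √(∑ x, f x ^ 2) * √(∑ x, f' x ^ 2) / κ * (ε + 2136 * (q * √β)) := by
    positivity
  by_cases hf0 : ∑ x, f x ^ 2 = 0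
  · have h1 : f = 0 := eq_zero_of_sum_sq hf0
    simp only [h1, mulVec_zero, bf_zero_left, integral_zero, sub_zero, abs_zero]
    rw [← h1]
    exact hrhs
  by_cases hf0' : ∑ x, f' x ^ 2 = 0
  · have h1 : f' = 0 := eq_zero_of_sum_sq hf0'
    simp only [h1, mulVec_zero, bf_zero_right, integral_zero, sub_zero, abs_zero]
    rw [← h1]
    exact hrhs
  have hs : 0 < ∑ x, f x ^ 2 := lt_of_le_of_ne (Finset.sum_nonneg fun _ _ => sq_nonneg _)
    (Ne.symm hf0)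
  have hs' : 0 < ∑ x, f' x ^ 2 := lt_of_le_of_ne (Finset.sum_nonneg fun _ _ => sq_nonneg _)
    (Ne.symm hf0')
  set n := √(∑ x, f x ^ 2) with hn
  set n' := √(∑ x, f' x ^ 2) with hn'
  have n0 : 0 < n := Real.sqrt_pos.2 hs
  have n0' : 0 < n' := Real.sqrt_pos.2 hs'
  have nsq : n ^ 2 = ∑ x, f x ^ 2 := Real.sq_sqrt hs.le
  have nsq' : n' ^ 2 = ∑ x, f' x ^ 2 := Real.sq_sqrt hs'.le
  have sκ : 0 < √κ := Real.sqrt_pos.2 hκ
  have sκ2 : √κ ^ 2 = κ := Real.sq_sqrt hκ.le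
  have hff : f ⬝ᵥ f' = 0 := by
    simp only [dotProduct]
    refine Finset.sum_eq_zero fun x _ => ?_
    by_cases hx : P x
    · rw [hf' x (hd x hx), mul_zero]
    · rw [hf x hx, zero_mul]
  set e : W → ℝ := (n⁻¹) • f with he
  set e' : W → ℝ := (n'⁻¹) • f' with he'
  have ee : e ⬝ᵥ e = 1 := by
    rw [he, smul_dotProduct, dotProduct_smul, ← sum_sq_eq_dot, ← nsq, smul_eq_mul, smul_eq_mul]
    field_simp
  have ee' : e' ⬝ᵥ e' = 1 := by
    rw [he', smul_dotProduct, dotProduct_smul, ← sum_sq_eq_dot, ← nsq', smul_eq_mul, smul_eq_mul]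
    field_simp
  have ef : e ⬝ᵥ e' = 0 := by
    rw [he, he', smul_dotProduct, dotProduct_smul, hff, smul_zero, smul_zero]
  set U : Matrix W (Fin 2) ℝ := Matrix.of fun x i => if i = 0 then e x else e' x with hU
  have hUtU : Uᵀ * U = 1 := by
    have ef' : e' ⬝ᵥ e = 0 := by rw [dotProduct_comm, ef]
    ext i j
    fin_cases i <;> fin_cases j
    · simpa [hU, Matrix.mul_apply, dotProduct] using ee
    · simpa [hU, Matrix.mul_apply, dotProduct] using ef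
    · simpa [hU, Matrix.mul_apply, dotProduct] using ef'
    · simpa [hU, Matrix.mul_apply, dotProduct] using ee'
  obtain ⟨X0, hYY⟩ := coord hκ.le hA hUtU
  set Y : Matrix V (Fin 2 ⊕ V) ℝ := fromCols (√κ • (C * U)) X0 with hY
  set a : Fin 2 ⊕ V → ℝ := Pi.single (Sum.inl 0) (n / √κ) with ha
  set a' : Fin 2 ⊕ V → ℝ := Pi.single (Sum.inl 1) (n' / √κ) with ha'
  have hsa : ∑ i, a i ^ 2 = n ^ 2 / κ := by
    rw [Finset.sum_eq_single (Sum.inl 0)]
    · rw [ha, Pi.single_eq_same, div_pow, sκ2]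
    · intro i _ hi
      rw [ha, Pi.single_eq_of_ne hi]
      ring
    · simp
  have hsa' : ∑ i, a' i ^ 2 = n' ^ 2 / κ := by
    rw [Finset.sum_eq_single (Sum.inl 1)]
    · rw [ha', Pi.single_eq_same, div_pow, sκ2]
    · intro i _ hi
      rw [ha', Pi.single_eq_of_ne hi]
      ring
    · simp
  have haa : ∑ i, a i * a' i = 0 := by
    refine Finset.sum_eq_zero fun i _ => ?_
    by_cases hi : i = Sum.inl 0
    · rw [hi, ha', Pi.single_eq_of_ne (by simp), mul_zero]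
    · rw [ha, Pi.single_eq_of_ne hi, zero_mul]
  have hUe : U *ᵥ Pi.single 0 1 = e := by
    funext x
    simp [hU, Matrix.col_apply]
  have hUe' : U *ᵥ Pi.single 1 1 = e' := by
    funext x
    simp [hU, Matrix.col_apply]
  have hYa : Y *ᵥ a = C *ᵥ f := by
    have e1 : a = Sum.elim ((n / √κ) • (Pi.single 0 1 : Fin 2 → ℝ)) (0 : V → ℝ) := by
      funext i
      rcases i with i | i
      · fin_cases i <;> simp [ha]
      · simp [ha]
    rw [e1, hY, Matrix.fromCols_mulVec_sumElim, Matrix.mulVec_zero, add_zero, Matrix.smul_mulVec,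
      Matrix.mulVec_smul, ← Matrix.mulVec_mulVec, hUe, he, Matrix.mulVec_smul, smul_smul,
      smul_smul]
    have : √κ * (n / √κ) * n⁻¹ = 1 := by field_simp
    rw [this, one_smul]
  have hYa' : Y *ᵥ a' = C *ᵥ f' := by
    have e1 : a' = Sum.elim ((n' / √κ) • (Pi.single 1 1 : Fin 2 → ℝ)) (0 : V → ℝ) := by
      funext i
      rcases i with i | i
      · fin_cases i <;> simp [ha']
      · simp [ha']
    rw [e1, hY, Matrix.fromCols_mulVec_sumElim, Matrix.mulVec_zero, add_zero, Matrix.smul_mulVec,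
      Matrix.mulVec_smul, ← Matrix.mulVec_mulVec, hUe', he', Matrix.mulVec_smul, smul_smul,
      smul_smul]
    have : √κ * (n' / √κ) * n'⁻¹ = 1 := by field_simp
    rw [this, one_smul]
  -- the coefficients of the two directions
  have hcf : ∀ g : Fin 2 ⊕ V → ℝ, cf a g • (C *ᵥ f) =
      C *ᵥ ((√κ * g (Sum.inl 0)) • e) := by
    intro g
    have e1 : cf a g = √κ * g (Sum.inl 0) / n := by
      unfold cf
      rw [hsa, Finset.sum_eq_single (Sum.inl 0)]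
      · rw [ha, Pi.single_eq_same]
        have : n ^ 2 / κ = (n / √κ) ^ 2 := by rw [div_pow, sκ2]
        rw [this]
        field_simp
      · intro i _ hi
        rw [ha, Pi.single_eq_of_ne hi, zero_mul]
      · simp
    rw [e1, ← mulVec_smul, he, smul_smul]
    congr 2
  have hcf' : ∀ g : Fin 2 ⊕ V → ℝ, cf a' g • (C *ᵥ f') =
      C *ᵥ ((√κ * g (Sum.inl 1)) • e') := by
    intro g
    have e1 : cf a' g = √κ * g (Sum.inl 1) / n' := by
      unfold cf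
      rw [hsa', Finset.sum_eq_single (Sum.inl 1)]
      · rw [ha', Pi.single_eq_same]
        have : n' ^ 2 / κ = (n' / √κ) ^ 2 := by rw [div_pow, sκ2]
        rw [this]
        field_simp
      · intro i _ hi
        rw [ha', Pi.single_eq_of_ne hi, zero_mul]
      · simp
    rw [e1, ← mulVec_smul, he', smul_smul]
    congr 2
  -- the good set
  have hsp : 0 < ∑ i, a i ^ 2 := by rw [hsa]; positivity
  have hsp' : 0 < ∑ i, a' i ^ 2 := by rw [hsa']; positivity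
  set G1 : Set (Fin 2 ⊕ V → ℝ) := {g | g (Sum.inl 0) ^ 2 < Λ} with hG1
  set G2 : Set (Fin 2 ⊕ V → ℝ) := {g | g (Sum.inl 1) ^ 2 < Λ} with hG2
  set H : Matrix V (Fin 2 ⊕ V) ℝ → Set (Fin 2 ⊕ V → ℝ) := fun Z => {g | Z *ᵥ g ∈ G} with hH
  set Gd : Set (Fin 2 ⊕ V → ℝ) := (G1 ∩ G2) ∩ ((H Y ∩ H (Y * perpM a')) ∩
    (H (Y * perpM a) ∩ H (Y * perpM a' * perpM a))) with hGd
  have mG1 : MeasurableSet G1 := measurableSet_lt ((measurable_pi_apply _).pow_const 2)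
    measurable_const
  have mG2 : MeasurableSet G2 := measurableSet_lt ((measurable_pi_apply _).pow_const 2)
    measurable_const
  have mH : ∀ Z, MeasurableSet (H Z) := fun Z => hG.meas.preimage (H552.meas_mulVec Z)
  have mGd : MeasurableSet Gd :=
    (mG1.inter mG2).inter (((mH _).inter (mH _)).inter ((mH _).inter (mH _)))
  have hps : ∀ Z : Matrix V (Fin 2 ⊕ V) ℝ, (Y * Yᵀ - Z * Zᵀ).PosSemidef →
      (gau (Fin 2 ⊕ V)).real (H Z)ᶜ ≤ p := by
    intro Z hZ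
    refine hG.real Z ?_
    have e1 : (4 : ℝ) • (A * Aᵀ) - Z * Zᵀ = (3 : ℝ) • (Y * Yᵀ) + (Y * Yᵀ - Z * Zᵀ) := by
      rw [hYY]
      module
    rw [e1]
    exact ((psd_gram Y).smul (by norm_num)).add hZ
  have hone : ∀ i : Fin 2 ⊕ V, (gau (Fin 2 ⊕ V)).real {g | g i ^ 2 < Λ}ᶜ ≤
      Real.exp (1 / 2 - Λ / 20) := by
    intro i
    have h1 := gau_tail' (I := Fin 2 ⊕ V) (Kq := vecMulVec (Pi.single i 1) (Pi.single i 1))
      (by rw [Matrix.transpose_vecMulVec]) (fun x => by rw [H447.qf_vv]; exact sq_nonneg _)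
      (lam := 1 / 10) (by norm_num) (fun x => by
        rw [H447.qf_vv, single_dotProduct, one_mul]
        have := Finset.single_le_sum (f := fun j => x j ^ 2) (fun j _ => sq_nonneg _)
          (Finset.mem_univ i)
        nlinarith [sq_nonneg (x i)]) Λ
    have e1 : {g : Fin 2 ⊕ V → ℝ | g i ^ 2 < Λ}ᶜ =
        {g | Λ ≤ qf (vecMulVec (Pi.single i 1) (Pi.single i 1)) g} := by
      ext g
      simp only [Set.mem_compl_iff, Set.mem_ofPred_eq, not_lt, H447.qf_vv, single_dotProduct,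
        one_mul]
    rw [e1]
    refine h1.trans (Real.exp_le_exp.2 ?_)
    have e2 : trace (vecMulVec (Pi.single i 1) (Pi.single i 1) :
        Matrix (Fin 2 ⊕ V) (Fin 2 ⊕ V) ℝ) = 1 := by
      rw [Matrix.trace_vecMulVec, single_dotProduct, Pi.single_eq_same, one_mul]
    rw [e2]
    linarith
  have hPG : (gau (Fin 2 ⊕ V)).real Gdᶜ ≤ β := by
    have u := fun (s t : Set (Fin 2 ⊕ V → ℝ)) => measureReal_union_le (μ := gau (Fin 2 ⊕ V)) s t
    have k1 := hps Y (by rw [sub_self]; exact Matrix.PosSemidef.zero)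
    have k2 := hps _ (psd_perp Y hsp'.ne')
    have k3 := hps _ (psd_perp Y hsp.ne')
    have k4 := hps _ (psd_perp2 Y hsp.ne' hsp'.ne')
    have k5 := hone (Sum.inl 0)
    have k6 := hone (Sum.inl 1)
    rw [hGd, Set.compl_inter, Set.compl_inter, Set.compl_inter (H Y ∩ H (Y * perpM a')),
      Set.compl_inter, Set.compl_inter (H (Y * perpM a))]
    have u1 := u (G1ᶜ ∪ G2ᶜ) (((H Y)ᶜ ∪ (H (Y * perpM a'))ᶜ) ∪
      ((H (Y * perpM a))ᶜ ∪ (H (Y * perpM a' * perpM a))ᶜ))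
    have u2 := u G1ᶜ G2ᶜ
    have u3 := u ((H Y)ᶜ ∪ (H (Y * perpM a'))ᶜ)
      ((H (Y * perpM a))ᶜ ∪ (H (Y * perpM a' * perpM a))ᶜ)
    have u4 := u (H Y)ᶜ (H (Y * perpM a'))ᶜ
    have u5 := u (H (Y * perpM a))ᶜ (H (Y * perpM a' * perpM a))ᶜ
    linarith
  have key := far_aa h hQ Y hsp hsp' haa mGd (ε := ε) (q := q) (β := β) hε0 hq
    (by rw [hYY]; exact hqA) hPG (by
      intro g hg
      obtain ⟨⟨g1, g2⟩, ⟨g3, g4⟩, g5, g6⟩ := hg
      rw [hYa, hYa', hcf, hcf']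
      have hc3 : bs Y a a' g = (Y * perpM a' * perpM a) *ᵥ g := by
        rw [← mulVec_mulVec, ← mulVec_mulVec, perpM_mulVec, perpM_mulVec, perp_perp haa,
          mulVec_sub, mulVec_sub, mulVec_smul, mulVec_smul]
        rfl
      have hc1 : bs Y a a' g + C *ᵥ ((√κ * g (Sum.inl 0)) • e) = (Y * perpM a') *ᵥ g := by
        rw [← hcf, ← hYa, ← mulVec_mulVec, perpM_mulVec]
        unfold bs perp
        rw [mulVec_sub, mulVec_smul]
        abel
      have hc2 : bs Y a a' g + C *ᵥ ((√κ * g (Sum.inl 1)) • e') = (Y * perpM a) *ᵥ g := by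
        rw [← hcf', ← hYa', ← mulVec_mulVec, perpM_mulVec]
        unfold bs perp
        rw [mulVec_sub, mulVec_smul]
        abel
      have hc0 : bs Y a a' g + C *ᵥ ((√κ * g (Sum.inl 0)) • e) +
          C *ᵥ ((√κ * g (Sum.inl 1)) • e') = Y *ᵥ g := by
        rw [← hcf, ← hcf', ← hYa, ← hYa']
        unfold bs
        abel
      refine hL _ _ _ (fun x hx => ?_) (fun x hx => ?_) ?_ ?_ ?_ ?_ ?_ ?_
      · rw [he, Pi.smul_apply, Pi.smul_apply, hf x hx, smul_zero, smul_zero]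
      · rw [he', Pi.smul_apply, Pi.smul_apply, hf' x hx, smul_zero, smul_zero]
      · rw [sum_sq_eq_dot, smul_dotProduct, dotProduct_smul, ee]
        simp only [smul_eq_mul, mul_one]
        have k1 : g (Sum.inl 0) ^ 2 < Λ := g1
        have k2 : √κ * g (Sum.inl 0) * (√κ * g (Sum.inl 0)) = κ * g (Sum.inl 0) ^ 2 := by
          linear_combination (g (Sum.inl 0)) ^ 2 * sκ2
        rw [k2]
        exact mul_le_mul_of_nonneg_left k1.le hκ.le
      · rw [sum_sq_eq_dot, smul_dotProduct, dotProduct_smul, ee']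
        simp only [smul_eq_mul, mul_one]
        have k1 : g (Sum.inl 1) ^ 2 < Λ := g2
        have k2 : √κ * g (Sum.inl 1) * (√κ * g (Sum.inl 1)) = κ * g (Sum.inl 1) ^ 2 := by
          linear_combination (g (Sum.inl 1)) ^ 2 * sκ2
        rw [k2]
        exact mul_le_mul_of_nonneg_left k1.le hκ.le
      · rw [hc3]
        exact g6
      · rw [hc1]
        exact g4
      · rw [hc2]
        exact g5
      · rw [hc0]
        exact g3)
  rw [hYa, hYa', hsa, hsa'] at key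
  have eC : EGr fun J : V → ℝ => bf (Cm μ J) (C *ᵥ f) (C *ᵥ f') := by
    unfold bf
    exact egr_sum _ fun x _ => egr_sum _ fun y _ =>
      ((EGr.const _).mul (egr_Cm h.em h.gt x y)).mul (EGr.const _)
  rw [H363.law_integral_eq Y A hYY (fun F => bf (Cm μ F) (C *ᵥ f) (C *ᵥ f'))
    eC.meas.stronglyMeasurable] at key
  refine key.trans (le_of_eq ?_)
  have e1 : √(n ^ 2 / κ) * √(n' ^ 2 / κ) = n * n' / κ := by
    rw [Real.sqrt_div (sq_nonneg n), Real.sqrt_div (sq_nonneg n'), Real.sqrt_sq n0.le,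
      Real.sqrt_sq n0'.le, div_mul_div_comm, ← pow_two √κ, sκ2]
  rw [e1]

end

end Vale.Agent.P159.H43
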