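import Vale.Agent.P159.H43.Far2

/-!
P159 / GLUE P_up, FAR part (helper43), part 3: the sign flip form of the trace (FT).

`F = y + ζ₋ + ζ₊`, `ζ± = Z_w g ± Z_w' g` independent; `φ₊(τ) = E R(y + ζ₋ + τ ζ₊)`,
`φ₋(τ) = E R(y + ζ₊ + τ ζ₋)` have at `τ = 1` the derivatives `tr S± E N(F)` (same `F`), and
`φ₊ - φ₋` is a mean of mixed differences of values at far sources.
-/

namespace Vale.Agent.P159.H43

open Finset Matrix MeasureTheory ProbabilityTheory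
open Vale.Agent.P159.TM.H104 (EM Ex Cv K3 Lg li nh Gr)
open Vale.Agent.P159.H37
open Vale.Agent.P159.H159
open Vale.Agent.P159.H708
open Vale.Agent.P159.H239 (exists_increment egr_mv ray)
open Vale.Agent.P159.H447 (Maj NR int_egr egr_mat law_real psd_gram pr_psd pr_smul K4S K4S_psd
  K4S_smul2 Gs cl cl_nonneg cl_mono psd_ray psd_ray_z C2 Q_int)

noncomputable section

variable {V : Type} [Fintype V] {μ : (V → ℤ) → ℝ} {Bm Qm S : Matrix V V ℝ}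
variable {I J K : Type*} [Fintype I] [Fintype J] [Fintype K]

/-- the ray function in matrix letters -/
lemma ray_eq (X Z : Matrix V I ℝ) (τ : ℝ) :
    ray (gau I) (Rs μ) (fun g => X *ᵥ g) (fun g => Z *ᵥ g) τ =
      ∫ g, Rs μ ((X + τ • Z) *ᵥ g) ∂(gau I) := by
  unfold ray
  refine integral_congr_ae (Filter.Eventually.of_forall fun g => ?_)
  simp only
  rw [C2.ray_mulVec]

/-- second difference of the ray function -/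
theorem second_XZ (h : Maj μ Bm) {X Z : Matrix V I ℝ} (hXZ : X * Zᵀ = 0)
    {n : ℕ} {D e lam p β q : ℝ} (he0 : 0 < e) (he1 : e ≤ 1) (hD : 0 < D)
    (hl : 0 ≤ lam) (hq : 0 < q)
    (hKD : K4S μ ((X + Z) * (X + Z)ᵀ) ((X + Z) * (X + Z)ᵀ) ≤ D)
    (hra : cl n (128 * (lam * D)) ≤ 1)
    (hp : (gau I).real {g | 1 < Rs μ ((2 : ℝ) ^ (n + 2) • ((X + Z) *ᵥ g))} ≤ p)
    (hβ : 4 * p + 12 * Real.exp (-(√lam / 10)) ≤ β)
    (hqA : H447.pr Bm ((X + Z) * (X + Z)ᵀ) ≤ q) :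
    ray (gau I) (Rs μ) (fun g => X *ᵥ g) (fun g => Z *ᵥ g) (1 + e) +
      ray (gau I) (Rs μ) (fun g => X *ᵥ g) (fun g => Z *ᵥ g) (1 - e) -
      2 * ray (gau I) (Rs μ) (fun g => X *ᵥ g) (fun g => Z *ᵥ g) 1 ≤
    20 * (√(cl n (128 * (lam * D))) * √(cl n (8 * (lam * (e ^ 4 * D))))) +
      2 * cl n (8 * (lam * (e ^ 4 * D))) + 144 * (q * √β) := by
  set ra := cl n (128 * (lam * D)) with hradef
  set rh := cl n (8 * (lam * (e ^ 4 * D))) with hrhdef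
  set ex := Real.exp (-(√lam / 10)) with hex
  have hra0 : 0 ≤ ra := cl_nonneg _ _
  have hrh0 : 0 ≤ rh := cl_nonneg _ _
  have he2 : e ^ 2 ≤ 1 := pow_le_one₀ he0.le he1
  have he4 : e ^ 4 ≤ 1 := pow_le_one₀ he0.le he1
  have hlD : 0 ≤ lam * D := mul_nonneg hl hD.le
  have hrhra : rh ≤ ra := by
    refine cl_mono n ?_
    nlinarith
  have hrh : rh ≤ 1 := hrhra.trans hra
  set Q : (V → ℝ) → ℝ := fun J => qf Bm J / 2 with hQ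
  have hdom : H239.Dom2 (Rs μ) Q := h.dom
  set x : (I → ℝ) → V → ℝ := fun g => X *ᵥ g with hx
  set z : (I → ℝ) → V → ℝ := fun g => Z *ᵥ g with hz
  have mx : Measurable x := H552.meas_mulVec X
  have mz : Measurable z := H552.meas_mulVec Z
  have hray : ∀ (τ : ℝ) (g : I → ℝ), x g + τ • z g = (X + τ • Z) *ᵥ g := fun τ g =>
    (C2.ray_mulVec X Z τ g).symm
  set A : Set (I → ℝ) := {g | (X + (1 : ℝ) • Z) *ᵥ g ∈ Gs μ n (lam * (16 * D))} ∩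
    {g | (e • Z) *ᵥ g ∈ Gs μ n (lam * (e ^ 4 * D))} with hAdef
  have mGs : ∀ (Y : Matrix V I ℝ) (b : ℝ), MeasurableSet {g : I → ℝ | Y *ᵥ g ∈ Gs μ n b} :=
    fun Y b => (h.Gs_meas n b).preimage (H552.meas_mulVec Y)
  have hA : MeasurableSet A := (mGs _ _).inter (mGs _ _)
  have hK16 : K4S μ ((X + (1 : ℝ) • Z) * (X + (1 : ℝ) • Z)ᵀ)
      ((X + (1 : ℝ) • Z) * (X + (1 : ℝ) • Z)ᵀ) ≤ 16 * D := by
    have h1 := K4S_psd h.em h.ev h.pk (psd_gram (X + (1 : ℝ) • Z))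
      (psd_ray hXZ (by norm_num : (1 : ℝ) ≤ 4) (τ := 1) (by norm_num))
    rw [K4S_smul2] at h1
    nlinarith
  have hKe : K4S μ ((e • Z) * (e • Z)ᵀ) ((e • Z) * (e • Z)ᵀ) ≤ e ^ 4 * D := by
    have h1 := K4S_psd h.em h.ev h.pk (psd_gram (e • Z))
      (psd_ray_z hXZ (sq_nonneg e) (le_refl (e ^ 2)))
    rw [K4S_smul2] at h1
    have : (e ^ 2) ^ 2 = e ^ 4 := by ring
    rw [this] at h1
    exact h1.trans (mul_le_mul_of_nonneg_left hKD (by positivity))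
  have hps : (((2 : ℝ) ^ 2) • ((X + Z) * (X + Z)ᵀ) -
      (X + (1 : ℝ) • Z) * (X + (1 : ℝ) • Z)ᵀ).PosSemidef := by
    have e4 : ((2 : ℝ) ^ 2) = 4 := by norm_num
    rw [e4]
    exact psd_ray hXZ (by norm_num) (by norm_num)
  have hpz : (((2 : ℝ) ^ 2) • ((X + Z) * (X + Z)ᵀ) - (e • Z) * (e • Z)ᵀ).PosSemidef :=
    psd_ray_z hXZ (by norm_num) (he2.trans (by norm_num))
  have hPA : (gau I).real Aᶜ ≤ β := by
    have hsub : Aᶜ ⊆ {g | (X + (1 : ℝ) • Z) *ᵥ g ∉ Gs μ n (lam * (16 * D))} ∪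
        {g | (e • Z) *ᵥ g ∉ Gs μ n (lam * (e ^ 4 * D))} := by
      rw [hAdef, Set.compl_inter]
      exact Set.Subset.rfl
    have b1 := h.prob4 hps (D := 16 * D) (by positivity) hl hK16 hp
    have b4 := h.prob4 hpz (D := e ^ 4 * D) (by positivity) hl hKe hp
    refine (measureReal_mono hsub).trans ?_
    refine (measureReal_union_le _ _).trans ?_
    linarith
  have e16 : 8 * (lam * (16 * D)) = 128 * (lam * D) := by ring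
  have hAR : ∀ ω ∈ A, Rs μ (x ω + (1 : ℝ) • z ω) ≤ 1 ∧
      H239.TR (Rs μ) (x ω + (1 : ℝ) • z ω) ≤ ra := by
    intro ω hω
    rw [hray]
    obtain ⟨a1, -, a3⟩ := h.Gs_good hω.1
    rw [e16] at a3
    exact ⟨a1, a3⟩
  have hAh : ∀ ω ∈ A, Rs μ (e • z ω) ≤ rh ∧ H239.TR (Rs μ) (e • z ω) ≤ rh := by
    intro ω hω
    obtain ⟨-, a2, a3⟩ := h.Gs_good hω.2
    rw [Matrix.smul_mulVec] at a2 a3
    exact ⟨a2, a3⟩
  have hpr : ∀ Y : Matrix V I ℝ, (((2 : ℝ) ^ 2) • ((X + Z) * (X + Z)ᵀ) - Y * Yᵀ).PosSemidef →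
      H447.pr Bm (Y * Yᵀ) ≤ 4 * q := by
    intro Y hYp
    have h1 := pr_psd h.qf_nonneg hYp
    rw [H447.pr_smul] at h1
    linarith
  have hq4 : 0 < 4 * q := by linarith
  have key := hdom.ray_second (P := gau I) (x := x) (z := z) mx mz (Q_int Bm X) (Q_int Bm Z)
    (e := e) hA hra0 hra hrh0 hrh hAR hAh
  refine key.trans ?_
  have t5 : ∫ ω in Aᶜ, Q (x ω + (1 : ℝ) • z ω) ∂(gau I) ≤ 6 * (4 * q) * √β := by
    simp only [hray]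
    exact h.Q_set _ hq4 (hpr _ hps) hA.compl hPA
  have t6 : ∫ ω in Aᶜ, Q (e • z ω) ∂(gau I) ≤ 6 * (4 * q) * √β := by
    have : ∀ ω, e • z ω = (e • Z) *ᵥ ω := fun ω => (Matrix.smul_mulVec _ _ _).symm
    simp only [this]
    exact h.Q_set _ hq4 (hpr _ hpz) hA.compl hPA
  linarith only [t5, t6]

/-! ### the mean mixed difference -/

/-- integral of a mixed difference over a Gaussian law, good and bad part -/
theorem md_int (h : Maj μ Bm) (hQ : FQ μ Bm Qm) {S : Matrix V V ℝ} {G : Set (V → ℝ)}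
    {pG q β ε : ℝ} (hG : GP G S pG) (hq : 0 < q) (hqS : H447.pr Bm S ≤ q) (hε0 : 0 ≤ ε)
    {M0 Ma Mb : Matrix V J ℝ} (h00 : ((4 : ℝ) • S - M0 * M0ᵀ).PosSemidef)
    (h10 : ((4 : ℝ) • S - (M0 + Ma) * (M0 + Ma)ᵀ).PosSemidef)
    (h01 : ((4 : ℝ) • S - (M0 + Mb) * (M0 + Mb)ᵀ).PosSemidef)
    (h11 : ((4 : ℝ) • S - (M0 + Ma + Mb) * (M0 + Ma + Mb)ᵀ).PosSemidef)
    {T : Set (J → ℝ)} (hT : MeasurableSet T) {pT : ℝ} (hpT : (gau J).real Tᶜ ≤ pT)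
    (hβ : 4 * pG + pT ≤ β)
    (hloc : ∀ g ∈ T, M0 *ᵥ g ∈ G → (M0 + Ma) *ᵥ g ∈ G → (M0 + Mb) *ᵥ g ∈ G →
      (M0 + Ma + Mb) *ᵥ g ∈ G →
      |md (lq μ Qm) (M0 *ᵥ g) (Ma *ᵥ g) (Mb *ᵥ g)| ≤ ε) :
    Integrable (fun g : J → ℝ => md (lq μ Qm) (M0 *ᵥ g) (Ma *ᵥ g) (Mb *ᵥ g)) (gau J) ∧
    |∫ g, md (lq μ Qm) (M0 *ᵥ g) (Ma *ᵥ g) (Mb *ᵥ g) ∂(gau J)| ≤ ε + 192 * (q * √β) := by
  have hC := c2g_lq h.em h.gt hQ.sym
  have v1 : ∀ g : J → ℝ, M0 *ᵥ g + Ma *ᵥ g = (M0 + Ma) *ᵥ g := fun g => (add_mulVec _ _ _).symm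
  have v2 : ∀ g : J → ℝ, M0 *ᵥ g + Mb *ᵥ g = (M0 + Mb) *ᵥ g := fun g => (add_mulVec _ _ _).symm
  have v3 : ∀ g : J → ℝ, M0 *ᵥ g + Ma *ᵥ g + Mb *ᵥ g = (M0 + Ma + Mb) *ᵥ g := fun g => by
    rw [add_mulVec, add_mulVec]
  have hmd : (fun g : J → ℝ => md (lq μ Qm) (M0 *ᵥ g) (Ma *ᵥ g) (Mb *ᵥ g)) =
      fun g => lq μ Qm ((M0 + Ma + Mb) *ᵥ g) - lq μ Qm ((M0 + Ma) *ᵥ g) -
        lq μ Qm ((M0 + Mb) *ᵥ g) + lq μ Qm (M0 *ᵥ g) := by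
    funext g
    unfold md
    rw [v3, v1, v2]
  have eM : EGr fun g : J → ℝ => md (lq μ Qm) (M0 *ᵥ g) (Ma *ᵥ g) (Mb *ᵥ g) := by
    rw [hmd]
    exact (((egr_mv hC.g0 _).sub (egr_mv hC.g0 _)).sub (egr_mv hC.g0 _)).add (egr_mv hC.g0 _)
  refine ⟨egr_integrable eM, ?_⟩
  -- the good set
  set H : Matrix V J ℝ → Set (J → ℝ) := fun Z => {g | Z *ᵥ g ∈ G} with hH
  set Gd : Set (J → ℝ) := T ∩ ((H M0 ∩ H (M0 + Ma)) ∩ (H (M0 + Mb) ∩ H (M0 + Ma + Mb))) with hGd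
  have mH : ∀ Z, MeasurableSet (H Z) := fun Z => hG.meas.preimage (H552.meas_mulVec Z)
  have mGd : MeasurableSet Gd := hT.inter (((mH _).inter (mH _)).inter ((mH _).inter (mH _)))
  have hP : (gau J).real Gdᶜ ≤ β := by
    have u := fun (s t : Set (J → ℝ)) => measureReal_union_le (μ := gau J) s t
    have k1 : (gau J).real (H M0)ᶜ ≤ pG := hG.real _ h00
    have k2 : (gau J).real (H (M0 + Ma))ᶜ ≤ pG := hG.real _ h10
    have k3 : (gau J).real (H (M0 + Mb))ᶜ ≤ pG := hG.real _ h01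
    have k4 : (gau J).real (H (M0 + Ma + Mb))ᶜ ≤ pG := hG.real _ h11
    rw [hGd, Set.compl_inter, Set.compl_inter (H M0 ∩ H (M0 + Ma)), Set.compl_inter (H M0),
      Set.compl_inter (H (M0 + Mb))]
    have u1 := u Tᶜ (((H M0)ᶜ ∪ (H (M0 + Ma))ᶜ) ∪ ((H (M0 + Mb))ᶜ ∪ (H (M0 + Ma + Mb))ᶜ))
    have u3 := u ((H M0)ᶜ ∪ (H (M0 + Ma))ᶜ) ((H (M0 + Mb))ᶜ ∪ (H (M0 + Ma + Mb))ᶜ)
    have u4 := u (H M0)ᶜ (H (M0 + Ma))ᶜ
    have u5 := u (H (M0 + Mb))ᶜ (H (M0 + Ma + Mb))ᶜ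
    linarith
  have hpr : ∀ Y : Matrix V J ℝ, ((4 : ℝ) • S - Y * Yᵀ).PosSemidef →
      H447.pr Bm (Y * Yᵀ) ≤ 4 * q := by
    intro Y hY
    have h1 := pr_psd h.qf_nonneg hY
    rw [H447.pr_smul] at h1
    linarith
  have hq4 : 0 < 4 * q := by linarith
  have iQ : ∀ Y : Matrix V J ℝ, Integrable (fun g : J → ℝ => qf Bm (Y *ᵥ g)) (gau J) := fun Y =>
    int_egr (egr_mat (egr_qf Bm) Y)
  have hQs : ∀ Y : Matrix V J ℝ, ((4 : ℝ) • S - Y * Yᵀ).PosSemidef →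
      ∫ g in Gdᶜ, qf Bm (Y *ᵥ g) ∂(gau J) ≤ 48 * (q * √β) := by
    intro Y hY
    have h1 := h.Q_set Y hq4 (hpr Y hY) mGd.compl hP
    rw [integral_div] at h1
    linarith
  refine abs_integral_le_integral_abs.trans ?_
  have iA := (egr_integrable eM).abs
  rw [← integral_add_compl mGd iA]
  refine add_le_add ?_ ?_
  · refine (setIntegral_mono_on iA.integrableOn (integrable_const ε).integrableOn mGd
      fun g hg => hloc g hg.1 hg.2.1.1 hg.2.1.2 hg.2.2.1 hg.2.2.2).trans ?_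
    rw [setIntegral_const, smul_eq_mul]
    have h5 : (gau J).real Gd ≤ 1 := measureReal_le_one
    nlinarith
  · have h1 : ∫ g in Gdᶜ, |md (lq μ Qm) (M0 *ᵥ g) (Ma *ᵥ g) (Mb *ᵥ g)| ∂(gau J) ≤
        ∫ g in Gdᶜ, (qf Bm ((M0 + Ma + Mb) *ᵥ g) + qf Bm ((M0 + Ma) *ᵥ g) +
          qf Bm ((M0 + Mb) *ᵥ g) + qf Bm (M0 *ᵥ g)) ∂(gau J) := by
      refine setIntegral_mono iA.integrableOn
        ((((iQ _).add (iQ _)).add (iQ _)).add (iQ _)).integrableOn fun g => ?_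
      have h2 := md_crude h hQ (M0 *ᵥ g) (Ma *ᵥ g) (Mb *ᵥ g)
      rw [v3, v1, v2] at h2
      exact h2
    refine h1.trans ?_
    have j1 : Integrable (fun g : J → ℝ => qf Bm ((M0 + Ma + Mb) *ᵥ g) +
        qf Bm ((M0 + Ma) *ᵥ g)) (gau J) := (iQ _).add (iQ _)
    have j2 : Integrable (fun g : J → ℝ => qf Bm ((M0 + Ma + Mb) *ᵥ g) +
        qf Bm ((M0 + Ma) *ᵥ g) + qf Bm ((M0 + Mb) *ᵥ g)) (gau J) := j1.add (iQ _)
    rw [integral_add j2.integrableOn (iQ _).integrableOn,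
      integral_add j1.integrableOn (iQ _).integrableOn,
      integral_add (iQ _).integrableOn (iQ _).integrableOn]
    have a1 := hQs _ h11
    have a2 := hQs _ h10
    have a3 := hQs _ h01
    have a4 := hQs _ h00
    linarith

/-! ### the two rays -/

section mats

variable [DecidableEq K]

/-- `g ↦ τ g¹ + s g²` -/
def Mk (V K : Type*) [DecidableEq K] (τ s : ℝ) : Matrix K (V ⊕ (K ⊕ K)) ℝ :=
  fromCols 0 (fromCols (τ • (1 : Matrix K K ℝ)) (s • (1 : Matrix K K ℝ)))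

/-- the base field `y` -/
def FM0 (K : Type*) (Y : Matrix V V ℝ) : Matrix V (V ⊕ (K ⊕ K)) ℝ := fromCols Y 0

/-- `ζ₋`, plus the base field -/
def FX (Y : Matrix V V ℝ) (Zw Z' : Matrix V K ℝ) : Matrix V (V ⊕ (K ⊕ K)) ℝ :=
  fromCols Y (fromCols 0 (Zw - Z'))

/-- `ζ₊` -/
def FZ (Zw Z' : Matrix V K ℝ) : Matrix V (V ⊕ (K ⊕ K)) ℝ :=
  fromCols 0 (fromCols (Zw + Z') 0)

omit [Fintype V] in
lemma mul_Mk (Zw : Matrix V K ℝ) (τ s : ℝ) :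
    Zw * Mk V K τ s = fromCols 0 (fromCols (τ • Zw) (s • Zw)) := by
  unfold Mk
  rw [Matrix.mul_fromCols, Matrix.mul_fromCols, Matrix.mul_zero, Matrix.mul_smul,
    Matrix.mul_smul, Matrix.mul_one]

omit [Fintype V] [Fintype K] [DecidableEq K] in
lemma fromCols_add' {A A' : Matrix V V ℝ} {B B' : Matrix V (K ⊕ K) ℝ} :
    fromCols A B + fromCols A' B' = fromCols (A + A') (B + B') := by
  ext i (j | j) <;> simp

omit [Fintype V] [Fintype K] [DecidableEq K] in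
lemma fromCols_addK {A A' B B' : Matrix V K ℝ} :
    fromCols A B + fromCols A' B' = fromCols (A + A') (B + B') := by
  ext i (j | j) <;> simp

omit [Fintype V] [Fintype K] [DecidableEq K] in
lemma fromCols_smul' (c : ℝ) {A : Matrix V V ℝ} {B : Matrix V (K ⊕ K) ℝ} :
    c • fromCols A B = fromCols (c • A) (c • B) := by
  ext i (j | j) <;> simp

omit [Fintype V] [Fintype K] [DecidableEq K] in
lemma fromCols_smulK (c : ℝ) {A B : Matrix V K ℝ} :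
    c • fromCols A B = fromCols (c • A) (c • B) := by
  ext i (j | j) <;> simp

omit [Fintype V] in
lemma FX_FZ (Y : Matrix V V ℝ) (Zw Z' : Matrix V K ℝ) (τ : ℝ) :
    FX Y Zw Z' + τ • FZ Zw Z' = FM0 K Y + Zw * Mk V K τ 1 + Z' * Mk V K τ (-1) := by
  rw [mul_Mk, mul_Mk]
  unfold FX FZ FM0
  have e0 : (0 : Matrix V (K ⊕ K) ℝ) = fromCols 0 0 := by
    ext i (j | j) <;> simp
  rw [fromCols_smul', fromCols_smulK, e0, fromCols_add', fromCols_add', fromCols_add',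
    fromCols_addK, fromCols_addK, fromCols_addK]
  congr 1
  · simp
  · congr 1
    · simp [smul_add]
    · simp [sub_eq_add_neg]

omit [DecidableEq K] in
lemma cov_cols (A A' : Matrix V V ℝ) (B B' : Matrix V (K ⊕ K) ℝ) :
    fromCols A B * (fromCols A' B')ᵀ = A * A'ᵀ + B * B'ᵀ := by
  rw [Matrix.transpose_fromCols, Matrix.fromCols_mul_fromRows]

omit [Fintype V] [DecidableEq K] in
lemma cov_colsK (A A' B B' : Matrix V K ℝ) :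
    fromCols A B * (fromCols A' B')ᵀ = A * A'ᵀ + B * B'ᵀ := by
  rw [Matrix.transpose_fromCols, Matrix.fromCols_mul_fromRows]

omit [DecidableEq K] in
lemma FX_orth (Y : Matrix V V ℝ) (Zw Z' : Matrix V K ℝ) : FX Y Zw Z' * (FZ Zw Z')ᵀ = 0 := by
  classical
  unfold FX FZ
  rw [cov_cols, cov_colsK, Matrix.transpose_zero, Matrix.mul_zero, Matrix.zero_mul,
    Matrix.transpose_zero, Matrix.mul_zero, add_zero, add_zero]

omit [DecidableEq K] in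
lemma FZ_cov (Zw Z' : Matrix V K ℝ) : FZ Zw Z' * (FZ Zw Z')ᵀ = (Zw + Z') * (Zw + Z')ᵀ := by
  classical
  unfold FZ
  rw [cov_cols, cov_colsK, Matrix.zero_mul, Matrix.zero_mul, zero_add, add_zero]

omit [DecidableEq K] in
lemma FXZ_cov (Y : Matrix V V ℝ) (Zw Z' : Matrix V K ℝ) :
    (FX Y Zw Z' + FZ Zw Z') * (FX Y Zw Z' + FZ Zw Z')ᵀ =
      Y * Yᵀ + (2 : ℝ) • (Zw * Zwᵀ + Z' * Z'ᵀ) := by
  classical
  have h1 : FX Y Zw Z' + FZ Zw Z' = fromCols Y (fromCols (Zw + Z') (Zw - Z')) := by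
    unfold FX FZ
    rw [fromCols_add', fromCols_addK, add_zero, zero_add, add_zero]
  rw [h1, cov_cols, cov_colsK]
  simp only [Matrix.transpose_add, Matrix.transpose_sub, Matrix.add_mul, Matrix.mul_add,
    Matrix.sub_mul, Matrix.mul_sub, two_smul]
  abel

/-- covariance of a base field plus far fields -/
lemma cov_three (Y : Matrix V V ℝ) (A : Matrix V K ℝ) (τ s : ℝ) :
    (FM0 K Y + A * Mk V K τ s) * (FM0 K Y + A * Mk V K τ s)ᵀ =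
      Y * Yᵀ + (τ ^ 2 + s ^ 2) • (A * Aᵀ) := by
  have h1 : FM0 K Y + A * Mk V K τ s = fromCols Y (fromCols (τ • A) (s • A)) := by
    unfold FM0
    rw [mul_Mk, fromCols_add', add_zero, zero_add]
  rw [h1, cov_cols, cov_colsK]
  simp only [Matrix.transpose_smul, Matrix.smul_mul, Matrix.mul_smul, smul_smul]
  rw [← add_smul, pow_two, pow_two]

/-- size of the coordinates -/
lemma Mk_sq (τ s : ℝ) (g : V ⊕ (K ⊕ K) → ℝ) (k : K) :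
    (Mk V K τ s *ᵥ g) k = τ * g (Sum.inr (Sum.inl k)) + s * g (Sum.inr (Sum.inr k)) := by
  simp only [Mk, Matrix.mulVec, dotProduct, Fintype.sum_sum_type, fromCols_apply_inl,
    fromCols_apply_inr, Matrix.zero_apply, zero_mul, Finset.sum_const_zero, zero_add,
    Matrix.smul_apply, Matrix.one_apply, smul_eq_mul]
  simp

lemma Mk_tail {τ s : ℝ} (hτ : τ ^ 2 ≤ 4) (hs : s ^ 2 = 1) (Λ : ℝ) :
    (gau (V ⊕ (K ⊕ K))).real {g | ∑ k, (Mk V K τ s *ᵥ g) k ^ 2 < Λ}ᶜ ≤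
      Real.exp ((Fintype.card K : ℝ) / 2 - Λ / 20) := by
  classical
  have hqf : ∀ g : V ⊕ (K ⊕ K) → ℝ, qf ((Mk V K τ s)ᵀ * Mk V K τ s) g =
      ∑ k, (Mk V K τ s *ᵥ g) k ^ 2 := fun g => qf_gram _ g
  have h1 := gau_tail' (I := V ⊕ (K ⊕ K)) (Kq := (Mk V K τ s)ᵀ * Mk V K τ s)
    (by rw [Matrix.transpose_mul, Matrix.transpose_transpose])
    (fun x => by rw [hqf]; exact Finset.sum_nonneg fun _ _ => sq_nonneg _)
    (lam := 1 / 10) (by norm_num) (fun x => by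
      rw [hqf, Finset.mul_sum, Finset.mul_sum]
      have h2 : ∑ k, 1 / 10 * (Mk V K τ s *ᵥ x) k ^ 2 ≤
          ∑ k : K, (1 / 2 * x (Sum.inr (Sum.inl k)) ^ 2 + 1 / 2 * x (Sum.inr (Sum.inr k)) ^ 2) := by
        refine Finset.sum_le_sum fun k _ => ?_
        rw [Mk_sq]
        set u := x (Sum.inr (Sum.inl k))
        set v := x (Sum.inr (Sum.inr k))
        have h3 : (τ * u + s * v) ^ 2 ≤ (τ ^ 2 + s ^ 2) * (u ^ 2 + v ^ 2) := by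
          nlinarith [sq_nonneg (τ * v - s * u)]
        have h4 : (τ ^ 2 + s ^ 2) * (u ^ 2 + v ^ 2) ≤ 5 * (u ^ 2 + v ^ 2) :=
          mul_le_mul_of_nonneg_right (by linarith) (by positivity)
        linarith
      refine h2.trans ?_
      rw [Finset.sum_add_distrib, Fintype.sum_sum_type, Fintype.sum_sum_type]
      have h5 : 0 ≤ ∑ x_1 : V, 1 / 2 * x (Sum.inl x_1) ^ 2 :=
        Finset.sum_nonneg fun _ _ => by positivity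
      linarith) Λ
  have e1 : {g : V ⊕ (K ⊕ K) → ℝ | ∑ k, (Mk V K τ s *ᵥ g) k ^ 2 < Λ}ᶜ =
      {g | Λ ≤ qf ((Mk V K τ s)ᵀ * Mk V K τ s) g} := by
    ext g
    simp only [Set.mem_compl_iff, Set.mem_ofPred_eq, not_lt, hqf]
  rw [e1]
  refine h1.trans (Real.exp_le_exp.2 ?_)
  have e2 : trace ((Mk V K τ s)ᵀ * Mk V K τ s) = (τ ^ 2 + s ^ 2) * Fintype.card K := by
    rw [Matrix.trace_mul_comm]
    have : Mk V K τ s * (Mk V K τ s)ᵀ = (τ ^ 2 + s ^ 2) • (1 : Matrix K K ℝ) := by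
      unfold Mk
      rw [Matrix.transpose_fromCols, Matrix.fromCols_mul_fromRows, Matrix.transpose_fromCols,
        Matrix.fromCols_mul_fromRows]
      simp only [Matrix.zero_mul, zero_add, Matrix.transpose_smul, Matrix.transpose_one,
        Matrix.smul_mul, Matrix.mul_smul, Matrix.one_mul, smul_smul]
      rw [← add_smul, pow_two, pow_two]
    rw [this, Matrix.trace_smul, Matrix.trace_one, smul_eq_mul]
  rw [e2]
  have hc : (0 : ℝ) ≤ Fintype.card K := Nat.cast_nonneg _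
  nlinarith

end mats

/-! ### the difference of the two rays -/

section flip

variable [DecidableEq K]

lemma md_Rs (hQs : Qmᵀ = Qm) (F v v' : V → ℝ) :
    md (Rs μ) F v v' = md (lq μ Qm) F v v' + (bf Qm v v' - bf (Gm μ) v v') := by
  have h1 := md_qf (Gm_symm μ) F v v'
  have h2 := md_lq (μ := μ) hQs F v v'
  have h3 : md (Rs μ) F v v' = md (Lg μ) F v v' - md (fun J => qf (Gm μ) J / 2) F v v' := by
    simp only [md, Rs]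
    ring
  rw [h3, h1, h2]
  ring

/-- the part which does not depend on the base field -/
def kap0 (μ : (V → ℤ) → ℝ) (Qm : Matrix V V ℝ) (Zw Z' : Matrix V K ℝ) (τ : ℝ) : ℝ :=
  ∑ x, ∑ y, (Qm x y - Gm μ x y) * ((Zw * Mk V K τ 1) * (Z' * Mk V K τ (-1))ᵀ) x y

lemma kap0_neg (Zw Z' : Matrix V K ℝ) (τ : ℝ) : kap0 μ Qm Zw (-Z') τ = -kap0 μ Qm Zw Z' τ := by
  unfold kap0
  rw [← Finset.sum_neg_distrib]
  refine Finset.sum_congr rfl fun x _ => ?_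
  rw [← Finset.sum_neg_distrib]
  refine Finset.sum_congr rfl fun y _ => ?_
  rw [Matrix.neg_mul, Matrix.transpose_neg, Matrix.mul_neg, Matrix.neg_apply]
  ring

/-- the ray at the fourth vertex in terms of the mixed difference -/
lemma ray_md (h : Maj μ Bm) (hQ : FQ μ Bm Qm) (Y : Matrix V V ℝ) (Zw Z' : Matrix V K ℝ) (τ : ℝ) :
    ∫ g, Rs μ ((FX Y Zw Z' + τ • FZ Zw Z') *ᵥ g) ∂(gau (V ⊕ (K ⊕ K))) =
      ∫ g, md (lq μ Qm) (FM0 K Y *ᵥ g) ((Zw * Mk V K τ 1) *ᵥ g) ((Z' * Mk V K τ (-1)) *ᵥ g)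
        ∂(gau (V ⊕ (K ⊕ K))) + kap0 μ Qm Zw Z' τ +
      ∫ g, Rs μ ((FM0 K Y + Zw * Mk V K τ 1) *ᵥ g) ∂(gau (V ⊕ (K ⊕ K))) +
      ∫ g, Rs μ ((FM0 K Y + Z' * Mk V K τ (-1)) *ᵥ g) ∂(gau (V ⊕ (K ⊕ K))) -
      ∫ g, Rs μ (FM0 K Y *ᵥ g) ∂(gau (V ⊕ (K ⊕ K))) := by
  rw [FX_FZ]
  set M0 := FM0 K Y with hM0
  set Ma := Zw * Mk V K τ 1 with hMa
  set Mb := Z' * Mk V K τ (-1) with hMb
  have eR := egr_Rs h.em h.gt
  have iR : ∀ M : Matrix V (V ⊕ (K ⊕ K)) ℝ, Integrable (fun g => Rs μ (M *ᵥ g))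
      (gau (V ⊕ (K ⊕ K))) := fun M => int_egr (egr_mat eR M)
  have hC := c2g_lq h.em h.gt hQ.sym
  have v1 : ∀ g, M0 *ᵥ g + Ma *ᵥ g = (M0 + Ma) *ᵥ g := fun g => (add_mulVec _ _ _).symm
  have v2 : ∀ g, M0 *ᵥ g + Mb *ᵥ g = (M0 + Mb) *ᵥ g := fun g => (add_mulVec _ _ _).symm
  have v3 : ∀ g, M0 *ᵥ g + Ma *ᵥ g + Mb *ᵥ g = (M0 + Ma + Mb) *ᵥ g := fun g => by
    rw [add_mulVec, add_mulVec]
  have iL : ∀ M : Matrix V (V ⊕ (K ⊕ K)) ℝ, Integrable (fun g => lq μ Qm (M *ᵥ g))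
      (gau (V ⊕ (K ⊕ K))) := fun M => int_egr (egr_mat hC.g0 M)
  have iM : Integrable (fun g => md (lq μ Qm) (M0 *ᵥ g) (Ma *ᵥ g) (Mb *ᵥ g))
      (gau (V ⊕ (K ⊕ K))) := by
    have e : (fun g => md (lq μ Qm) (M0 *ᵥ g) (Ma *ᵥ g) (Mb *ᵥ g)) =
        fun g => lq μ Qm ((M0 + Ma + Mb) *ᵥ g) - lq μ Qm ((M0 + Ma) *ᵥ g) -
          lq μ Qm ((M0 + Mb) *ᵥ g) + lq μ Qm (M0 *ᵥ g) := by
      funext g
      unfold md
      rw [v3, v1, v2]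
    rw [e]
    exact (((iL _).sub (iL _)).sub (iL _)).add (iL _)
  have eB : EGr fun g : V ⊕ (K ⊕ K) → ℝ => bf (Qm - Gm μ) (Ma *ᵥ g) (Mb *ᵥ g) := by
    unfold bf
    refine egr_sum _ fun x _ => egr_sum _ fun y _ => ?_
    exact ((egr_mv (egr_coord x) Ma).mul (EGr.const _)).mul (egr_mv (egr_coord y) Mb)
  have iB := egr_integrable eB
  have hk : ∫ g, bf (Qm - Gm μ) (Ma *ᵥ g) (Mb *ᵥ g) ∂(gau (V ⊕ (K ⊕ K))) =
      kap0 μ Qm Zw Z' τ := by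
    rw [H239.int_bf]
    rfl
  have hp : ∀ g, Rs μ ((M0 + Ma + Mb) *ᵥ g) = ((md (lq μ Qm) (M0 *ᵥ g) (Ma *ᵥ g) (Mb *ᵥ g) +
      bf (Qm - Gm μ) (Ma *ᵥ g) (Mb *ᵥ g)) + Rs μ ((M0 + Ma) *ᵥ g) +
      Rs μ ((M0 + Mb) *ᵥ g)) - Rs μ (M0 *ᵥ g) := by
    intro g
    have h1 := md_Rs (μ := μ) hQ.sym (M0 *ᵥ g) (Ma *ᵥ g) (Mb *ᵥ g)
    have h2 : bf (Qm - Gm μ) (Ma *ᵥ g) (Mb *ᵥ g) = bf Qm (Ma *ᵥ g) (Mb *ᵥ g) -
        bf (Gm μ) (Ma *ᵥ g) (Mb *ᵥ g) := by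
      unfold bf
      rw [← Finset.sum_sub_distrib]
      refine Finset.sum_congr rfl fun x _ => ?_
      rw [← Finset.sum_sub_distrib]
      exact Finset.sum_congr rfl fun y _ => by rw [Matrix.sub_apply]; ring
    have h3 : md (Rs μ) (M0 *ᵥ g) (Ma *ᵥ g) (Mb *ᵥ g) = Rs μ ((M0 + Ma + Mb) *ᵥ g) -
        Rs μ ((M0 + Ma) *ᵥ g) - Rs μ ((M0 + Mb) *ᵥ g) + Rs μ (M0 *ᵥ g) := by
      unfold md
      rw [v3, v1, v2]
    rw [h2]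
    linarith
  simp only [hp]
  have j1 : Integrable (fun g => md (lq μ Qm) (M0 *ᵥ g) (Ma *ᵥ g) (Mb *ᵥ g) +
      bf (Qm - Gm μ) (Ma *ᵥ g) (Mb *ᵥ g)) (gau (V ⊕ (K ⊕ K))) := iM.add iB
  have j2 : Integrable (fun g => (md (lq μ Qm) (M0 *ᵥ g) (Ma *ᵥ g) (Mb *ᵥ g) +
      bf (Qm - Gm μ) (Ma *ᵥ g) (Mb *ᵥ g)) + Rs μ ((M0 + Ma) *ᵥ g)) (gau (V ⊕ (K ⊕ K))) :=
    j1.add (iR _)
  have j3 : Integrable (fun g => (md (lq μ Qm) (M0 *ᵥ g) (Ma *ᵥ g) (Mb *ᵥ g) +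
      bf (Qm - Gm μ) (Ma *ᵥ g) (Mb *ᵥ g)) + Rs μ ((M0 + Ma) *ᵥ g) + Rs μ ((M0 + Mb) *ᵥ g))
      (gau (V ⊕ (K ⊕ K))) := j2.add (iR _)
  rw [integral_sub j3 (iR _), integral_add j2 (iR _), integral_add j1 (iR _),
    integral_add iM iB, hk]

/-- the law of `y + b` is the law of `y - b` -/
lemma ray_symm (h : Maj μ Bm) (Y : Matrix V V ℝ) (Z' : Matrix V K ℝ) (τ : ℝ) :
    ∫ g, Rs μ ((FM0 K Y + (-Z') * Mk V K τ (-1)) *ᵥ g) ∂(gau (V ⊕ (K ⊕ K))) =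
      ∫ g, Rs μ ((FM0 K Y + Z' * Mk V K τ (-1)) *ᵥ g) ∂(gau (V ⊕ (K ⊕ K))) := by
  refine H363.law_integral_eq _ _ ?_ (Rs μ) h.mR.stronglyMeasurable
  rw [cov_three, cov_three, Matrix.transpose_neg, Matrix.neg_mul, Matrix.mul_neg, neg_neg]

/-- locality in the letters of the two blocks of columns -/
def FLK (μ : (V → ℤ) → ℝ) (Zw Z' : Matrix V K ℝ) (G : Set (V → ℝ)) (Qm : Matrix V V ℝ)
    (Λ ε : ℝ) : Prop :=
  ∀ (F : V → ℝ) (k k' : K → ℝ), ∑ i, k i ^ 2 ≤ Λ → ∑ i, k' i ^ 2 ≤ Λ → F ∈ G →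
    F + Zw *ᵥ k ∈ G → F + Z' *ᵥ k' ∈ G → F + Zw *ᵥ k + Z' *ᵥ k' ∈ G →
    |md (Lg μ) F (Zw *ᵥ k) (Z' *ᵥ k') - bf Qm (Zw *ᵥ k) (Z' *ᵥ k')| ≤ ε

omit [DecidableEq K] in
lemma FLK.neg {Zw Z' : Matrix V K ℝ} {G : Set (V → ℝ)} {Λ ε : ℝ}
    (hL : FLK μ Zw Z' G Qm Λ ε) : FLK μ Zw (-Z') G Qm Λ ε := by
  intro F k k' hk hk' h1 h2 h3 h4
  have e : (-Z') *ᵥ k' = Z' *ᵥ (-k') := by rw [neg_mulVec, mulVec_neg]
  rw [e] at h3 h4 ⊢
  exact hL F k (-k') hk (by simpa using hk') h1 h2 h3 h4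

/-- one law in the letters of the contraction -/
structure LW (μ : (V → ℤ) → ℝ) (Bm S : Matrix V V ℝ) (G : Set (V → ℝ)) (n : ℕ)
    (D p pG q : ℝ) : Prop where
  k4 : K4S μ S S ≤ D
  pr : ∀ A : Matrix V V ℝ, A * Aᵀ = S →
    (gau V).real {g | 1 < Rs μ ((2 : ℝ) ^ (n + 2) • (A *ᵥ g))} ≤ p
  gp : GP G S pG
  q : H447.pr Bm S ≤ q

omit [DecidableEq K] in
lemma LW.real (h : Maj μ Bm) {G : Set (V → ℝ)} {n : ℕ} {D p pG q : ℝ}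
    (L : LW μ Bm S G n D p pG q) (A : Matrix V I ℝ) (hA : A * Aᵀ = S) :
    (gau I).real {g | 1 < Rs μ ((2 : ℝ) ^ (n + 2) • (A *ᵥ g))} ≤ p := by
  classical
  obtain ⟨A0, hA0⟩ := exists_increment (psd_gram A)
  have h1 := L.pr A0 (by rw [← hA0, hA])
  have h2 := law_real hA0 (h.U_meas ((2 : ℝ) ^ (n + 2)))
  exact (le_of_eq h2).trans h1

/-- the error of the mean mixed differences and of the second differences -/
def s2 (n : ℕ) (D e lam q β : ℝ) : ℝ :=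
  20 * (√(cl n (128 * (lam * D))) * √(cl n (8 * (lam * (e ^ 4 * D))))) +
    2 * cl n (8 * (lam * (e ^ 4 * D))) + 144 * (q * √β)

/-- one law: the difference of the two rays -/
theorem delta_le (h : Maj μ Bm) (hQ : FQ μ Bm Qm) {Y S : Matrix V V ℝ} {Zw Z' : Matrix V K ℝ}
    {G : Set (V → ℝ)} {n : ℕ} {D p pG q β Λ ε : ℝ} (L : LW μ Bm S G n D p pG q)
    (hY : Y * Yᵀ + (2 : ℝ) • (Zw * Zwᵀ + Z' * Z'ᵀ) = S) (hq : 0 < q) (hε0 : 0 ≤ ε)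
    (hβ : 4 * pG + 2 * Real.exp ((Fintype.card K : ℝ) / 2 - Λ / 20) ≤ β)
    (hL : FLK μ Zw Z' G Qm Λ ε) {τ : ℝ} (hτ : τ ^ 2 ≤ 4) :
    |ray (gau (V ⊕ (K ⊕ K))) (Rs μ) (fun g => FX Y Zw Z' *ᵥ g) (fun g => FZ Zw Z' *ᵥ g) τ -
      ray (gau (V ⊕ (K ⊕ K))) (Rs μ) (fun g => FX Y Zw (-Z') *ᵥ g)
        (fun g => FZ Zw (-Z') *ᵥ g) τ - 2 * kap0 μ Qm Zw Z' τ| ≤
      2 * (ε + 192 * (q * √β)) := by
  rw [ray_eq, ray_eq, ray_md h hQ, ray_md h hQ, ray_symm h, kap0_neg]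
  have hone : ((-1 : ℝ)) ^ 2 = 1 := by norm_num
  -- covariances of the vertices
  have hcov : ∀ Z1 : Matrix V K ℝ, Z1 * Z1ᵀ = Z' * Z'ᵀ →
      |∫ g, md (lq μ Qm) (FM0 K Y *ᵥ g) ((Zw * Mk V K τ 1) *ᵥ g) ((Z1 * Mk V K τ (-1)) *ᵥ g)
        ∂(gau (V ⊕ (K ⊕ K)))| ≤ ε + 192 * (q * √β) ∨ ¬FLK μ Zw Z1 G Qm Λ ε := by
    intro Z1 hZ1
    by_cases hL1 : FLK μ Zw Z1 G Qm Λ ε
    · left
      have p1 := psd_gram Y
      have p2 := psd_gram Zw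
      have p3 := psd_gram Z1
      have e00 : FM0 K Y * (FM0 K Y)ᵀ = Y * Yᵀ := by
        unfold FM0
        rw [cov_cols, Matrix.zero_mul, add_zero]
      set T : Set (V ⊕ (K ⊕ K) → ℝ) := {g | ∑ k, (Mk V K τ 1 *ᵥ g) k ^ 2 < Λ} ∩
        {g | ∑ k, (Mk V K τ (-1) *ᵥ g) k ^ 2 < Λ} with hTdef
      have mT1 : ∀ s : ℝ, MeasurableSet {g : V ⊕ (K ⊕ K) → ℝ |
          ∑ k, (Mk V K τ s *ᵥ g) k ^ 2 < Λ} := fun s =>
        measurableSet_lt (Finset.measurable_sum _ fun k _ =>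
          (((measurable_pi_apply k).comp (H552.meas_mulVec (Mk V K τ s))).pow_const 2))
          measurable_const
      have hT : MeasurableSet T := (mT1 1).inter (mT1 (-1))
      have hpT : (gau (V ⊕ (K ⊕ K))).real Tᶜ ≤
          2 * Real.exp ((Fintype.card K : ℝ) / 2 - Λ / 20) := by
        rw [hTdef, Set.compl_inter]
        have u1 := measureReal_union_le (μ := gau (V ⊕ (K ⊕ K)))
          ({g | ∑ k, (Mk V K τ 1 *ᵥ g) k ^ 2 < Λ}ᶜ) ({g | ∑ k, (Mk V K τ (-1) *ᵥ g) k ^ 2 < Λ}ᶜ)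
        have u2 := Mk_tail (V := V) (K := K) hτ (s := 1) (by norm_num) Λ
        have u3 := Mk_tail (V := V) (K := K) hτ (s := -1) (by norm_num) Λ
        linarith
      refine (md_int h hQ (S := S) L.gp hq L.q hε0 (M0 := FM0 K Y) (Ma := Zw * Mk V K τ 1)
        (Mb := Z1 * Mk V K τ (-1)) ?_ ?_ ?_ ?_ hT hpT hβ ?_).2
      · rw [e00, ← hY, ← hZ1]
        have e : (4 : ℝ) • (Y * Yᵀ + (2 : ℝ) • (Zw * Zwᵀ + Z1 * Z1ᵀ)) - Y * Yᵀ =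
            (3 : ℝ) • (Y * Yᵀ) + ((8 : ℝ) • (Zw * Zwᵀ) + (8 : ℝ) • (Z1 * Z1ᵀ)) := by
          module
        rw [e]
        exact (p1.smul (by norm_num)).add ((p2.smul (by norm_num)).add (p3.smul (by norm_num)))
      · rw [cov_three, ← hY, ← hZ1]
        have e : (4 : ℝ) • (Y * Yᵀ + (2 : ℝ) • (Zw * Zwᵀ + Z1 * Z1ᵀ)) -
            (Y * Yᵀ + (τ ^ 2 + 1 ^ 2) • (Zw * Zwᵀ)) =
            (3 : ℝ) • (Y * Yᵀ) + ((7 - τ ^ 2) • (Zw * Zwᵀ) + (8 : ℝ) • (Z1 * Z1ᵀ)) := by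
          module
        rw [e]
        exact (p1.smul (by norm_num)).add ((p2.smul (by linarith)).add (p3.smul (by norm_num)))
      · rw [cov_three, ← hY, ← hZ1]
        have e : (4 : ℝ) • (Y * Yᵀ + (2 : ℝ) • (Zw * Zwᵀ + Z1 * Z1ᵀ)) -
            (Y * Yᵀ + (τ ^ 2 + (-1) ^ 2) • (Z1 * Z1ᵀ)) =
            (3 : ℝ) • (Y * Yᵀ) + ((8 : ℝ) • (Zw * Zwᵀ) + (7 - τ ^ 2) • (Z1 * Z1ᵀ)) := by
          module
        rw [e]
        exact (p1.smul (by norm_num)).add ((p2.smul (by norm_num)).add (p3.smul (by linarith)))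
      · have hps := psd_ray (FX_orth Y Zw Z1) (τ := τ) (c := 4) (by norm_num) hτ
        rw [FXZ_cov, FX_FZ] at hps
        rw [← hY, ← hZ1]
        exact hps
      · intro g hg h1 h2 h3 h4
        rw [md_lq hQ.sym]
        rw [add_mulVec, ← mulVec_mulVec] at h2 h3
        rw [add_mulVec, add_mulVec, ← mulVec_mulVec, ← mulVec_mulVec] at h4
        rw [← mulVec_mulVec, ← mulVec_mulVec]
        exact hL1 _ _ _ (le_of_lt hg.1) (le_of_lt hg.2) h1 h2 h3 h4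
    · right
      exact hL1
  have h1 := (hcov Z' rfl).resolve_right (not_not.2 hL)
  have h2 := (hcov (-Z') (by rw [Matrix.transpose_neg, Matrix.neg_mul, Matrix.mul_neg,
    neg_neg])).resolve_right (not_not.2 hL.neg)
  rw [abs_le] at h1 h2 ⊢
  constructor
  · linarith [h1.1, h2.2]
  · linarith [h1.2, h2.1]

/-- **FT, sign flip form of the trace**: `Z_w`, `Z'` the two blocks of columns, both laws dominate
`2 (Z_w Z_wᵀ + Z' Z'ᵀ)` -/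
theorem far_flip (h : Maj μ Bm) (hQ : FQ μ Bm Qm) {A' : Matrix V I ℝ} {A'' : Matrix V J ℝ}
    {Zw Z' : Matrix V K ℝ} {G : Set (V → ℝ)} {n : ℕ} {D e lam p pG q β Λ ε : ℝ}
    (L' : LW μ Bm (A' * A'ᵀ) G n D p pG q) (L'' : LW μ Bm (A'' * A''ᵀ) G n D p pG q)
    (hS' : (A' * A'ᵀ - (2 : ℝ) • (Zw * Zwᵀ + Z' * Z'ᵀ)).PosSemidef)
    (hS'' : (A'' * A''ᵀ - (2 : ℝ) • (Zw * Zwᵀ + Z' * Z'ᵀ)).PosSemidef)
    (he0 : 0 < e) (he1 : e ≤ 1) (hD : 0 < D) (hl : 0 ≤ lam) (hq : 0 < q) (hε0 : 0 ≤ ε)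
    (hra : cl n (128 * (lam * D)) ≤ 1)
    (hβ1 : 4 * p + 12 * Real.exp (-(√lam / 10)) ≤ β)
    (hβ2 : 4 * pG + 2 * Real.exp ((Fintype.card K : ℝ) / 2 - Λ / 20) ≤ β)
    (hL : FLK μ Zw Z' G Qm Λ ε) :
    |(∫ g, H447.pr (NR μ (A'' *ᵥ g)) ((Zw + Z') * (Zw + Z')ᵀ) ∂(gau J) -
        ∫ g, H447.pr (NR μ (A' *ᵥ g)) ((Zw + Z') * (Zw + Z')ᵀ) ∂(gau I)) -
      (∫ g, H447.pr (NR μ (A'' *ᵥ g)) ((Zw - Z') * (Zw - Z')ᵀ) ∂(gau J) -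
        ∫ g, H447.pr (NR μ (A' *ᵥ g)) ((Zw - Z') * (Zw - Z')ᵀ) ∂(gau I))| ≤
      (8 * (ε + 192 * (q * √β)) + 2 * s2 n D e lam q β) / e := by
  classical
  obtain ⟨Y', hY'⟩ := exists_increment hS'
  obtain ⟨Y'', hY''⟩ := exists_increment hS''
  have hc' : Y' * Y'ᵀ + (2 : ℝ) • (Zw * Zwᵀ + Z' * Z'ᵀ) = A' * A'ᵀ := by
    rw [← hY', sub_add_cancel]
  have hc'' : Y'' * Y''ᵀ + (2 : ℝ) • (Zw * Zwᵀ + Z' * Z'ᵀ) = A'' * A''ᵀ := by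
    rw [← hY'', sub_add_cancel]
  have hneg : (-Z') * (-Z')ᵀ = Z' * Z'ᵀ := by
    rw [Matrix.transpose_neg, Matrix.neg_mul, Matrix.mul_neg, neg_neg]
  -- one ray
  have hcx := H789.Rs_convex h.em h.ev h.pk
  have conv : ∀ (Y : Matrix V V ℝ) (Z1 : Matrix V K ℝ), ConvexOn ℝ Set.univ
      (ray (gau (V ⊕ (K ⊕ K))) (Rs μ) (fun g => FX Y Zw Z1 *ᵥ g) (fun g => FZ Zw Z1 *ᵥ g)) :=
    fun Y Z1 => h.dom.ray_convex (P := gau (V ⊕ (K ⊕ K))) hcx (H552.meas_mulVec _)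
      (H552.meas_mulVec _) (Q_int Bm _) (Q_int Bm _)
  have der : ∀ (Y : Matrix V V ℝ) (Z1 : Matrix V K ℝ), HasDerivAt
      (ray (gau (V ⊕ (K ⊕ K))) (Rs μ) (fun g => FX Y Zw Z1 *ᵥ g) (fun g => FZ Zw Z1 *ᵥ g))
      (∫ g, H447.pr (NR μ ((FX Y Zw Z1 + FZ Zw Z1) *ᵥ g)) (FZ Zw Z1 * (FZ Zw Z1)ᵀ)
        ∂(gau (V ⊕ (K ⊕ K)))) 1 := fun Y Z1 => h.d_ray (FX_orth Y Zw Z1)
  have hN : ∀ T : Matrix V V ℝ, StronglyMeasurable fun F : V → ℝ => H447.pr (NR μ F) T :=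
    fun T => (H447.egr_pr (C2.Rs h.em h.gt).e2 T).meas.stronglyMeasurable
  have law' : ∀ (Z1 : Matrix V K ℝ), Z1 * Z1ᵀ = Z' * Z'ᵀ →
      ∫ g, H447.pr (NR μ ((FX Y' Zw Z1 + FZ Zw Z1) *ᵥ g)) (FZ Zw Z1 * (FZ Zw Z1)ᵀ)
        ∂(gau (V ⊕ (K ⊕ K))) =
      ∫ g, H447.pr (NR μ (A' *ᵥ g)) ((Zw + Z1) * (Zw + Z1)ᵀ) ∂(gau I) := by
    intro Z1 hZ1
    rw [FZ_cov]
    exact H363.law_integral_eq _ A' (by rw [FXZ_cov, hZ1, hc']) (fun F => H447.pr (NR μ F) _)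
      (hN _)
  have law'' : ∀ (Z1 : Matrix V K ℝ), Z1 * Z1ᵀ = Z' * Z'ᵀ →
      ∫ g, H447.pr (NR μ ((FX Y'' Zw Z1 + FZ Zw Z1) *ᵥ g)) (FZ Zw Z1 * (FZ Zw Z1)ᵀ)
        ∂(gau (V ⊕ (K ⊕ K))) =
      ∫ g, H447.pr (NR μ (A'' *ᵥ g)) ((Zw + Z1) * (Zw + Z1)ᵀ) ∂(gau J) := by
    intro Z1 hZ1
    rw [FZ_cov]
    exact H363.law_integral_eq _ A'' (by rw [FXZ_cov, hZ1, hc'']) (fun F => H447.pr (NR μ F) _)
      (hN _)
  have sec' : ∀ (Z1 : Matrix V K ℝ), Z1 * Z1ᵀ = Z' * Z'ᵀ →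
      ray (gau (V ⊕ (K ⊕ K))) (Rs μ) (fun g => FX Y' Zw Z1 *ᵥ g) (fun g => FZ Zw Z1 *ᵥ g) (1 + e) +
      ray (gau (V ⊕ (K ⊕ K))) (Rs μ) (fun g => FX Y' Zw Z1 *ᵥ g) (fun g => FZ Zw Z1 *ᵥ g) (1 - e) -
      2 * ray (gau (V ⊕ (K ⊕ K))) (Rs μ) (fun g => FX Y' Zw Z1 *ᵥ g)
        (fun g => FZ Zw Z1 *ᵥ g) 1 ≤ s2 n D e lam q β := by
    intro Z1 hZ1
    have e1 : (FX Y' Zw Z1 + FZ Zw Z1) * (FX Y' Zw Z1 + FZ Zw Z1)ᵀ = A' * A'ᵀ := by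
      rw [FXZ_cov, hZ1, hc']
    exact second_XZ h (FX_orth Y' Zw Z1) (n := n) (D := D) (lam := lam) (p := p) (β := β) (q := q)
      he0 he1 hD hl hq (by rw [e1]; exact L'.k4) hra (L'.real h _ e1) hβ1
      (by rw [e1]; exact L'.q)
  have sec'' : ∀ (Z1 : Matrix V K ℝ), Z1 * Z1ᵀ = Z' * Z'ᵀ →
      ray (gau (V ⊕ (K ⊕ K))) (Rs μ) (fun g => FX Y'' Zw Z1 *ᵥ g) (fun g => FZ Zw Z1 *ᵥ g)
        (1 + e) +
      ray (gau (V ⊕ (K ⊕ K))) (Rs μ) (fun g => FX Y'' Zw Z1 *ᵥ g) (fun g => FZ Zw Z1 *ᵥ g)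
        (1 - e) -
      2 * ray (gau (V ⊕ (K ⊕ K))) (Rs μ) (fun g => FX Y'' Zw Z1 *ᵥ g)
        (fun g => FZ Zw Z1 *ᵥ g) 1 ≤ s2 n D e lam q β := by
    intro Z1 hZ1
    have e1 : (FX Y'' Zw Z1 + FZ Zw Z1) * (FX Y'' Zw Z1 + FZ Zw Z1)ᵀ = A'' * A''ᵀ := by
      rw [FXZ_cov, hZ1, hc'']
    exact second_XZ h (FX_orth Y'' Zw Z1) (n := n) (D := D) (lam := lam) (p := p) (β := β) (q := q)
      he0 he1 hD hl hq (by rw [e1]; exact L''.k4) hra (L''.real h _ e1) hβ1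
      (by rw [e1]; exact L''.q)
  -- the comparison of the slopes
  have c1 := (conv Y' Z').add (conv Y'' (-Z'))
  have c2 := (conv Y'' Z').add (conv Y' (-Z'))
  have d1 := (der Y' Z').add (der Y'' (-Z'))
  have d2 := (der Y'' Z').add (der Y' (-Z'))
  have hd : ∀ τ : ℝ, τ ^ 2 ≤ 4 →
      |(ray (gau (V ⊕ (K ⊕ K))) (Rs μ) (fun g => FX Y'' Zw Z' *ᵥ g) (fun g => FZ Zw Z' *ᵥ g) +
          ray (gau (V ⊕ (K ⊕ K))) (Rs μ) (fun g => FX Y' Zw (-Z') *ᵥ g)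
            (fun g => FZ Zw (-Z') *ᵥ g)) τ -
        (ray (gau (V ⊕ (K ⊕ K))) (Rs μ) (fun g => FX Y' Zw Z' *ᵥ g) (fun g => FZ Zw Z' *ᵥ g) +
          ray (gau (V ⊕ (K ⊕ K))) (Rs μ) (fun g => FX Y'' Zw (-Z') *ᵥ g)
            (fun g => FZ Zw (-Z') *ᵥ g)) τ - 0| ≤ 4 * (ε + 192 * (q * √β)) := by
    intro τ hτ
    have a1 := abs_le.1 (delta_le h hQ L' hc' hq hε0 hβ2 hL hτ)
    have a2 := abs_le.1 (delta_le h hQ L'' hc'' hq hε0 hβ2 hL hτ)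
    simp only [Pi.add_apply, sub_zero]
    rw [abs_le]
    constructor
    · linarith [a1.2, a2.1]
    · linarith [a1.1, a2.2]
  have hτ2 : (1 + e) ^ 2 ≤ 4 := by nlinarith
  have hτ3 : (1 - e) ^ 2 ≤ 4 := by nlinarith
  have key := H239.cvx_slope c1 c2 he0 d1 d2 (hd 1 (by norm_num)) (hd (1 + e) hτ2)
    (hd (1 - e) hτ3) (S := 2 * s2 n D e lam q β) (by
      have b1 := sec' Z' rfl
      have b2 := sec'' (-Z') hneg
      simp only [Pi.add_apply]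
      linarith)
  rw [law' Z' rfl, law' (-Z') hneg, law'' Z' rfl, law'' (-Z') hneg] at key
  have e2 : (2 * (4 * (ε + 192 * (q * √β))) + 2 * s2 n D e lam q β) / e =
      (8 * (ε + 192 * (q * √β)) + 2 * s2 n D e lam q β) / e := by ring
  rw [e2] at key
  refine le_trans (le_of_eq ?_) key
  simp only [sub_eq_add_neg]
  congr 1
  ring

end flip

end

end Vale.Agent.P159.H43
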