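import Vale.Agent.P159.H43.Far3

/-!
P159 / GLUE P_up, FAR part (helper43), part 4: the sign flip form in cell letters
(`C : cells → sources`, `B` a contraction with rows in two far sets of cells).
-/

namespace Vale.Agent.P159.H43

open Finset Matrix MeasureTheory ProbabilityTheory
open Vale.Agent.P159.TM.H104 (EM Ex Cv K3 Lg li nh Gr)
open Vale.Agent.P159.H37
open Vale.Agent.P159.H159
open Vale.Agent.P159.H708
open Vale.Agent.P159.H239 (exists_increment egr_mv ray)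
open Vale.Agent.P159.H447 (Maj NR int_egr egr_mat law_real psd_gram K4S Gs cl cl_nonneg cl_mono)

noncomputable section

section mat

variable {W : Type*} [Fintype W] {K : Type*} [Fintype K]

lemma psd_of_qf {M : Matrix W W ℝ} (hs : Mᵀ = M) (h : ∀ u, 0 ≤ qf M u) : M.PosSemidef := by
  refine Matrix.posSemidef_iff_dotProduct_mulVec.2 ⟨?_, fun u => ?_⟩
  · unfold Matrix.IsHermitian
    rw [Matrix.conjTranspose_eq_transpose_of_trivial]
    exact hs
  · rw [star_trivial, ← qf_eq]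
    exact h u

lemma qf_gramW (Y : Matrix W K ℝ) (v : W → ℝ) : qf (Y * Yᵀ) v = ∑ k, (Yᵀ *ᵥ v) k ^ 2 := by
  have h := qf_gram Yᵀ v
  rwa [Matrix.transpose_transpose] at h

/-- a contraction does not increase the norm -/
lemma ct_mulVec {B : Matrix W K ℝ} (hB : Ct B) (k : K → ℝ) :
    ∑ x, (B *ᵥ k) x ^ 2 ≤ ∑ i, k i ^ 2 := by
  have h1 := hB (B *ᵥ k)
  rw [qf_gramW] at h1
  set s := ∑ x, (B *ᵥ k) x ^ 2 with hs
  have h2 : s = ∑ i, k i * (Bᵀ *ᵥ (B *ᵥ k)) i := by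
    have e1 : s = (B *ᵥ k) ⬝ᵥ (B *ᵥ k) := by
      rw [hs]
      simp only [dotProduct, pow_two]
    have e2 : (B *ᵥ k) ⬝ᵥ (B *ᵥ k) = (Bᵀ *ᵥ (B *ᵥ k)) ⬝ᵥ k := by
      rw [Matrix.dotProduct_mulVec, Matrix.mulVec_transpose]
    rw [e1, e2, dotProduct_comm]
    rfl
  have h3 : s ^ 2 ≤ (∑ i, k i ^ 2) * ∑ i, (Bᵀ *ᵥ (B *ᵥ k)) i ^ 2 := by
    rw [h2]
    exact Finset.sum_mul_sq_le_sq_mul_sq _ _ _
  have h4 : 0 ≤ ∑ i, k i ^ 2 := Finset.sum_nonneg fun _ _ => sq_nonneg _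
  have h5 : 0 ≤ s := Finset.sum_nonneg fun _ _ => sq_nonneg _
  have h6 : s ^ 2 ≤ (∑ i, k i ^ 2) * s := h3.trans (mul_le_mul_of_nonneg_left h1 h4)
  rcases h5.eq_or_lt with h7 | h7
  · rw [← h7]
    exact h4
  · nlinarith

variable [DecidableEq W] (P P' : W → Prop) [DecidablePred P] [DecidablePred P']

/-- the rows in `P` -/
def rP (B : Matrix W K ℝ) : Matrix W K ℝ := rw' (fun x => if P x then 1 else 0) B

omit [Fintype W] [Fintype K] [DecidableEq W] in
lemma rP_apply (B : Matrix W K ℝ) (x : W) (j : K) :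
    rP P B x j = if P x then B x j else 0 := by
  have e : rP P B x j = (if P x then 1 else 0) * B x j := rfl
  rw [e]
  by_cases h : P x
  · rw [if_pos h, if_pos h, one_mul]
  · rw [if_neg h, if_neg h, zero_mul]

omit [DecidableEq W] in
lemma rP_ct {B : Matrix W K ℝ} (hB : Ct B) : Ct (rP P B) := hB.row fun x => by
  split_ifs <;> simp

omit [Fintype W] [Fintype K] [DecidableEq W] in
variable {P P'} in
lemma rP_add {B : Matrix W K ℝ} (hd : ∀ x, P x → ¬P' x)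
    (hs : ∀ x j, B x j ≠ 0 → P x ∨ P' x) : rP P B + rP P' B = B := by
  ext x j
  rw [Matrix.add_apply, rP_apply, rP_apply]
  by_cases h1 : P x
  · rw [if_pos h1, if_neg (hd x h1), add_zero]
  · by_cases h2 : P' x
    · rw [if_neg h1, if_pos h2, zero_add]
    · rw [if_neg h1, if_neg h2, add_zero]
      by_contra hc
      rcases hs x j (Ne.symm hc) with h | h
      · exact h1 h
      · exact h2 h

omit [Fintype W] [Fintype K] [DecidableEq W] in
variable {P P'} in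
lemma rP_sub {B : Matrix W K ℝ} (hd : ∀ x, P x → ¬P' x)
    (hs : ∀ x j, B x j ≠ 0 → P x ∨ P' x) :
    rP P B - rP P' B = rw' (fun x => if P' x then -1 else 1) B := by
  ext x j
  have e : rw' (fun x => if P' x then -1 else 1) B x j = (if P' x then -1 else 1) * B x j := rfl
  rw [Matrix.sub_apply, rP_apply, rP_apply, e]
  by_cases h1 : P x
  · rw [if_pos h1, if_neg (hd x h1), if_neg (hd x h1)]
    ring
  · by_cases h2 : P' x
    · rw [if_neg h1, if_pos h2, if_pos h2]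
      ring
    · rw [if_neg h1, if_neg h2, if_neg h2]
      have : B x j = 0 := by
        by_contra hc
        rcases hs x j hc with h | h
        · exact h1 h
        · exact h2 h
      rw [this]
      ring

variable {P P'} in
/-- the two diagonal blocks of a contraction -/
lemma rP_psd {B : Matrix W K ℝ} (hB : Ct B) (hd : ∀ x, P x → ¬P' x) :
    ((1 : Matrix W W ℝ) - (rP P B * (rP P B)ᵀ + rP P' B * (rP P' B)ᵀ)).PosSemidef := by
  refine psd_of_qf ?_ fun u => ?_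
  · simp only [Matrix.transpose_sub, Matrix.transpose_add, Matrix.transpose_mul,
      Matrix.transpose_transpose, Matrix.transpose_one]
  · have hq : ∀ (e : W → ℝ), qf (rw' e B * (rw' e B)ᵀ) u = qf (B * Bᵀ) fun x => e x * u x := by
      intro e
      unfold qf
      refine Finset.sum_congr rfl fun x _ => Finset.sum_congr rfl fun y _ => ?_
      rw [rw'_mul_tr]
      ring
    have h1 := hB fun x => (if P x then 1 else 0) * u x
    have h2 := hB fun x => (if P' x then 1 else 0) * u x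
    have h3 : qf ((1 : Matrix W W ℝ) - (rP P B * (rP P B)ᵀ + rP P' B * (rP P' B)ᵀ)) u =
        ∑ x, u x ^ 2 - (qf (rP P B * (rP P B)ᵀ) u + qf (rP P' B * (rP P' B)ᵀ) u) := by
      rw [qf_eq, qf_eq, qf_eq, Matrix.sub_mulVec, Matrix.one_mulVec, Matrix.add_mulVec,
        dotProduct_sub, dotProduct_add]
      congr 1
      simp only [dotProduct, pow_two]
    rw [h3]
    unfold rP
    rw [hq, hq]
    have h4 : ∑ x, ((if P x then (1 : ℝ) else 0) * u x) ^ 2 +
        ∑ x, ((if P' x then (1 : ℝ) else 0) * u x) ^ 2 ≤ ∑ x, u x ^ 2 := by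
      rw [← Finset.sum_add_distrib]
      refine Finset.sum_le_sum fun x _ => ?_
      by_cases h5 : P x
      · rw [if_pos h5, if_neg (hd x h5)]
        nlinarith [sq_nonneg (u x)]
      · rw [if_neg h5]
        split_ifs
        · nlinarith [sq_nonneg (u x)]
        · nlinarith [sq_nonneg (u x)]
    linarith

end mat

section cells

variable {V : Type} [Fintype V] {μ : (V → ℤ) → ℝ} {Bm Qm : Matrix V V ℝ}
variable {W : Type*} [Fintype W] [DecidableEq W]
variable {I J K : Type*} [Fintype I] [Fintype J] [Fintype K] [DecidableEq K]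

omit [DecidableEq W] [DecidableEq K] in
/-- the fields `√κ C B k` -/
lemma FLK.of_FL {C : Matrix V W ℝ} {P P' : W → Prop} [DecidablePred P] [DecidablePred P']
    {G : Set (V → ℝ)} {κ Λ ε : ℝ} (hκ : 0 ≤ κ) (hL : FL μ C P P' G Qm (κ * Λ) ε)
    {B : Matrix W K ℝ} (hB : Ct B) :
    FLK μ (√κ • (C * rP P B)) (√κ • (C * rP P' B)) G Qm Λ ε := by
  intro F k k' hk hk' h1 h2 h3 h4
  have e : ∀ (D : Matrix W K ℝ) (k : K → ℝ), (√κ • (C * D)) *ᵥ k = C *ᵥ (√κ • (D *ᵥ k)) := by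
    intro D k
    rw [Matrix.smul_mulVec, Matrix.mulVec_smul, Matrix.mulVec_mulVec]
  have hn : ∀ (P : W → Prop) [DecidablePred P] (k : K → ℝ), ∑ i, k i ^ 2 ≤ Λ →
      ∑ x, (√κ • (rP P B *ᵥ k)) x ^ 2 ≤ κ * Λ := by
    intro P _ k hk
    have h5 := ct_mulVec (rP_ct P hB) k
    have h6 : ∑ x, (√κ • (rP P B *ᵥ k)) x ^ 2 = κ * ∑ x, (rP P B *ᵥ k) x ^ 2 := by
      rw [Finset.mul_sum]
      refine Finset.sum_congr rfl fun x _ => ?_
      rw [Pi.smul_apply, smul_eq_mul, mul_pow, Real.sq_sqrt hκ]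
    rw [h6]
    exact mul_le_mul_of_nonneg_left (h5.trans hk) hκ
  have hz : ∀ (P : W → Prop) [DecidablePred P] (k : K → ℝ) (x : W), ¬P x →
      (√κ • (rP P B *ᵥ k)) x = 0 := by
    intro P _ k x hx
    have : (rP P B *ᵥ k) x = 0 := by
      simp only [Matrix.mulVec, dotProduct]
      refine Finset.sum_eq_zero fun j _ => ?_
      rw [rP_apply, if_neg hx, zero_mul]
    rw [Pi.smul_apply, this, smul_zero]
  rw [e] at h2 h3 h4
  rw [e] at h4
  rw [e, e]
  exact hL F _ _ (hz P k) (hz P' k') (hn P k hk) (hn P' k' hk') h1 h2 h3 h4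

/-- **FT in cell letters** -/
theorem far_cells (h : Maj μ Bm) (hQ : FQ μ Bm Qm) {C : Matrix V W ℝ} {κ : ℝ} (hκ : 0 < κ)
    {A' : Matrix V I ℝ} {A'' : Matrix V J ℝ}
    (hS' : (A' * A'ᵀ - (2 * κ) • (C * Cᵀ)).PosSemidef)
    (hS'' : (A'' * A''ᵀ - (2 * κ) • (C * Cᵀ)).PosSemidef)
    {G : Set (V → ℝ)} {n : ℕ} {D e lam p pG q β Λ ε : ℝ}
    (L' : LW μ Bm (A' * A'ᵀ) G n D p pG q) (L'' : LW μ Bm (A'' * A''ᵀ) G n D p pG q)
    (he0 : 0 < e) (he1 : e ≤ 1) (hD : 0 < D) (hl : 0 ≤ lam) (hq : 0 < q) (hε0 : 0 ≤ ε)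
    (hra : cl n (128 * (lam * D)) ≤ 1)
    (hβ1 : 4 * p + 12 * Real.exp (-(√lam / 10)) ≤ β)
    (hβ2 : 4 * pG + 2 * Real.exp ((Fintype.card K : ℝ) / 2 - Λ / 20) ≤ β)
    {P P' : W → Prop} [DecidablePred P] [DecidablePred P'] (hd : ∀ x, P x → ¬P' x)
    (hL : FL μ C P P' G Qm (κ * Λ) ε) {B : Matrix W K ℝ} (hB : Ct B)
    (hs : ∀ x j, B x j ≠ 0 → P x ∨ P' x) :
    |(∫ g, H447.pr (NR μ (A'' *ᵥ g)) (C * (B * Bᵀ) * Cᵀ) ∂(gau J) -
        ∫ g, H447.pr (NR μ (A' *ᵥ g)) (C * (B * Bᵀ) * Cᵀ) ∂(gau I)) -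
      (∫ g, H447.pr (NR μ (A'' *ᵥ g)) (C * (rw' (fun x => if P' x then -1 else 1) B *
          (rw' (fun x => if P' x then -1 else 1) B)ᵀ) * Cᵀ) ∂(gau J) -
        ∫ g, H447.pr (NR μ (A' *ᵥ g)) (C * (rw' (fun x => if P' x then -1 else 1) B *
          (rw' (fun x => if P' x then -1 else 1) B)ᵀ) * Cᵀ) ∂(gau I))| ≤
      (8 * (ε + 192 * (q * √β)) + 2 * s2 n D e lam q β) / e / κ := by
  classical
  have hsq : √κ * √κ = κ := Real.mul_self_sqrt hκ.le
  set Zw : Matrix V K ℝ := √κ • (C * rP P B) with hZw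
  set Z' : Matrix V K ℝ := √κ • (C * rP P' B) with hZ'
  obtain ⟨R, hR⟩ := exists_increment (rP_psd hB hd)
  have hgr : ∀ D : Matrix W K ℝ, (√κ • (C * D)) * (√κ • (C * D))ᵀ = κ • (C * (D * Dᵀ) * Cᵀ) := by
    intro D
    rw [Matrix.transpose_smul, Matrix.smul_mul, Matrix.mul_smul, smul_smul, hsq,
      Matrix.transpose_mul, ← Matrix.mul_assoc, ← Matrix.mul_assoc]
  have hle : ∀ {M : Matrix V V ℝ}, (M - (2 * κ) • (C * Cᵀ)).PosSemidef →
      (M - (2 : ℝ) • (Zw * Zwᵀ + Z' * Z'ᵀ)).PosSemidef := by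
    intro M hM
    have e1 : M - (2 : ℝ) • (Zw * Zwᵀ + Z' * Z'ᵀ) =
        (M - (2 * κ) • (C * Cᵀ)) + (2 * κ) • ((C * R) * (C * R)ᵀ) := by
      have e2 : (C * R) * (C * R)ᵀ = C * Cᵀ -
          C * (rP P B * (rP P B)ᵀ + rP P' B * (rP P' B)ᵀ) * Cᵀ := by
        rw [Matrix.transpose_mul, Matrix.mul_assoc C R, ← Matrix.mul_assoc R, ← hR,
          Matrix.sub_mul, Matrix.one_mul, Matrix.mul_sub, ← Matrix.mul_assoc C]
      rw [e2, hZw, hZ', hgr, hgr, ← smul_add, ← Matrix.add_mul, ← Matrix.mul_add, smul_smul,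
        smul_sub]
      abel
    rw [e1]
    exact hM.add ((psd_gram _).smul (by positivity))
  have key := far_flip h hQ (Zw := Zw) (Z' := Z') L' L'' (hle hS') (hle hS'') he0 he1 hD hl hq
    hε0 hra hβ1 hβ2 (FLK.of_FL hκ.le hL hB)
  have ep : Zw + Z' = √κ • (C * B) := by
    rw [hZw, hZ', ← smul_add, ← Matrix.mul_add, rP_add hd hs]
  have em : Zw - Z' = √κ • (C * rw' (fun x => if P' x then -1 else 1) B) := by
    rw [hZw, hZ', ← smul_sub, ← Matrix.mul_sub, rP_sub hd hs]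
  rw [ep, em, hgr, hgr] at key
  simp only [H447.pr_smul, integral_const_mul] at key
  rw [le_div_iff₀ hκ]
  refine le_trans (le_of_eq ?_) key
  rw [← mul_sub, ← mul_sub, ← mul_sub, abs_mul, abs_of_pos hκ, mul_comm]

end cells

end

end Vale.Agent.P159.H43
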