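import Vale.Agent.P159.H43.Far4
import Vale.Agent.P159.H447.Cg9
import Vale.Agent.P159.H447.LawT
import Vale.Agent.P159.H612.Pu4
import Vale.Agent.P159.TM.H103.Back

/-!
P159 / GLUE P_up, FAR part (helper43), part 5: the torus instance of the locality hypothesis.

* `box1`, `far_sd` : two boxes at index distance `> K ≥ 5` have distance `≥ K L / 2`;
* `fq_nwt` : quadratic part `Bnwt`;
* `far_FL` : `FL` for two far boxes of cells from `pu4`.
-/

set_option linter.unusedSectionVars false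

namespace Vale.Agent.P159.H43

open Finset Matrix MeasureTheory ProbabilityTheory
open Vale.Agent.P159.TM.H104 (EM Ex Cv K3 Lg li nh Gr)
open Vale.Agent.P159.H37
open Vale.Agent.P159.H159 (Ct)
open Vale.Agent.P159.H145 (OscZ)
open Vale.Agent.P159.TM.Spec (V)
open Vale.Agent.P159.TM.SpecC (wT Tor)
open Vale.Agent.P159.TM.H859 (tn rep nz)
open Vale.Agent.P159.TM.H459 (sn sd)
open Vale.Agent.P159.H864 (cobV)
open Vale.Agent.P159.H963 (Neu nwt Pn)
open Vale.Agent.P159.H447 (Maj NR CN SN Bnwt maj_nwt E0 CN_apply CN_neu)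
open Vale.Agent.P159.H692 (cx)

noncomputable section

/-! ### geometry -/

section geo

variable {N nb L : ℕ} [NeZero N] [NeZero nb]

/-- index distance of boxes and distance of points, one coordinate -/
lemma box1 (hL : 0 < L) (hN : N = nb * L) (a b : ZMod N) :
    L * ((((b.val / L : ℕ) : ZMod nb) - ((a.val / L : ℕ) : ZMod nb)).valMinAbs.natAbs) ≤
      (b - a).valMinAbs.natAbs + L := by
  set d : ℤ := (b - a).valMinAbs with hd
  have hLz : (0 : ℤ) < L := by exact_mod_cast hL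
  -- `b.val = a.val + d + N j`
  obtain ⟨j, hj⟩ : ∃ j : ℤ, (b.val : ℤ) = a.val + d + N * j := by
    have h1 : (((b.val : ℤ) - (a.val + d) : ℤ) : ZMod N) = 0 := by
      push_cast
      rw [hd, ZMod.coe_valMinAbs, ZMod.natCast_zmod_val, ZMod.natCast_zmod_val]
      ring
    obtain ⟨j, hj⟩ := (ZMod.intCast_zmod_eq_zero_iff_dvd _ N).1 h1
    exact ⟨j, by linarith⟩
  have hNz : (N : ℤ) = L * nb := by rw [hN]; push_cast; ring
  -- difference of the indices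
  set q : ℤ := (a.val + d) / L - a.val / L with hq
  have e1 : ((((b.val / L : ℕ) : ZMod nb) - ((a.val / L : ℕ) : ZMod nb))) = ((q : ℤ) : ZMod nb) := by
    have e2 : ((b.val / L : ℕ) : ℤ) = (a.val + d) / L + nb * j := by
      push_cast
      rw [hj, hNz, mul_assoc, Int.add_mul_ediv_left _ _ hLz.ne']
    have e3 : ((b.val / L : ℕ) : ZMod nb) = (((a.val + d) / L + nb * j : ℤ) : ZMod nb) := by
      rw [← e2, Int.cast_natCast]
    have e4 : ((a.val / L : ℕ) : ZMod nb) = (((a.val : ℤ) / L : ℤ) : ZMod nb) := by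
      have : ((a.val / L : ℕ) : ℤ) = (a.val : ℤ) / L := by push_cast; rfl
      rw [← this, Int.cast_natCast]
    rw [e3, e4, hq]
    push_cast
    simp
  rw [e1]
  have h2 := TM.H103.vma_le (N := nb) q
  have h3 : (L : ℤ) * |q| ≤ |d| + L := by
    have a1 := Int.mul_ediv_add_emod (a.val + d : ℤ) L
    have a2 := Int.mul_ediv_add_emod (a.val : ℤ) L
    have a3 := Int.emod_nonneg (a.val + d : ℤ) hLz.ne'
    have a4 := Int.emod_lt_of_pos (a.val + d : ℤ) hLz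
    have a5 := Int.emod_nonneg (a.val : ℤ) hLz.ne'
    have a6 := Int.emod_lt_of_pos (a.val : ℤ) hLz
    have e5 : (L : ℤ) * q = d - (a.val + d : ℤ) % L + (a.val : ℤ) % L := by
      rw [hq, mul_sub]
      linarith
    rw [← abs_of_pos hLz, ← abs_mul, e5, abs_of_pos hLz, abs_le]
    have b1 := neg_abs_le d
    have b2 := le_abs_self d
    constructor <;> linarith
  have h4 : L * q.natAbs ≤ d.natAbs + L := by
    have : ((L * q.natAbs : ℕ) : ℤ) ≤ ((d.natAbs + L : ℕ) : ℤ) := by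
      push_cast
      exact h3
    exact_mod_cast this
  exact (Nat.mul_le_mul_left L h2).trans h4

/-- two boxes -/
lemma box_sn (hL : 0 < L) (hN : N = nb * L) (x z : V N) :
    L * sn ((((z.1.val / L : ℕ) : ZMod nb), ((z.2.val / L : ℕ) : ZMod nb)) -
      (((x.1.val / L : ℕ) : ZMod nb), ((x.2.val / L : ℕ) : ZMod nb))) ≤ sd x z + L := by
  have h1 := box1 hL hN x.1 z.1
  have h2 := box1 hL hN x.2 z.2
  unfold sd sn
  simp only [Prod.fst_sub, Prod.snd_sub]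
  rcases le_total ((((z.1.val / L : ℕ) : ZMod nb) - ((x.1.val / L : ℕ) : ZMod nb)).valMinAbs.natAbs)
    ((((z.2.val / L : ℕ) : ZMod nb) - ((x.2.val / L : ℕ) : ZMod nb)).valMinAbs.natAbs) with h | h
  · rw [max_eq_right h]
    exact h2.trans (Nat.add_le_add_right (le_max_right _ _) _)
  · rw [max_eq_left h]
    exact h1.trans (Nat.add_le_add_right (le_max_left _ _) _)

/-- Euclidean and sup norm -/
lemma tn_le_sn (w : V nb) : tn w ≤ √2 * sn w := by
  have h1 : ((rep w).1 : ℝ) ^ 2 ≤ (sn w : ℝ) ^ 2 := by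
    have h2 : |((rep w).1 : ℝ)| ≤ sn w := by
      have h3 : (rep w).1.natAbs ≤ sn w := le_max_left _ _
      have h4 : ((rep w).1.natAbs : ℝ) = |((rep w).1 : ℝ)| := by
        rw [Nat.cast_natAbs]
        push_cast
        rfl
      rw [← h4]
      exact_mod_cast h3
    rw [← sq_abs]
    exact pow_le_pow_left₀ (abs_nonneg _) h2 2
  have h1' : ((rep w).2 : ℝ) ^ 2 ≤ (sn w : ℝ) ^ 2 := by
    have h2 : |((rep w).2 : ℝ)| ≤ sn w := by
      have h3 : (rep w).2.natAbs ≤ sn w := le_max_right _ _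
      have h4 : ((rep w).2.natAbs : ℝ) = |((rep w).2 : ℝ)| := by
        rw [Nat.cast_natAbs]
        push_cast
        rfl
      rw [← h4]
      exact_mod_cast h3
    rw [← sq_abs]
    exact pow_le_pow_left₀ (abs_nonneg _) h2 2
  have h5 : tn w = √(((rep w).1 : ℝ) ^ 2 + ((rep w).2 : ℝ) ^ 2) := rfl
  rw [h5]
  refine Real.sqrt_le_iff.2 ⟨by positivity, ?_⟩
  rw [mul_pow, Real.sq_sqrt zero_le_two]
  linarith

variable {l m : ℕ} [NeZero (N / l)]

/-- the box of the cell of a site -/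
lemma cx_cl (hl : l ∣ N) (x : V N) : cx nb m (H864.cl x : V (N / l)) =
    (((x.1.val / (l * m) : ℕ) : ZMod nb), ((x.2.val / (l * m) : ℕ) : ZMod nb)) := by
  unfold cx
  have h1 : (H864.cl x : V (N / l)).1.val = x.1.val / l := H864.cl1_val hl x.1
  have h2 : (H864.cl x : V (N / l)).2.val = x.2.val / l := H864.cl1_val hl x.2
  rw [h1, h2, Nat.div_div_eq_div_mul, Nat.div_div_eq_div_mul]

/-- **far boxes**: distance of the sites -/
theorem far_sd (hl : l ∣ N) (hm : 0 < m) (hn : N / l = nb * m) {K : ℕ} (hK : 5 ≤ K) {w w' : V nb}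
    (hw : (K : ℝ) < tn (w' - w)) {x z : V N} (hx : cx nb m (H864.cl x : V (N / l)) = w)
    (hz : cx nb m (H864.cl z : V (N / l)) = w') :
    (K : ℝ) * (l * m) / 2 ≤ sd x z := by
  have l0 : 0 < l := H864.l_pos hl
  have hL : 0 < l * m := Nat.mul_pos l0 hm
  have hN : N = nb * (l * m) := by
    have h1 := Nat.div_mul_cancel hl
    rw [hn] at h1
    rw [← h1]
    ring
  have h1 := box_sn (nb := nb) hL hN x z
  rw [← cx_cl hl, ← cx_cl hl, hx, hz] at h1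
  have h2 : ((l * m : ℕ) : ℝ) * (sn (w' - w) : ℝ) ≤ sd x z + ((l * m : ℕ) : ℝ) := by
    exact_mod_cast h1
  have h3 := tn_le_sn (w' - w)
  have hLr : (0 : ℝ) < ((l * m : ℕ) : ℝ) := by exact_mod_cast hL
  have hs : √2 ≤ 10 / 7 := by
    rw [Real.sqrt_le_left (by norm_num)]
    norm_num
  have hK' : (5 : ℝ) ≤ K := by exact_mod_cast hK
  have hs0 : (0 : ℝ) ≤ sn (w' - w) := Nat.cast_nonneg _
  have h4 : (K : ℝ) < 10 / 7 * sn (w' - w) :=
    hw.trans_le (h3.trans (mul_le_mul_of_nonneg_right hs hs0))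
  have h5 : (K : ℝ) / 2 + 1 ≤ sn (w' - w) := by linarith
  have h6 := mul_le_mul_of_nonneg_left h5 hLr.le
  push_cast at h2 h6 hLr ⊢
  linarith

end geo

/-! ### the quadratic part -/

section quad

variable {N : ℕ} [NeZero N] {b T : ℝ}

lemma bnwt_eq (hT : 0 < T) (x₀ : V N) {u v : V N → ℝ} (hu : Neu u) (hv : Neu v) :
    bf (Bnwt N T x₀) u v = (∑ x, u x * v x) / T := by
  unfold Bnwt
  have h1 : bf ((E0 x₀)ᵀ * (T • (1 : Matrix (Tor N) (Tor N) ℝ))⁻¹ * E0 x₀) u v =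
      bf (T • (1 : Matrix (Tor N) (Tor N) ℝ))⁻¹ (E0 x₀ *ᵥ u) (E0 x₀ *ᵥ v) := by
    rw [bf_eq, bf_eq, ← Matrix.mulVec_mulVec, ← Matrix.mulVec_mulVec, Matrix.mulVec_transpose,
      dotProduct_comm, ← Matrix.dotProduct_mulVec, dotProduct_comm]
  rw [h1, H447.E0_of_neu x₀ hu, H447.E0_of_neu x₀ hv, H447.inv_smul_one hT, bf_eq,
    Matrix.smul_mulVec, Matrix.one_mulVec]
  simp only [dotProduct, Pi.smul_apply, smul_eq_mul]
  rw [Finset.sum_div]
  exact Finset.sum_congr rfl fun x _ => by field_simp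

/-- the majorant may be taken as quadratic part -/
theorem fq_of_maj {V : Type} [Fintype V] {μ : (V → ℤ) → ℝ} {Bm : Matrix V V ℝ}
    (h : Maj μ Bm) (hle : ∀ J, Lg μ J - Lg μ 0 ≤ qf Bm J / 2) : FQ μ Bm Bm := by
  refine ⟨h.symm, fun v => ?_⟩
  have h1 : 0 ≤ qf (Gm μ) v := H114.qf_Cm_nonneg h.em 0 v
  have h2 := h.Rs_nonneg v
  have h3 := hle v
  have h4 : qf (Gm μ) v ≤ qf Bm v := by
    unfold Rs at h2
    linarith
  rw [abs_le]
  constructor <;> linarith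

theorem fq_nwt (hb : 0 ≤ b) (hT : 0 < T) (x₀ : V N) :
    FQ (nwt N b T x₀) (Bnwt N T x₀) (Bnwt N T x₀) := by
  refine fq_of_maj (maj_nwt hb hT x₀) fun J => ?_
  have h1 := (H963.gw_wT hb).Lg_nM_le_inv (H963.mf_smul (N := N) hT) x₀ (H447.E0_neu x₀ J)
  rw [H447.Lg_E0] at h1
  have h2 : qf (Bnwt N T x₀) J = qf (T • (1 : Matrix (Tor N) (Tor N) ℝ))⁻¹ (E0 x₀ *ᵥ J) := by
    unfold Bnwt
    rw [← H447.qf_conj]
  rw [h2]
  unfold nwt
  linarith

end quad

/-! ### locality for two far boxes of cells -/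

section loc

variable {N l : ℕ} [NeZero N] [NeZero (N / l)] {b T : ℝ}

/-- the good set of the sources -/
def Gfar (N : ℕ) [NeZero N] (b T : ℝ) : Set (V N → ℝ) :=
  {F | Rs (nwt N b T 0) ((2 : ℝ) • F) ≤ 1} ∩ {F | ∑ x, (1 : ℝ) * F x = 0}

/-- the constant of a cell field -/
def kN (N l : ℕ) [NeZero N] [NeZero (N / l)] (f : V (N / l) → ℝ) : ℝ :=
  -∑ c, ((∑ y, cobV N l c y) / Fintype.card (V N)) * f c

lemma CN_mulVec (hl : l ∣ N) (f : V (N / l) → ℝ) (x : V N) :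
    ((CN N l)ᵀ *ᵥ f) x - kN N l f = (l : ℝ)⁻¹ * f (H864.cl x) := by
  have h1 : ((CN N l)ᵀ *ᵥ f) x = ∑ c, CN N l c x * f c := rfl
  rw [h1]
  simp only [CN_apply hl, sub_mul, Finset.sum_sub_distrib]
  unfold kN
  rw [sub_neg_eq_add, sub_add_cancel]
  simp only [H864.cobV_apply, ite_mul, zero_mul]
  rw [Finset.sum_ite_eq]
  simp

lemma sum_CN (hl : l ∣ N) (f : V (N / l) → ℝ) :
    ∑ x, (((CN N l)ᵀ *ᵥ f) x - kN N l f) ^ 2 = ∑ c, f c ^ 2 := by
  simp only [CN_mulVec hl]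
  have hl0 : (0 : ℝ) < l := by exact_mod_cast H864.l_pos hl
  have h1 : ∑ x : V N, ((l : ℝ)⁻¹ * f (H864.cl x)) ^ 2 =
      ∑ c : V (N / l), ∑ x ∈ univ.filter (fun x : V N => H864.cl x = c),
        ((l : ℝ)⁻¹ * f (H864.cl x)) ^ 2 := by
    rw [Finset.sum_fiberwise]
  rw [h1]
  refine Finset.sum_congr rfl fun c _ => ?_
  have h2 : ∑ x ∈ univ.filter (fun x : V N => H864.cl x = c),
      ((l : ℝ)⁻¹ * f (H864.cl x)) ^ 2 = ∑ x ∈ univ.filter (fun x : V N => H864.cl x = c),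
        ((l : ℝ)⁻¹ * f c) ^ 2 := by
    refine Finset.sum_congr rfl fun x hx => ?_
    rw [(Finset.mem_filter.1 hx).2]
  rw [h2, Finset.sum_const, nsmul_eq_mul, H864.card_cell hl c]
  field_simp

lemma neu_CN_mulVec (hl : l ∣ N) (f : V (N / l) → ℝ) : Neu ((CN N l)ᵀ *ᵥ f) := by
  unfold H963.Neu
  have h1 : ∀ x, ((CN N l)ᵀ *ᵥ f) x = ∑ c, CN N l c x * f c := fun x => rfl
  simp only [h1]
  rw [Finset.sum_comm]
  refine Finset.sum_eq_zero fun c _ => ?_
  rw [← Finset.sum_mul, show ∑ x, CN N l c x = 0 from CN_neu hl c, zero_mul]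

/-- **locality of the posterior for two far boxes of cells**, every real mass `T ≥ ξ⁻²` -/
theorem far_FL {b1 : ℝ} (hb1 : 0 < b1) (b2 a : ℝ) :
    ∃ W₀ : ℝ, ∃ c C ys : ℝ, ∃ X : ℕ, 0 < c ∧ 1 ≤ C ∧ 0 < ys ∧ 1 ≤ X ∧ ∀ W : ℝ, W₀ ≤ W →
    ∀ (N : ℕ) [NeZero N] (b : ℝ) (ξ : ℕ) (y : ℝ),
      TM.Spec.Rng b1 b2 a W ys X N b ξ y → (N : ℝ) * y ≤ c * ξ →
      ∀ (l : ℕ) [NeZero (N / l)] (nb m : ℕ) [NeZero nb] [NeZero m], l ∣ N → N / l = nb * m →
      ∀ (K : ℕ), 5 ≤ K → ∀ T : ℝ, 1 / (ξ : ℝ) ^ 2 ≤ T → ∀ ω : ℝ, ω ≤ 1 / 2 →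
        OscZ (wT b N) (T • (1 : Matrix (Tor N) (Tor N) ℝ)) ω → ∀ Λ : ℝ, 0 < Λ →
        ∀ w w' : V nb, (K : ℝ) < tn (w' - w) →
          FL (nwt N b T 0) (CN N l)ᵀ (fun x => cx nb m x = w) (fun x => cx nb m x = w')
            (Gfar N b T) (Bnwt N T 0) Λ
            (Real.exp ((1 + 16 * ω) / 2) * ((ξ : ℝ) ^ 2 * Λ) *
              (C * Real.exp (-(c * (K * (l * m) / (2 * ξ))))) + 8 * ω ^ 2) := by
  obtain ⟨W₀, c, C, ys, X, hc, hC, hys, hX, key⟩ := H612.pu4 hb1 b2 a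
  refine ⟨W₀, c, C, ys, X, hc, hC, hys, hX, ?_⟩
  intro W hW N _ b ξ y hR hy l _ nb m _ _ hl hn K hK T hT ω hω hO Λ hΛ w w' hw F f f' hf hf'
    hfΛ hfΛ' h00 h10 h01 h11
  have hξ : (0 : ℝ) < ξ := by
    have h1 := hR.hX
    exact_mod_cast (by omega : 0 < ξ)
  have hT0 : 0 < T := lt_of_lt_of_le (by positivity) hT
  have hl0 : (0 : ℝ) < l := by exact_mod_cast H864.l_pos hl
  have hm : 0 < m := NeZero.pos m
  have hm0 : (0 : ℝ) < m := by exact_mod_cast hm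
  have hK' : (5 : ℝ) ≤ K := by exact_mod_cast hK
  set A : ℝ := ξ * √Λ with hA
  have hA0 : 0 < A := mul_pos hξ (Real.sqrt_pos.2 hΛ)
  have hA2 : A ^ 2 * (1 / (ξ : ℝ) ^ 2) = Λ := by
    rw [hA, mul_pow, Real.sq_sqrt hΛ.le]
    field_simp
  have hnz : ∀ {g : V (N / l) → ℝ} {w : V nb}, (∀ x, ¬cx nb m x = w → g x = 0) →
      ∀ x : V N, ((CN N l)ᵀ *ᵥ g) x - kN N l g ≠ 0 → cx nb m (H864.cl x : V (N / l)) = w := by
    intro g w hg x hx
    by_contra h
    rw [CN_mulVec hl, hg _ h, mul_zero] at hx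
    exact hx rfl
  have h1 := key W hW N b ξ y hR hy ((CN N l)ᵀ *ᵥ f) ((CN N l)ᵀ *ᵥ f') (kN N l f) (kN N l f')
    A A (K * (l * m) / (2 * ξ)) hA0 hA0 (by positivity) (neu_CN_mulVec hl f)
    (neu_CN_mulVec hl f') (by rw [sum_CN hl, hA2]; exact hfΛ) (by rw [sum_CN hl, hA2]; exact hfΛ')
    (fun x z hx hz => by
      have h2 := far_sd hl hm hn hK hw (hnz hf x hx) (hnz hf' z hz)
      refine le_trans (le_of_eq ?_) h2
      field_simp) T hT ω hω hO 0 F 1 (by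
        have h3 := h00.2
        unfold H963.Neu
        simpa using h3) h00.1 h10.1 h01.1 h11.1
  rw [bnwt_eq hT0 0 (neu_CN_mulVec hl f) (neu_CN_mulVec hl f')]
  unfold md
  refine (le_of_eq ?_).trans (h1.trans (le_of_eq ?_))
  · rfl
  · have : A * A = ξ ^ 2 * Λ := by
      rw [hA]
      have := Real.mul_self_sqrt hΛ.le
      calc ξ * √Λ * (ξ * √Λ) = (ξ : ℝ) ^ 2 * (√Λ * √Λ) := by ring
        _ = _ := by rw [this]
    rw [← this]
    ring

end loc

end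

end Vale.Agent.P159.H43
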