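import Vale.Agent.P159.H43.Far5

/-!
P159 / GLUE P_up, FAR part (helper43), part 6: **`Blk.fu` and `Blk.ft`** of `H239/Glu1` for the
difference `dNm` of the mean posterior covariances, one structure `FarH` of hypotheses.
-/

set_option linter.unusedSectionVars false

namespace Vale.Agent.P159.H43

open Finset Matrix MeasureTheory ProbabilityTheory
open Vale.Agent.P159.TM.H104 (EM Ex Cv K3 Lg li nh Gr)
open Vale.Agent.P159.H37
open Vale.Agent.P159.H159 (Ct rw' flp)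
open Vale.Agent.P159.TM.Spec (V)
open Vale.Agent.P159.TM.SpecC (wT Tor)
open Vale.Agent.P159.TM.H859 (tn rep nz)
open Vale.Agent.P159.H864 (cobV)
open Vale.Agent.P159.H963 (Neu nwt Pn obsN Gnc)
open Vale.Agent.P159.H447 (Maj NR CN SN Bnwt maj_nwt Tst Ful K4S cl cl_nonneg psd_gram psd_conj_sub
  int_egr egr_mat law_tor CN_neu)
open Vale.Agent.P159.H692 (cx)
open Vale.Agent.P159.H730 (wN)
open Vale.Agent.P159.H239 (cbM dNm)
open Vale.Agent.P159.H859 (Sgn)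

noncomputable section

/-! ### algebra -/

section alg

variable {W : Type*} [Fintype W]

lemma pr_vv (M : Matrix W W ℝ) (g g' : W → ℝ) : H447.pr M (vecMulVec g g') = bf M g g' := by
  unfold H447.pr bf
  refine Finset.sum_congr rfl fun x _ => Finset.sum_congr rfl fun y _ => ?_
  rw [vecMulVec_apply]
  ring

lemma pr_comm' (M N : Matrix W W ℝ) : H447.pr M N = H447.pr N M := by
  unfold H447.pr
  exact Finset.sum_congr rfl fun x _ => Finset.sum_congr rfl fun y _ => mul_comm _ _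

lemma sum_vv (g g' : W → ℝ) :
    ∑ i, ∑ j, vecMulVec g g' i j ^ 2 = (∑ i, g i ^ 2) * ∑ j, g' j ^ 2 := by
  rw [Finset.sum_mul_sum]
  refine Finset.sum_congr rfl fun x _ => Finset.sum_congr rfl fun y _ => ?_
  rw [vecMulVec_apply, mul_pow]

/-- Cauchy-Schwarz for a nonnegative form -/
lemma bf_le_psd {M : Matrix W W ℝ} (hM : Mᵀ = M) (h0 : ∀ u, 0 ≤ qf M u) {α α' : ℝ} (hα : 0 < α)
    (hα' : 0 < α') (u u' : W → ℝ) :
    |bf M u u'| ≤ α' / α / 2 * qf M u + α / α' / 2 * qf M u' := by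
  have h1 := h0 (α' • u + α • u')
  have h2 := h0 (α' • u - α • u')
  rw [qf_add_vec hM, bf_smul_left, bf_smul_right, H37.qf_smul, H37.qf_smul] at h1
  rw [qf_sub_vec hM, bf_smul_left, bf_smul_right, H37.qf_smul, H37.qf_smul] at h2
  have e : α' / α / 2 * qf M u + α / α' / 2 * qf M u' =
      (α' ^ 2 * qf M u + α ^ 2 * qf M u') / (2 * (α * α')) := by
    field_simp
  rw [e, le_div_iff₀ (by positivity), ← abs_of_pos (by positivity : 0 < 2 * (α * α')), ← abs_mul,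
    abs_le]
  constructor <;> nlinarith

/-- Hilbert-Schmidt norm of `B Bᵀ` for a contraction -/
lemma ct_hs [DecidableEq W] {K : Type*} [Fintype K] {B : Matrix W K ℝ} (hB : Ct B) :
    ∑ i, ∑ j, (B * Bᵀ) i j ^ 2 ≤ Fintype.card W := by
  have h1 : ∀ i, ∑ j, (B * Bᵀ) i j ^ 2 ≤ 1 := by
    intro i
    have h2 : ∑ j, (B * Bᵀ) i j ^ 2 = ∑ j, (B *ᵥ (fun k => B i k)) j ^ 2 := by
      refine Finset.sum_congr rfl fun j _ => ?_
      congr 1
      rw [Matrix.mul_apply]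
      simp only [Matrix.mulVec, dotProduct, Matrix.transpose_apply]
      exact Finset.sum_congr rfl fun k _ => mul_comm _ _
    rw [h2]
    refine (ct_mulVec hB _).trans ?_
    have h3 := hB (Pi.single i 1)
    rw [qf_gramW] at h3
    have e1 : ∀ k, (Bᵀ *ᵥ Pi.single i (1 : ℝ)) k = B i k := by
      intro k
      simp
    simp only [e1] at h3
    refine h3.trans (le_of_eq ?_)
    rw [Finset.sum_eq_single i]
    · simp
    · intro j _ hj
      simp [Pi.single_eq_of_ne hj]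
    · intro h
      exact absurd (Finset.mem_univ i) h
  calc ∑ i, ∑ j, (B * Bᵀ) i j ^ 2 ≤ ∑ i : W, (1 : ℝ) := Finset.sum_le_sum fun i _ => h1 i
    _ = Fintype.card W := by simp

lemma hs_sub_le (S T : Matrix W W ℝ) {c : ℝ} (hS : ∑ i, ∑ j, S i j ^ 2 ≤ c)
    (hT : ∑ i, ∑ j, T i j ^ 2 ≤ c) : ∑ i, ∑ j, (S - T) i j ^ 2 ≤ 4 * c := by
  have h1 : ∑ i, ∑ j, (S - T) i j ^ 2 ≤
      2 * ∑ i, ∑ j, S i j ^ 2 + 2 * ∑ i, ∑ j, T i j ^ 2 := by
    rw [Finset.mul_sum, Finset.mul_sum, ← Finset.sum_add_distrib]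
    refine Finset.sum_le_sum fun i _ => ?_
    rw [Finset.mul_sum, Finset.mul_sum, ← Finset.sum_add_distrib]
    refine Finset.sum_le_sum fun j _ => ?_
    rw [Matrix.sub_apply]
    nlinarith [sq_nonneg (S i j + T i j)]
  linarith

end alg

lemma bf_zero_left' {U : Type*} [Fintype U] (M : Matrix U U ℝ) (v : U → ℝ) : bf M 0 v = 0 := by
  unfold bf
  simp

lemma bf_zero_right' {U : Type*} [Fintype U] (M : Matrix U U ℝ) (v : U → ℝ) : bf M v 0 = 0 := by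
  unfold bf
  simp

/-! ### the test functional -/

section tst

variable {N l : ℕ} [NeZero N] [NeZero (N / l)] {b T : ℝ}

lemma Tst_vv (g g' : V (N / l) → ℝ) (J : V N → ℝ) :
    Tst N l b T (vecMulVec g g') J =
      bf (NR (nwt N b T 0) J) ((CN N l)ᵀ *ᵥ g) ((CN N l)ᵀ *ᵥ g') := by
  unfold H447.Tst
  rw [Matrix.mul_vecMulVec, Matrix.vecMulVec_mul, ← Matrix.mulVec_transpose, pr_vv]

lemma bf_NR' {V : Type*} [Fintype V] (μ : (V → ℤ) → ℝ) (J u v : V → ℝ) :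
    bf (NR μ J) u v = bf (Cm μ J) u v - bf (Gm μ) u v := by
  unfold H447.NR
  rw [H114.bf_sub_mat]

lemma NR_symm' {V : Type*} [Fintype V] (μ : (V → ℤ) → ℝ) (J : V → ℝ) :
    (NR μ J)ᵀ = NR μ J := by
  unfold H447.NR
  rw [Matrix.transpose_sub, H789.Cm_symm]
  congr 1
  exact H789.Cm_symm μ 0

lemma conj_CN {J : Type*} [Fintype J] (X : Matrix (V (N / l)) J ℝ) :
    (CN N l)ᵀ * (X * Xᵀ) * ((CN N l)ᵀ)ᵀ = ((CN N l)ᵀ * X) * ((CN N l)ᵀ * X)ᵀ := by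
  rw [Matrix.transpose_mul]
  simp only [Matrix.mul_assoc]

lemma Tst_sub (W W' : Matrix (V (N / l)) (V (N / l)) ℝ) (J : V N → ℝ) :
    Tst N l b T (W - W') J = Tst N l b T W J - Tst N l b T W' J := by
  unfold H447.Tst
  rw [Matrix.mul_sub, Matrix.sub_mul, H447.pr_sub]

end tst

/-! ### the hypotheses -/

section far

variable {N l nb m : ℕ} [NeZero N] [NeZero (N / l)] [NeZero nb] [NeZero m]
variable {I : Type*} [Fintype I]

/-- **hypotheses of the far part** : `N / l = nb m` cells per side, boxes of `m` cells, window radius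
`K` boxes, base mass `T`, priors `a ≤ c ≤ T / 2`, `A` a factor for the lowest prior, `n` steps,
`D` the fourth cumulant, `lam` the level, `e` the amplitude, `Λ` the truncation, `ε` the locality
error, `Gd s`, `ρ`, `pe` the exact good sets -/
structure FarH (N l nb m K : ℕ) [NeZero N] [NeZero (N / l)] [NeZero nb] [NeZero m]
    (b T a c : ℝ) (A : Matrix (V (N / l)) I ℝ) (n : ℕ) (D e lam p β Λ ε ρ pe : ℝ)
    (Gd : ℝ → Set (V N → ℝ)) : Prop where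
  b0 : 0 < b
  dl : l ∣ N
  a0 : 0 < a
  ac : a ≤ c
  cT : c ≤ T / 2
  cov : A * Aᵀ = Sgn N l b T a
  D0 : 0 < D
  kD : (T ^ 2 / a) ^ 2 * K4S (nwt N b T 0) (SN N l) (SN N l) ≤ D
  e0 : 0 < e
  e1 : e ≤ 1
  lam0 : 0 ≤ lam
  ap : (gau I).real {g | 1 < Rs (nwt N b T 0) ((2 : ℝ) ^ (n + 2) • (((CN N l)ᵀ * A) *ᵥ g))} ≤ p
  ra : cl n (128 * (lam * D)) ≤ 1
  be1 : 8 * p + 12 * Real.exp (-(√lam / 10)) ≤ β
  be2 : 16 * p + 2 * Real.exp (((N / l : ℕ) : ℝ) ^ 2 / 2 - Λ / 20) ≤ β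
  ep0 : 0 ≤ ε
  loc : ∀ w w' : V nb, (K : ℝ) < tn (w' - w) →
    FL (nwt N b T 0) (CN N l)ᵀ (fun x => cx nb m x = w) (fun x => cx nb m x = w')
      (Gfar N b T) (Bnwt N T 0) (T / 4 * Λ) ε
  rho0 : 0 ≤ ρ
  pe0 : 0 ≤ pe
  pe1 : pe ≤ 1
  gm : ∀ s, s = a ∨ s = c → MeasurableSet (Gd s)
  gr : ∀ s, s = a ∨ s = c → ∀ J ∈ Gd s, Rs (nwt N b T 0) J ≤ ρ
  gp : ∀ s, s = a ∨ s = c → Ech (wN N l b T s) 0 (obsN N l (T - s))
    ((Gd s)ᶜ.indicator fun _ => (1 : ℝ)) ≤ pe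

namespace FarH

variable {K : ℕ} {b T a c : ℝ} {A : Matrix (V (N / l)) I ℝ} {n : ℕ}
variable {D e lam p β Λ ε ρ pe : ℝ} {Gd : ℝ → Set (V N → ℝ)}
variable (h : FarH N l nb m K b T a c A n D e lam p β Λ ε ρ pe Gd)
include h

lemma T0 : 0 < T := by linarith [h.a0, h.ac, h.cT]

lemma aT : a < T := by linarith [h.T0, h.ac, h.cT]

lemma maj : Maj (nwt N b T 0) (Bnwt N T 0) := maj_nwt h.b0.le h.T0 0

lemma fq : FQ (nwt N b T 0) (Bnwt N T 0) (Bnwt N T 0) := fq_nwt h.b0.le h.T0 0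

lemma ful : Ful N l b T a A := ⟨h.b0, h.dl, h.a0, h.aT, h.cov⟩

lemma p0 : 0 ≤ p := measureReal_nonneg.trans h.ap

/-- the majorant on the law: `q = (T / a) (N / l)²` -/
lemma q_le : H447.pr (Bnwt N T 0) (((CN N l)ᵀ * A) * ((CN N l)ᵀ * A)ᵀ) ≤
    T / a * ((N / l : ℕ) : ℝ) ^ 2 := by
  have T0 := h.T0
  have a0 := h.a0
  refine (H447.pr_psd h.maj.qf_nonneg h.ful.up).trans ?_
  rw [H447.pr_smul]
  have h1 : (CN N l)ᵀ * CN N l = (CN N l)ᵀ * ((CN N l)ᵀ)ᵀ := by rw [Matrix.transpose_transpose]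
  have h2 : H447.pr (Bnwt N T 0) ((CN N l)ᵀ * CN N l) ≤ T⁻¹ * ((N / l : ℕ) : ℝ) ^ 2 := by
    rw [h1, H447.pr_Bnwt (A := (CN N l)ᵀ) T0 0 fun i => CN_neu h.dl i]
    refine mul_le_mul_of_nonneg_left ?_ (inv_nonneg.2 T0.le)
    rw [Finset.sum_comm]
    calc ∑ i, ∑ x, ((CN N l)ᵀ) x i ^ 2 ≤ ∑ i : V (N / l), (1 : ℝ) :=
          Finset.sum_le_sum fun i _ => H447.Wg.CN_sq h.dl i
      _ = ((N / l : ℕ) : ℝ) ^ 2 := by
          rw [Finset.sum_const, Finset.card_univ, nsmul_eq_mul, mul_one]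
          exact TM.H764.card_V
  calc T ^ 2 / a * H447.pr (Bnwt N T 0) ((CN N l)ᵀ * CN N l)
      ≤ T ^ 2 / a * (T⁻¹ * ((N / l : ℕ) : ℝ) ^ 2) := mul_le_mul_of_nonneg_left h2 (by positivity)
    _ = _ := by field_simp

lemma q_pos : 0 < T / a * ((N / l : ℕ) : ℝ) ^ 2 := by
  have T0 := h.T0
  have a0 := h.a0
  have : (0 : ℝ) < ((N / l : ℕ) : ℝ) ^ 2 := H864.N_pos (N := N / l)
  positivity

variable {J : Type*} [Fintype J] {As : Matrix (V (N / l)) J ℝ} {s : ℝ}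

/-- the laws decrease with the prior mass -/
lemma dec (has : a ≤ s) (hsT : s ≤ T / 2) (hAs : As * Asᵀ = Sgn N l b T s) :
    (((CN N l)ᵀ * A) * ((CN N l)ᵀ * A)ᵀ -
      ((CN N l)ᵀ * As) * ((CN N l)ᵀ * As)ᵀ).PosSemidef := by
  have h1 := (H859.dat_neu' h.b0 h.dl h.T0).mono h.a0 has (by linarith [h.T0] : s < T)
  have h2 : (A * Aᵀ - As * Asᵀ).PosSemidef := by
    rw [h.cov, hAs]
    exact h1
  have h3 := psd_conj_sub h2 (CN N l)ᵀ
  rw [conj_CN, conj_CN] at h3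
  exact h3

/-- the lower bound -/
lemma low (has : a ≤ s) (hsT : s ≤ T / 2) (hAs : As * Asᵀ = Sgn N l b T s) :
    (((CN N l)ᵀ * As) * ((CN N l)ᵀ * As)ᵀ -
      (T / 2) • ((CN N l)ᵀ * ((CN N l)ᵀ)ᵀ)).PosSemidef := by
  have T0 := h.T0
  have h1 : (As * Asᵀ - (T / 2) • (1 : Matrix (V (N / l)) (V (N / l)) ℝ)).PosSemidef := by
    refine psd_of_qf ?_ fun u => ?_
    · rw [Matrix.transpose_sub, Matrix.transpose_smul, Matrix.transpose_one, H859.gram_symm]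
    · rw [H859.qf_sub_m, H864.qf_smul_mat, hAs]
      have h2 := H859.Sgn_low (N := N) h.b0 h.dl h.T0 (h.a0.trans_le has)
        (by linarith : s < T) u
      have h3 : qf (1 : Matrix (V (N / l)) (V (N / l)) ℝ) u = ∑ x, u x ^ 2 := by
        rw [H37.qf_eq, Matrix.one_mulVec]
        unfold dotProduct
        exact Finset.sum_congr rfl fun x _ => by ring
      rw [h3]
      have h4 : 0 ≤ ∑ x, u x ^ 2 := Finset.sum_nonneg fun _ _ => sq_nonneg _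
      nlinarith
  have h3 := psd_conj_sub h1 (CN N l)ᵀ
  rw [Matrix.mul_smul, Matrix.smul_mul, Matrix.mul_one] at h3
  rw [conj_CN] at h3
  exact h3

/-- the a-priori probability at the other prior -/
lemma ap_s (has : a ≤ s) (hsT : s ≤ T / 2) (hAs : As * Asᵀ = Sgn N l b T s)
    {J' : Type*} [Fintype J'] (A₀ : Matrix (V N) J' ℝ)
    (hA₀ : A₀ * A₀ᵀ = ((CN N l)ᵀ * As) * ((CN N l)ᵀ * As)ᵀ) :
    (gau J').real {g | 1 < Rs (nwt N b T 0) ((2 : ℝ) ^ (n + 2) • (A₀ *ᵥ g))} ≤ 2 * p := by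
  have h1 := h.maj.prob_psd (A := A₀) (B := (CN N l)ᵀ * A) ((2 : ℝ) ^ (n + 2)) 1 (by
    rw [one_pow, one_smul, hA₀]
    exact h.dec has hsT hAs) 1
  rw [mul_one] at h1
  linarith [h.ap]

/-- **one law in the letters of the far part** -/
theorem lw (has : a ≤ s) (hsT : s ≤ T / 2) (hAs : As * Asᵀ = Sgn N l b T s) :
    LW (nwt N b T 0) (Bnwt N T 0) (((CN N l)ᵀ * As) * ((CN N l)ᵀ * As)ᵀ) (Gfar N b T) n D (2 * p)
      (4 * p) (T / a * ((N / l : ℕ) : ℝ) ^ 2) := by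
  have hd := h.dec has hsT hAs
  have hM := h.maj
  refine ⟨?_, fun A₀ hA₀ => h.ap_s has hsT hAs A₀ hA₀, ?_, ?_⟩
  · refine (H447.K4S_psd hM.em hM.ev hM.pk (psd_gram _) hd).trans ?_
    exact h.ful.K4.trans h.kD
  · have h2 : (gau J).real {g | 1 < Rs (nwt N b T 0) (((2 : ℝ) * 2) • (((CN N l)ᵀ * As) *ᵥ g))} ≤
        2 * p := by
      refine (hM.prob_scale ((CN N l)ᵀ * As) (by norm_num) ?_).trans (h.ap_s has hsT hAs _ rfl)
      rw [pow_add]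
      have : (1 : ℝ) ≤ 2 ^ n := one_le_pow₀ (by norm_num)
      linarith
    have h3 := GP.ofRs hM ((CN N l)ᵀ * As) (s := 2) h2
    have h4 := h3.inter_lin (fun _ => 1) (by
      rw [qf_gram']
      refine Finset.sum_eq_zero fun k _ => ?_
      have h5 : (((CN N l)ᵀ * As)ᵀ *ᵥ fun _ => (1 : ℝ)) k = 0 := by
        rw [Matrix.transpose_mul, Matrix.transpose_transpose, ← Matrix.mulVec_mulVec]
        have h6 : (CN N l) *ᵥ (fun _ => (1 : ℝ)) = 0 := by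
          funext i
          have h7 : ∑ x, CN N l i x = 0 := CN_neu h.dl i
          simp only [Matrix.mulVec, dotProduct, mul_one, h7, Pi.zero_apply]
        rw [h6, Matrix.mulVec_zero]
        rfl
      rw [h5]
      ring)
    have e : 2 * (2 * p) = 4 * p := by ring
    rw [e] at h4
    exact h4
  · exact (H447.pr_psd hM.qf_nonneg hd).trans h.q_le

/-- size of the excess covariance -/
def R1 (n N l : ℕ) (T a D lam β : ℝ) : ℝ :=
  cl n (128 * (lam * D)) + 24 * (T / a * ((N / l : ℕ) : ℝ) ^ 2 * √β)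

omit h in
lemma meas_Tst (hb : 0 ≤ b) (hT : 0 < T) (W : Matrix (V (N / l)) (V (N / l)) ℝ)
    (X : Matrix (V N) J ℝ) : Integrable (fun g : J → ℝ => Tst N l b T W (X *ᵥ g)) (gau J) :=
  int_egr (egr_mat (H447.egr_Tst hb hT W) X)

lemma be0 : 2 * (2 * p) + 6 * Real.exp (-(√lam / 10)) ≤ β := by
  have h1 := h.be1
  have h2 := h.p0
  have h3 := Real.exp_pos (-(√lam / 10))
  linarith

lemma R1_nonneg : 0 ≤ FarH.R1 n N l T a D lam β := by
  have T0 := h.T0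
  have a0 := h.a0
  have := cl_nonneg n (128 * (lam * D))
  unfold FarH.R1
  positivity

/-- **size**, trace form -/
theorem size (has : a ≤ s) (hsT : s ≤ T / 2) (hAs : As * Asᵀ = Sgn N l b T s)
    {W : Matrix (V (N / l)) (V (N / l)) ℝ} (hW : W.PosSemidef)
    (hW1 : ((1 : Matrix (V (N / l)) (V (N / l)) ℝ) - W).PosSemidef) :
    (∀ J', 0 ≤ Tst N l b T W J') ∧
    ∫ g, Tst N l b T W (((CN N l)ᵀ * As) *ᵥ g) ∂(gau J) ≤
      FarH.R1 n N l T a D lam β / (T / 2) := by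
  have T0 := h.T0
  have L := h.lw has hsT hAs
  have hp := H447.psd_conj hW (CN N l)ᵀ
  rw [Matrix.transpose_transpose] at hp
  refine ⟨fun J' => h.maj.pr_NR_nonneg J' hp, ?_⟩
  have h1 := h.low has hsT hAs
  have h2 := psd_conj_sub hW1 (CN N l)ᵀ
  rw [Matrix.mul_one, Matrix.transpose_transpose] at h2
  have h3 : (((CN N l)ᵀ * As) * ((CN N l)ᵀ * As)ᵀ -
      (T / 2) • ((CN N l)ᵀ * W * CN N l)).PosSemidef := by
    have h4 := h1.add (h2.smul (by positivity : 0 ≤ T / 2))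
    have e : ((CN N l)ᵀ * As) * ((CN N l)ᵀ * As)ᵀ - (T / 2) • ((CN N l)ᵀ * W * CN N l) =
        ((CN N l)ᵀ * As) * ((CN N l)ᵀ * As)ᵀ - (T / 2) • ((CN N l)ᵀ * ((CN N l)ᵀ)ᵀ) +
          (T / 2) • ((CN N l)ᵀ * CN N l - (CN N l)ᵀ * W * CN N l) := by
      rw [smul_sub, Matrix.transpose_transpose]
      abel
    rw [e]
    exact h4
  have h5 := (h.maj.trace_size (hp.smul (by positivity : 0 ≤ T / 2)) h3 (n := n) (D := D)
    (lam := lam) (p := 2 * p) (β := β) (q := T / a * ((N / l : ℕ) : ℝ) ^ 2) h.D0 h.lam0 h.q_pos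
    L.k4 (h.ap_s has hsT hAs _ rfl) h.be0 L.q).2
  simp only [H447.pr_smul] at h5
  rw [integral_const_mul] at h5
  rw [le_div_iff₀ (by positivity), mul_comm]
  exact h5

lemma rank_one {g : V (N / l) → ℝ} (hg : 0 < ∑ x, g x ^ 2) :
    ((1 : Matrix (V (N / l)) (V (N / l)) ℝ) - (∑ x, g x ^ 2)⁻¹ • vecMulVec g g).PosSemidef := by
  refine psd_of_qf ?_ fun u => ?_
  · rw [Matrix.transpose_sub, Matrix.transpose_one, Matrix.transpose_smul]
    congr 2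
    ext x y
    simp only [Matrix.transpose_apply, vecMulVec_apply, mul_comm]
  · rw [H859.qf_sub_m, H864.qf_smul_mat, H447.qf_vv]
    have h3 : qf (1 : Matrix (V (N / l)) (V (N / l)) ℝ) u = ∑ x, u x ^ 2 := by
      rw [H37.qf_eq, Matrix.one_mulVec]
      unfold dotProduct
      exact Finset.sum_congr rfl fun x _ => by ring
    have h4 := Finset.sum_mul_sq_le_sq_mul_sq Finset.univ g u
    have h5 : (g ⬝ᵥ u) ^ 2 ≤ (∑ x, g x ^ 2) * ∑ x, u x ^ 2 := h4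
    rw [h3, sub_nonneg, inv_mul_le_iff₀ hg]
    exact h5

/-- **size**, direction form -/
theorem size_dir (has : a ≤ s) (hsT : s ≤ T / 2) (hAs : As * Asᵀ = Sgn N l b T s)
    {g : V (N / l) → ℝ} (hg : 0 < ∑ x, g x ^ 2) :
    ∫ k, qf (NR (nwt N b T 0) (((CN N l)ᵀ * As) *ᵥ k)) ((CN N l)ᵀ *ᵥ g) ∂(gau J) ≤
      FarH.R1 n N l T a D lam β / (T / 2) * ∑ x, g x ^ 2 := by
  have h1 := (h.size has hsT hAs (W := (∑ x, g x ^ 2)⁻¹ • vecMulVec g g)
    (psd_vv g (inv_nonneg.2 hg.le)) (h.rank_one hg)).2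
  have e : ∀ J', Tst N l b T ((∑ x, g x ^ 2)⁻¹ • vecMulVec g g) J' =
      (∑ x, g x ^ 2)⁻¹ * qf (NR (nwt N b T 0) J') ((CN N l)ᵀ *ᵥ g) := by
    intro J'
    have h2 := Tst_vv (N := N) (l := l) (b := b) (T := T) g g J'
    unfold H447.Tst at h2 ⊢
    rw [Matrix.mul_smul, Matrix.smul_mul, H447.pr_smul, h2]
    rfl
  simp only [e] at h1
  rw [integral_const_mul, inv_mul_le_iff₀ hg] at h1
  linarith

/-- the mean size of the test functional of two directions -/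
theorem size_vv (has : a ≤ s) (hsT : s ≤ T / 2) (hAs : As * Asᵀ = Sgn N l b T s)
    {g g' : V (N / l) → ℝ} (hg : 0 < ∑ x, g x ^ 2) (hg' : 0 < ∑ x, g' x ^ 2) :
    ∫ k, |Tst N l b T (vecMulVec g g') (((CN N l)ᵀ * As) *ᵥ k)| ∂(gau J) ≤
      FarH.R1 n N l T a D lam β / (T / 2) * (√(∑ x, g x ^ 2) * √(∑ x, g' x ^ 2)) := by
  set α := √(∑ x, g x ^ 2) with hα
  set α' := √(∑ x, g' x ^ 2) with hα'
  have h0 : 0 < α := Real.sqrt_pos.2 hg
  have h0' : 0 < α' := Real.sqrt_pos.2 hg'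
  have e1 : α ^ 2 = ∑ i, g i ^ 2 := Real.sq_sqrt hg.le
  have e2 : α' ^ 2 = ∑ i, g' i ^ 2 := Real.sq_sqrt hg'.le
  have s1 := h.size_dir has hsT hAs hg
  have s2 := h.size_dir has hsT hAs hg'
  rw [← e1] at s1
  rw [← e2] at s2
  have iq : ∀ g : V (N / l) → ℝ, Integrable (fun k : J → ℝ =>
      qf (NR (nwt N b T 0) (((CN N l)ᵀ * As) *ᵥ k)) ((CN N l)ᵀ *ᵥ g)) (gau J) := by
    intro g
    have h2 := meas_Tst (N := N) (l := l) (b := b) (T := T) h.b0.le h.T0 (vecMulVec g g)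
      ((CN N l)ᵀ * As)
    refine h2.congr (Filter.Eventually.of_forall fun k => ?_)
    simp only [Tst_vv]
    rfl
  have h3 : ∫ k, |Tst N l b T (vecMulVec g g') (((CN N l)ᵀ * As) *ᵥ k)| ∂(gau J) ≤
      ∫ k, (α' / α / 2 * qf (NR (nwt N b T 0) (((CN N l)ᵀ * As) *ᵥ k)) ((CN N l)ᵀ *ᵥ g) +
        α / α' / 2 * qf (NR (nwt N b T 0) (((CN N l)ᵀ * As) *ᵥ k)) ((CN N l)ᵀ *ᵥ g'))
        ∂(gau J) := by
    refine integral_mono (meas_Tst h.b0.le h.T0 _ _).abs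
      (((iq g).const_mul _).add ((iq g').const_mul _)) fun k => ?_
    simp only
    rw [Tst_vv]
    exact bf_le_psd (NR_symm' _ _) (fun u => h.maj.NR_nonneg _ u) h0 h0' _ _
  refine h3.trans ?_
  rw [integral_add ((iq g).const_mul _) ((iq g').const_mul _), integral_const_mul,
    integral_const_mul]
  set R := FarH.R1 n N l T a D lam β / (T / 2) with hR
  have h4 := mul_le_mul_of_nonneg_left s1 (by positivity : 0 ≤ α' / α / 2)
  have h5 := mul_le_mul_of_nonneg_left s2 (by positivity : 0 ≤ α / α' / 2)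
  have e3 : α' / α / 2 * (R * α ^ 2) = R * (α * α') / 2 := by
    field_simp
  have e4 : α / α' / 2 * (R * α' ^ 2) = R * (α * α') / 2 := by
    field_simp
  rw [e3] at h4
  rw [e4] at h5
  linarith

/-- the error of the change of law -/
def eL (n N l : ℕ) (T a D lam β ρ pe : ℝ) : ℝ :=
  (Real.exp ρ - 1 + pe) * (FarH.R1 n N l T a D lam β / (T / 2)) +
    39 * (((N / l : ℕ) : ℝ) ^ 2 / a * √pe)

lemma ks : 0 ≤ Real.exp ρ - 1 + pe := by
  have := Real.one_le_exp h.rho0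
  have := h.pe0
  linarith

/-- one prior, bilinear form -/
theorem one_bf (hs : s = a ∨ s = c) {w w' : V nb} (hw : (K : ℝ) < tn (w' - w))
    {g g' : V (N / l) → ℝ} (hg : ∀ x, cx nb m x ≠ w → g x = 0)
    (hg' : ∀ x, cx nb m x ≠ w' → g' x = 0) (hg0 : 0 < ∑ x, g x ^ 2) (hg0' : 0 < ∑ x, g' x ^ 2) :
    |bf (cbM N l b T s - Gnc N l b T T) g g' -
      (bf (Bnwt N T 0) ((CN N l)ᵀ *ᵥ g) ((CN N l)ᵀ *ᵥ g') -
        bf (Gm (nwt N b T 0)) ((CN N l)ᵀ *ᵥ g) ((CN N l)ᵀ *ᵥ g'))| ≤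
      (4 / T * (ε + 2136 * (T / a * ((N / l : ℕ) : ℝ) ^ 2 * √β)) +
        FarH.eL n N l T a D lam β ρ pe) * (√(∑ x, g x ^ 2) * √(∑ x, g' x ^ 2)) := by
  have T0 := h.T0
  have a0 := h.a0
  have has : a ≤ s := by
    rcases hs with hs | hs
    · exact hs.ge
    · rw [hs]; exact h.ac
  have hsT : s ≤ T / 2 := by
    rcases hs with hs | hs
    · rw [hs]; exact h.ac.trans h.cT
    · rw [hs]; exact h.cT
  have hs0 : 0 < s := h.a0.trans_le has
  have hd := ((H859.dat_neu' h.b0 h.dl h.T0).pd hs0 (by linarith : s < T)).posSemidef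
  obtain ⟨As, hAs'⟩ := H239.exists_increment hd
  have hAs : As * Asᵀ = Sgn N l b T s := hAs'.symm
  set α := √(∑ x, g x ^ 2) with hα
  set α' := √(∑ x, g' x ^ 2) with hα'
  have h0 : 0 < α := Real.sqrt_pos.2 hg0
  have h0' : 0 < α' := Real.sqrt_pos.2 hg0'
  -- law
  have l1 := law_tor h.b0.le h.dl hs0 (by linarith : s < T) hAs (h.gm s hs) (h.gr s hs) h.rho0
    h.pe0 h.pe1 (h.gp s hs) (vecMulVec g g')
  have e1 : √(∑ i, ∑ j, vecMulVec g g' i j ^ 2) = α * α' := by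
    rw [sum_vv, Real.sqrt_mul (Finset.sum_nonneg fun _ _ => sq_nonneg _)]
  rw [e1] at l1
  have l2 := h.size_vv has hsT hAs hg0 hg0'
  have l3 : |bf (cbM N l b T s - Gnc N l b T T) g g' -
      ∫ k, Tst N l b T (vecMulVec g g') (((CN N l)ᵀ * As) *ᵥ k) ∂(gau (V (N / l)))| ≤
      FarH.eL n N l T a D lam β ρ pe * (α * α') := by
    have e2 : H159.pr (vecMulVec g g') (cbM N l b T s - Gnc N l b T T) =
        bf (cbM N l b T s - Gnc N l b T T) g g' := by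
      rw [← pr_vv]
      exact pr_comm' _ _
    rw [← e2]
    refine l1.trans ?_
    have l4 := mul_le_mul_of_nonneg_left l2 h.ks
    have l5 : ((N / l : ℕ) : ℝ) ^ 2 / s ≤ ((N / l : ℕ) : ℝ) ^ 2 / a :=
      div_le_div_of_nonneg_left (by positivity) a0 has
    have l6 : 39 * (α * α' * (((N / l : ℕ) : ℝ) ^ 2 / s) * √pe) ≤
        39 * (((N / l : ℕ) : ℝ) ^ 2 / a * √pe) * (α * α') := by
      have l7 := mul_le_mul_of_nonneg_right l5 (Real.sqrt_nonneg pe)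
      have l8 := mul_le_mul_of_nonneg_left l7 (by positivity : 0 ≤ 39 * (α * α'))
      calc 39 * (α * α' * (((N / l : ℕ) : ℝ) ^ 2 / s) * √pe)
          = 39 * (α * α') * (((N / l : ℕ) : ℝ) ^ 2 / s * √pe) := by ring
        _ ≤ _ := l8
        _ = _ := by ring
    unfold FarH.eL
    calc _ ≤ (Real.exp ρ - 1 + pe) * (FarH.R1 n N l T a D lam β / (T / 2) * (α * α')) +
          39 * (((N / l : ℕ) : ℝ) ^ 2 / a * √pe) * (α * α') := add_le_add l4 l6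
      _ = _ := by ring
  -- Gaussian reference
  have L := h.lw has hsT hAs
  have hlow : (((CN N l)ᵀ * As) * ((CN N l)ᵀ * As)ᵀ -
      (T / 4) • ((CN N l)ᵀ * ((CN N l)ᵀ)ᵀ)).PosSemidef := by
    have h1 := (h.low has hsT hAs).add
      ((psd_gram (CN N l)ᵀ).smul (by positivity : 0 ≤ T / 4))
    have e : ((CN N l)ᵀ * As) * ((CN N l)ᵀ * As)ᵀ - (T / 4) • ((CN N l)ᵀ * ((CN N l)ᵀ)ᵀ) =
        ((CN N l)ᵀ * As) * ((CN N l)ᵀ * As)ᵀ - (T / 2) • ((CN N l)ᵀ * ((CN N l)ᵀ)ᵀ) +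
          (T / 4) • ((CN N l)ᵀ * ((CN N l)ᵀ)ᵀ) := by
      have : (T / 2) • ((CN N l)ᵀ * ((CN N l)ᵀ)ᵀ) = (T / 4) • ((CN N l)ᵀ * ((CN N l)ᵀ)ᵀ) +
          (T / 4) • ((CN N l)ᵀ * ((CN N l)ᵀ)ᵀ) := by
        rw [← add_smul]
        congr 1
        ring
      rw [this]
      abel
    rw [e]
    exact h1
  have hww : ∀ x : V (N / l), cx nb m x = w → ¬cx nb m x = w' := by
    intro x hx hx'
    rw [hx] at hx'
    rw [hx', sub_self] at hw
    have h1 : tn (0 : V nb) = 0 := H239.tn_zero'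
    rw [h1] at hw
    exact absurd hw (not_lt.2 (Nat.cast_nonneg K))
  have hβ : 4 * (4 * p) + 2 * Real.exp (1 / 2 - Λ / 20) ≤ β := by
    refine le_trans ?_ h.be2
    have h1 : (1 : ℝ) ≤ ((N / l : ℕ) : ℝ) ^ 2 := by
      have h2 : (1 : ℝ) ≤ ((N / l : ℕ) : ℝ) := by exact_mod_cast NeZero.pos (N / l)
      exact one_le_pow₀ h2
    have h2 : Real.exp (1 / 2 - Λ / 20) ≤ Real.exp (((N / l : ℕ) : ℝ) ^ 2 / 2 - Λ / 20) :=
      Real.exp_le_exp.2 (by linarith)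
    linarith
  have l4 := far_bf h.maj h.fq (by positivity : 0 < T / 4) hlow hww L.gp (h.loc w w' hw) h.ep0
    h.q_pos L.q hβ (f := g) (f' := g') hg hg'
  have hi : Integrable (fun k : V (N / l) → ℝ => bf (Cm (nwt N b T 0)
      (((CN N l)ᵀ * As) *ᵥ k)) ((CN N l)ᵀ *ᵥ g) ((CN N l)ᵀ *ᵥ g')) (gau (V (N / l))) := by
    have h2 := (meas_Tst (N := N) (l := l) (b := b) (T := T) h.b0.le h.T0 (vecMulVec g g')
      ((CN N l)ᵀ * As)).add (integrable_const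
        (bf (Gm (nwt N b T 0)) ((CN N l)ᵀ *ᵥ g) ((CN N l)ᵀ *ᵥ g')))
    refine h2.congr (Filter.Eventually.of_forall fun k => ?_)
    simp only [Pi.add_apply, Tst_vv, bf_NR', sub_add_cancel]
  have l5 : ∫ k, Tst N l b T (vecMulVec g g') (((CN N l)ᵀ * As) *ᵥ k) ∂(gau (V (N / l))) =
      ∫ k, bf (Cm (nwt N b T 0) (((CN N l)ᵀ * As) *ᵥ k)) ((CN N l)ᵀ *ᵥ g) ((CN N l)ᵀ *ᵥ g')
        ∂(gau (V (N / l))) - bf (Gm (nwt N b T 0)) ((CN N l)ᵀ *ᵥ g) ((CN N l)ᵀ *ᵥ g') := by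
    simp only [Tst_vv, bf_NR']
    rw [integral_sub hi (integrable_const _), integral_const, probReal_univ, one_smul]
  rw [l5] at l3
  have l6 := abs_add_le (bf (cbM N l b T s - Gnc N l b T T) g g' -
      (∫ k, bf (Cm (nwt N b T 0) (((CN N l)ᵀ * As) *ᵥ k)) ((CN N l)ᵀ *ᵥ g) ((CN N l)ᵀ *ᵥ g')
        ∂(gau (V (N / l))) - bf (Gm (nwt N b T 0)) ((CN N l)ᵀ *ᵥ g) ((CN N l)ᵀ *ᵥ g')))
    (∫ k, bf (Cm (nwt N b T 0) (((CN N l)ᵀ * As) *ᵥ k)) ((CN N l)ᵀ *ᵥ g) ((CN N l)ᵀ *ᵥ g')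
        ∂(gau (V (N / l))) - bf (Bnwt N T 0) ((CN N l)ᵀ *ᵥ g) ((CN N l)ᵀ *ᵥ g'))
  refine le_trans (le_of_eq ?_) (l6.trans (le_trans (add_le_add l3 l4) (le_of_eq ?_)))
  · congr 1
    ring
  · rw [← hα, ← hα']
    field_simp
    ring

/-- `δ₁` of `Blk` -/
def dlf (n N l : ℕ) (T a D lam β ε ρ pe : ℝ) : ℝ :=
  2 * (4 / T * (ε + 2136 * (T / a * ((N / l : ℕ) : ℝ) ^ 2 * √β)) +
    FarH.eL n N l T a D lam β ρ pe)

lemma eL_nonneg : 0 ≤ FarH.eL n N l T a D lam β ρ pe := by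
  have T0 := h.T0
  have a0 := h.a0
  have h1 := mul_nonneg h.ks (div_nonneg h.R1_nonneg (by positivity : 0 ≤ T / 2))
  unfold FarH.eL
  have : 0 ≤ 39 * (((N / l : ℕ) : ℝ) ^ 2 / a * √pe) := by positivity
  linarith

lemma dlf_nonneg : 0 ≤ FarH.dlf n N l T a D lam β ε ρ pe := by
  have T0 := h.T0
  have a0 := h.a0
  have ep0 := h.ep0
  have h1 := h.eL_nonneg
  unfold FarH.dlf
  positivity

/-- **`Blk.fu`** -/
theorem fu {w w' : V nb} (hw : (K : ℝ) < tn (w' - w)) {g g' : V (N / l) → ℝ}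
    (hg : ∀ x, cx nb m x ≠ w → g x = 0) (hg' : ∀ x, cx nb m x ≠ w' → g' x = 0) :
    |bf (dNm N l b T a c) g g'| ≤
      FarH.dlf n N l T a D lam β ε ρ pe * (√(∑ x, g x ^ 2) * √(∑ x, g' x ^ 2)) := by
  have hr : 0 ≤ FarH.dlf n N l T a D lam β ε ρ pe * (√(∑ x, g x ^ 2) * √(∑ x, g' x ^ 2)) :=
    mul_nonneg h.dlf_nonneg (by positivity)
  by_cases hg0 : ∑ x, g x ^ 2 = 0
  · rw [eq_zero_of_sum_sq hg0, bf_zero_left', abs_zero, ← eq_zero_of_sum_sq hg0]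
    exact hr
  by_cases hg0' : ∑ x, g' x ^ 2 = 0
  · rw [eq_zero_of_sum_sq hg0', bf_zero_right', abs_zero, ← eq_zero_of_sum_sq hg0']
    exact hr
  have q0 : 0 < ∑ x, g x ^ 2 :=
    lt_of_le_of_ne (Finset.sum_nonneg fun _ _ => sq_nonneg _) (Ne.symm hg0)
  have q0' : 0 < ∑ x, g' x ^ 2 :=
    lt_of_le_of_ne (Finset.sum_nonneg fun _ _ => sq_nonneg _) (Ne.symm hg0')
  have h1 := h.one_bf (s := a) (Or.inl rfl) hw hg hg' q0 q0'
  have h2 := h.one_bf (s := c) (Or.inr rfl) hw hg hg' q0 q0'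
  have e : bf (dNm N l b T a c) g g' =
      (bf (cbM N l b T a - Gnc N l b T T) g g' -
        (bf (Bnwt N T 0) ((CN N l)ᵀ *ᵥ g) ((CN N l)ᵀ *ᵥ g') -
          bf (Gm (nwt N b T 0)) ((CN N l)ᵀ *ᵥ g) ((CN N l)ᵀ *ᵥ g'))) -
      (bf (cbM N l b T c - Gnc N l b T T) g g' -
        (bf (Bnwt N T 0) ((CN N l)ᵀ *ᵥ g) ((CN N l)ᵀ *ᵥ g') -
          bf (Gm (nwt N b T 0)) ((CN N l)ᵀ *ᵥ g) ((CN N l)ᵀ *ᵥ g'))) := by
    unfold H239.dNm
    rw [H114.bf_sub_mat, H114.bf_sub_mat, H114.bf_sub_mat]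
    ring
  rw [e]
  refine (abs_sub _ _).trans ((add_le_add h1 h2).trans (le_of_eq ?_))
  unfold FarH.dlf
  ring

/-- `δf` of `Blk` -/
def dff (n N l : ℕ) (T a D e lam β ε ρ pe : ℝ) : ℝ :=
  (8 * (ε + 192 * (T / a * ((N / l : ℕ) : ℝ) ^ 2 * √β)) +
      2 * s2 n D e lam (T / a * ((N / l : ℕ) : ℝ) ^ 2) β) / e / (T / 4) +
    2 * ((Real.exp ρ - 1 + pe) * (2 * (FarH.R1 n N l T a D lam β / (T / 2))) +
      39 * (2 * ((N / l : ℕ) : ℝ) * (((N / l : ℕ) : ℝ) ^ 2 / a) * √pe))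

/-- one prior: the law for the difference of two contractions -/
theorem one_pr (hs : s = a ∨ s = c) (hAs : As * Asᵀ = Sgn N l b T s) [DecidableEq J]
    {B B' : Matrix (V (N / l)) (V (N / l)) ℝ} (hB : Ct B) (hB' : Ct B') :
    |H159.pr (B * Bᵀ - B' * B'ᵀ) (cbM N l b T s - Gnc N l b T T) -
      ∫ k, Tst N l b T (B * Bᵀ - B' * B'ᵀ) (((CN N l)ᵀ * As) *ᵥ k) ∂(gau J)| ≤
      (Real.exp ρ - 1 + pe) * (2 * (FarH.R1 n N l T a D lam β / (T / 2))) +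
        39 * (2 * ((N / l : ℕ) : ℝ) * (((N / l : ℕ) : ℝ) ^ 2 / a) * √pe) := by
  have T0 := h.T0
  have a0 := h.a0
  have has : a ≤ s := by
    rcases hs with hs | hs
    · exact hs.ge
    · rw [hs]; exact h.ac
  have hsT : s ≤ T / 2 := by
    rcases hs with hs | hs
    · rw [hs]; exact h.ac.trans h.cT
    · rw [hs]; exact h.cT
  have hs0 : 0 < s := h.a0.trans_le has
  have l1 := law_tor h.b0.le h.dl hs0 (by linarith : s < T) hAs (h.gm s hs) (h.gr s hs) h.rho0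
    h.pe0 h.pe1 (h.gp s hs) (B * Bᵀ - B' * B'ᵀ)
  refine l1.trans ?_
  have hct : ∀ {B : Matrix (V (N / l)) (V (N / l)) ℝ}, Ct B →
      ((1 : Matrix (V (N / l)) (V (N / l)) ℝ) - B * Bᵀ).PosSemidef := by
    intro B hB
    refine psd_of_qf ?_ fun u => ?_
    · rw [Matrix.transpose_sub, Matrix.transpose_one, H859.gram_symm]
    · rw [H859.qf_sub_m]
      have h3 : qf (1 : Matrix (V (N / l)) (V (N / l)) ℝ) u = ∑ x, u x ^ 2 := by
        rw [H37.qf_eq, Matrix.one_mulVec]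
        unfold dotProduct
        exact Finset.sum_congr rfl fun x _ => by ring
      rw [h3]
      linarith [hB u]
  have s1 := h.size has hsT hAs (psd_gram B) (hct hB)
  have s2 := h.size has hsT hAs (psd_gram B') (hct hB')
  have h1 : ∫ k, |Tst N l b T (B * Bᵀ - B' * B'ᵀ) (((CN N l)ᵀ * As) *ᵥ k)| ∂(gau J) ≤
      2 * (FarH.R1 n N l T a D lam β / (T / 2)) := by
    have h2 : ∫ k, |Tst N l b T (B * Bᵀ - B' * B'ᵀ) (((CN N l)ᵀ * As) *ᵥ k)| ∂(gau J) ≤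
        ∫ k, (Tst N l b T (B * Bᵀ) (((CN N l)ᵀ * As) *ᵥ k) +
          Tst N l b T (B' * B'ᵀ) (((CN N l)ᵀ * As) *ᵥ k)) ∂(gau J) := by
      refine integral_mono (meas_Tst h.b0.le h.T0 _ _).abs
        ((meas_Tst h.b0.le h.T0 _ _).add (meas_Tst h.b0.le h.T0 _ _)) fun k => ?_
      simp only
      rw [Tst_sub]
      have p1 := s1.1 (((CN N l)ᵀ * As) *ᵥ k)
      have p2 := s2.1 (((CN N l)ᵀ * As) *ᵥ k)
      rw [abs_le]
      constructor <;> linarith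
    refine h2.trans ?_
    rw [integral_add (meas_Tst h.b0.le h.T0 _ _) (meas_Tst h.b0.le h.T0 _ _)]
    linarith [s1.2, s2.2]
  have h3 : √(∑ i, ∑ j, (B * Bᵀ - B' * B'ᵀ) i j ^ 2) ≤ 2 * ((N / l : ℕ) : ℝ) := by
    have hc : (Fintype.card (V (N / l)) : ℝ) = ((N / l : ℕ) : ℝ) ^ 2 := TM.H764.card_V
    have h4 := hs_sub_le _ _ (ct_hs hB) (ct_hs hB')
    rw [hc] at h4
    rw [Real.sqrt_le_left (by positivity)]
    refine h4.trans (le_of_eq ?_)
    ring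
  have h5 : ((N / l : ℕ) : ℝ) ^ 2 / s ≤ ((N / l : ℕ) : ℝ) ^ 2 / a :=
    div_le_div_of_nonneg_left (by positivity) a0 has
  have h6 : √(∑ i, ∑ j, (B * Bᵀ - B' * B'ᵀ) i j ^ 2) * (((N / l : ℕ) : ℝ) ^ 2 / s) * √pe ≤
      2 * ((N / l : ℕ) : ℝ) * (((N / l : ℕ) : ℝ) ^ 2 / a) * √pe :=
    mul_le_mul_of_nonneg_right (mul_le_mul h3 h5 (by positivity) (by positivity))
      (Real.sqrt_nonneg _)
  have h7 := mul_le_mul_of_nonneg_left h1 h.ks
  linarith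

/-- **`Blk.ft`** -/
theorem ft {w w' : V nb} (hw : (K : ℝ) < tn (w' - w)) {B : Matrix (V (N / l)) (V (N / l)) ℝ}
    (hB : Ct B) (hsB : ∀ x j, B x j ≠ 0 → cx nb m x = w ∨ cx nb m x = w') :
    |H159.pr (B * Bᵀ) (dNm N l b T a c) -
      H159.pr (flp (cx nb m) w' B * (flp (cx nb m) w' B)ᵀ) (dNm N l b T a c)| ≤
      FarH.dff n N l T a D e lam β ε ρ pe := by
  classical
  have T0 := h.T0
  have a0 := h.a0
  have c0 : 0 < c := h.a0.trans_le h.ac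
  have hcT := h.cT
  have haT : a ≤ T / 2 := h.ac.trans h.cT
  have hd := ((H859.dat_neu' h.b0 h.dl h.T0).pd h.a0 h.aT).posSemidef
  obtain ⟨A₁, hA₁'⟩ := H239.exists_increment hd
  have hA₁ : A₁ * A₁ᵀ = Sgn N l b T a := hA₁'.symm
  have hd2 := ((H859.dat_neu' h.b0 h.dl h.T0).pd c0 (by linarith : c < T)).posSemidef
  obtain ⟨A₂, hA₂'⟩ := H239.exists_increment hd2
  have hA₂ : A₂ * A₂ᵀ = Sgn N l b T c := hA₂'.symm
  have L₁ := h.lw le_rfl haT hA₁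
  have L₂ := h.lw h.ac h.cT hA₂
  have e2 : 2 * (T / 4) = T / 2 := by ring
  have hww : ∀ x : V (N / l), cx nb m x = w → ¬cx nb m x = w' := by
    intro x hx hx'
    rw [hx] at hx'
    rw [hx', sub_self] at hw
    have h1 : tn (0 : V nb) = 0 := H239.tn_zero'
    rw [h1] at hw
    exact absurd hw (not_lt.2 (Nat.cast_nonneg K))
  have hβ1 : 4 * (2 * p) + 12 * Real.exp (-(√lam / 10)) ≤ β := by
    have := h.be1
    linarith
  have hβ2 : 4 * (4 * p) + 2 * Real.exp ((Fintype.card (V (N / l)) : ℝ) / 2 - Λ / 20) ≤ β := by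
    have h1 := h.be2
    have hc : (Fintype.card (V (N / l)) : ℝ) = ((N / l : ℕ) : ℝ) ^ 2 := TM.H764.card_V
    rw [hc]
    linarith
  have key := far_cells h.maj h.fq (κ := T / 4) (by positivity) (A' := (CN N l)ᵀ * A₂)
    (A'' := (CN N l)ᵀ * A₁) (by rw [e2]; exact h.low h.ac h.cT hA₂)
    (by rw [e2]; exact h.low le_rfl haT hA₁) L₂ L₁ h.e0 h.e1 h.D0 h.lam0 h.q_pos h.ep0 h.ra
    hβ1 hβ2 hww (h.loc w w' hw) hB hsB
  set B' : Matrix (V (N / l)) (V (N / l)) ℝ := flp (cx nb m) w' B with hB'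
  have eB : rw' (fun x => if cx nb m x = w' then -1 else 1) B = B' := rfl
  have hB'c : Ct B' := hB.row fun x => by
    split_ifs <;> norm_num
  rw [eB] at key
  have r1 := h.one_pr (s := a) (Or.inl rfl) hA₁ hB hB'c
  have r2 := h.one_pr (s := c) (Or.inr rfl) hA₂ hB hB'c
  have eT : ∀ (X : Matrix (V N) (V (N / l)) ℝ),
      ∫ k, Tst N l b T (B * Bᵀ - B' * B'ᵀ) (X *ᵥ k) ∂(gau (V (N / l))) =
      ∫ k, H447.pr (NR (nwt N b T 0) (X *ᵥ k)) ((CN N l)ᵀ * (B * Bᵀ) * ((CN N l)ᵀ)ᵀ)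
        ∂(gau (V (N / l))) -
      ∫ k, H447.pr (NR (nwt N b T 0) (X *ᵥ k)) ((CN N l)ᵀ * (B' * B'ᵀ) * ((CN N l)ᵀ)ᵀ)
        ∂(gau (V (N / l))) := by
    intro X
    rw [← integral_sub]
    · refine integral_congr_ae (Filter.Eventually.of_forall fun k => ?_)
      simp only [Tst_sub, Matrix.transpose_transpose]
      rfl
    · have h1 := meas_Tst (N := N) (l := l) (b := b) (T := T) h.b0.le h.T0 (B * Bᵀ) X
      rw [Matrix.transpose_transpose]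
      exact h1
    · have h1 := meas_Tst (N := N) (l := l) (b := b) (T := T) h.b0.le h.T0 (B' * B'ᵀ) X
      rw [Matrix.transpose_transpose]
      exact h1
  rw [eT] at r1 r2
  have eD : H159.pr (B * Bᵀ) (dNm N l b T a c) - H159.pr (B' * B'ᵀ) (dNm N l b T a c) =
      H159.pr (B * Bᵀ - B' * B'ᵀ) (cbM N l b T a - Gnc N l b T T) -
        H159.pr (B * Bᵀ - B' * B'ᵀ) (cbM N l b T c - Gnc N l b T T) := by
    unfold H159.pr H239.dNm
    rw [← Finset.sum_sub_distrib, ← Finset.sum_sub_distrib]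
    refine Finset.sum_congr rfl fun x _ => ?_
    rw [← Finset.sum_sub_distrib, ← Finset.sum_sub_distrib]
    refine Finset.sum_congr rfl fun y _ => ?_
    simp only [Matrix.sub_apply]
    ring
  rw [eD]
  unfold FarH.dff
  have a1 := abs_le.1 r1
  have a2 := abs_le.1 r2
  have a3 := abs_le.1 key
  rw [abs_le]
  constructor <;> linarith [a1.1, a1.2, a2.1, a2.2, a3.1, a3.2]

end FarH

end far

end

end Vale.Agent.P159.H43
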