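import Vale.Agent.P159.H43.Far6
import Vale.Agent.P159.H239.Typ

/-!
P159 / GLUE P_up, FAR part (helper43), part 7: the far numbers of `Blk` from `TypE` (helper239).

* `FarT` : hypotheses (typical set of the exact law at the two priors, locality);
* `FarT.fu` : `T δ₁ = 8 ε + 8 R₀² + 17500 q √β`;
* `FarT.ft` : `T δf = 32 ε / e + 176 e^(2 x - 1) R₀ + 16 R₀² + 8100 (N / l) q √β / e`;
with `R₀ = cl n (128 λ D)`, `q = (T / a) (N / l)²`, `x = 1 - 2⁻ⁿ`, `β ≥ 100 (p + e^(-√λ/10))`.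
-/

set_option linter.unusedSectionVars false

namespace Vale.Agent.P159.H43

open Finset Matrix MeasureTheory ProbabilityTheory
open Vale.Agent.P159.TM.H104 (EM Ex Cv K3 Lg li nh Gr)
open Vale.Agent.P159.H37
open Vale.Agent.P159.H159 (Ct rw' flp)
open Vale.Agent.P159.TM.Spec (V)
open Vale.Agent.P159.TM.H859 (tn rep nz)
open Vale.Agent.P159.H963 (Neu nwt Pn obsN Gnc)
open Vale.Agent.P159.H447 (Maj NR CN SN Bnwt K4S cl cl_nonneg cl_mono)
open Vale.Agent.P159.H692 (cx)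
open Vale.Agent.P159.H730 (wN)
open Vale.Agent.P159.H239 (cbM dNm TypE)
open Vale.Agent.P159.H859 (Sgn)

noncomputable section

/-! ### two scalar lemmas -/

/-- scaling of the profile -/
lemma cl_scale (n : ℕ) {e y : ℝ} (he : 0 < e) (hy : 0 ≤ y) :
    cl n (e ^ 4 * y) = e ^ (4 * (1 - (1 / 2 : ℝ) ^ n)) * cl n y := by
  rw [H447.cl_eq n (by positivity), H447.cl_eq n hy, Real.mul_rpow (by positivity) hy,
    ← Real.rpow_natCast e 4, ← Real.rpow_mul he.le]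
  push_cast
  ring

lemma s2_le {n : ℕ} {D e lam q β R : ℝ} (hD : 0 ≤ D) (he0 : 0 < e) (he1 : e ≤ 1)
    (hlam : 0 ≤ lam) (hR : cl n (128 * (lam * D)) ≤ R) :
    s2 n D e lam q β ≤ 22 * e ^ (2 * (1 - (1 / 2 : ℝ) ^ n)) * R + 144 * (q * √β) := by
  have hy : 0 ≤ lam * D := mul_nonneg hlam hD
  have hR0 : 0 ≤ R := (cl_nonneg _ _).trans hR
  have e1 : cl n (8 * (lam * (e ^ 4 * D))) =
      e ^ (4 * (1 - (1 / 2 : ℝ) ^ n)) * cl n (8 * (lam * D)) := by
    rw [← cl_scale n he0 (by positivity)]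
    congr 1
    ring
  have h1 : cl n (8 * (lam * D)) ≤ R := (cl_mono n (by linarith)).trans hR
  set x : ℝ := 1 - (1 / 2 : ℝ) ^ n with hx
  have hx0 : 0 ≤ x := by
    rw [hx, sub_nonneg]
    exact pow_le_one₀ (by norm_num) (by norm_num)
  set E : ℝ := e ^ (2 * x) with hE
  have hE0 : 0 < E := Real.rpow_pos_of_pos he0 _
  have hE1 : E ≤ 1 := Real.rpow_le_one he0.le he1 (by positivity)
  have e2 : e ^ (4 * x) = E ^ 2 := by
    rw [hE, ← Real.rpow_natCast, ← Real.rpow_mul he0.le]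
    congr 1
    push_cast
    ring
  rw [e2] at e1
  have h2 : cl n (8 * (lam * (e ^ 4 * D))) ≤ E ^ 2 * R := by
    rw [e1]
    exact mul_le_mul_of_nonneg_left h1 (sq_nonneg _)
  have h3 : √(cl n (128 * (lam * D))) * √(cl n (8 * (lam * (e ^ 4 * D)))) ≤ E * R := by
    have h4 : √(cl n (8 * (lam * (e ^ 4 * D)))) ≤ E * √R := by
      refine (Real.sqrt_le_sqrt h2).trans (le_of_eq ?_)
      rw [Real.sqrt_mul (sq_nonneg _), Real.sqrt_sq hE0.le]
    calc √(cl n (128 * (lam * D))) * √(cl n (8 * (lam * (e ^ 4 * D)))) ≤ √R * (E * √R) :=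
          mul_le_mul (Real.sqrt_le_sqrt hR) h4 (Real.sqrt_nonneg _) (Real.sqrt_nonneg _)
      _ = E * (√R * √R) := by ring
      _ = E * R := by rw [Real.mul_self_sqrt hR0]
  have h5 : E ^ 2 * R ≤ E * R := by
    refine mul_le_mul_of_nonneg_right ?_ hR0
    nlinarith
  unfold s2
  nlinarith

/-! ### the hypotheses -/

section far

variable {N l nb m : ℕ} [NeZero N] [NeZero (N / l)] [NeZero nb] [NeZero m]

/-- hypotheses of the far part in the letters of `TypE` -/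
structure FarT (N l nb m K : ℕ) [NeZero N] [NeZero (N / l)] [NeZero nb] [NeZero m]
    (b T a c : ℝ) (n : ℕ) (D e lam p β ε : ℝ) : Prop where
  b0 : 0 < b
  dl : l ∣ N
  a0 : 0 < a
  ac : a ≤ c
  cT : c ≤ T / 2
  D0 : 0 < D
  kD : (T ^ 2 / a) ^ 2 * K4S (nwt N b T 0) (SN N l) (SN N l) ≤ D
  e0 : 0 < e
  e1 : e ≤ 1
  lam0 : 0 ≤ lam
  ta : TypE N l b T a ((2 : ℝ) ^ (n + 2)) 1 p
  tc : TypE N l b T c ((2 : ℝ) ^ (n + 2)) 1 p
  ra : cl n (128 * (lam * D)) ≤ 1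
  be : 100 * (p + Real.exp (-(√lam / 10))) ≤ β
  be1 : β ≤ 1
  ep0 : 0 ≤ ε
  loc : ∀ w w' : V nb, (K : ℝ) < tn (w' - w) →
    FL (nwt N b T 0) (CN N l)ᵀ (fun x => cx nb m x = w) (fun x => cx nb m x = w')
      (Gfar N b T) (Bnwt N T 0) (T / 4 * (10 * ((N / l : ℕ) : ℝ) ^ 2 + 2 * √lam)) ε

namespace FarT

variable {K : ℕ} {b T a c : ℝ} {n : ℕ} {D e lam p β ε : ℝ}
variable (h : FarT N l nb m K b T a c n D e lam p β ε)
include h

lemma T0 : 0 < T := by linarith [h.a0, h.ac, h.cT]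

lemma p0 : 0 ≤ p := h.ta.nonneg h.b0.le h.dl h.a0 (by linarith [h.T0, h.ac, h.cT])

lemma hp : p ≤ 1 / 2 := by
  have h1 := h.be
  have h2 := h.be1
  have h3 := Real.exp_pos (-(√lam / 10))
  linarith

lemma be0 : 0 ≤ β := by
  have h1 := h.be
  have h2 := h.p0
  have h3 := Real.exp_pos (-(√lam / 10))
  linarith

lemma typ {s : ℝ} (hs : s = a ∨ s = c) : TypE N l b T s ((2 : ℝ) ^ (n + 2)) 1 p := by
  rcases hs with rfl | rfl
  · exact h.ta
  · exact h.tc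

/-- the exact good set with small `R` -/
lemma ex {s : ℝ} (hs : s = a ∨ s = c) :
    TypE N l b T s 1 (cl n (8 * (lam * D))) (18 * p + 17 * Real.exp (-(√lam / 10))) := by
  have T0 := h.T0
  have a0 := h.a0
  have has : a ≤ s := by
    rcases hs with hs | hs
    · exact hs.ge
    · rw [hs]; exact h.ac
  have hsT : s < T := by
    rcases hs with hs | hs
    · rw [hs]; linarith [h.ac, h.cT]
    · rw [hs]; linarith [h.cT]
  have hs0 : 0 < s := h.a0.trans_le has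
  have h2 : (1 : ℝ) ≤ 2 ^ (n + 1) := one_le_pow₀ (by norm_num)
  have h3 : (2 : ℝ) ^ (n + 2) = 2 * 2 ^ (n + 1) := by ring
  refine (h.typ hs).exact h.b0 h.dl hs0 hsT zero_le_one (by linarith) (by linarith) le_rfl h.hp
    h.D0 ?_ h.lam0
  rw [one_pow, one_mul]
  refine le_trans ?_ h.kD
  have hM := H447.maj_nwt (N := N) h.b0.le h.T0 0
  have hK : 0 ≤ K4S (nwt N b T 0) (SN N l) (SN N l) := by
    rw [← H447.CN_gram h.dl]
    exact H447.K4S_gram_nonneg hM.em hM.ev hM.pk _ _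
  refine mul_le_mul_of_nonneg_right ?_ hK
  refine pow_le_pow_left₀ (by positivity) ?_ 2
  exact div_le_div_of_nonneg_left (by positivity) a0 has

/-- **the hypotheses of the far part** -/
theorem far : ∃ A : Matrix (V (N / l)) (V (N / l)) ℝ,
    FarH N l nb m K b T a c A n D e lam (6 * p) β (10 * ((N / l : ℕ) : ℝ) ^ 2 + 2 * √lam) ε
      (cl n (8 * (lam * D))) (18 * p + 17 * Real.exp (-(√lam / 10)))
      (fun _ => {J : V N → ℝ | Rs (nwt N b T 0) ((1 : ℝ) • J) ≤ cl n (8 * (lam * D))}) := by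
  have T0 := h.T0
  have a0 := h.a0
  have aT : a < T := by linarith [h.ac, h.cT]
  have hd := ((H859.dat_neu' (N := N) (l := l) h.b0 h.dl h.T0).pd h.a0 aT).posSemidef
  obtain ⟨A, hA'⟩ := H239.exists_increment hd
  have hA : A * Aᵀ = Sgn N l b T a := hA'.symm
  have hE := Real.exp_pos (-(√lam / 10))
  have hp0 := h.p0
  have hb := h.be
  have hb1 := h.be1
  refine ⟨A, ?_⟩
  have h2 : (1 : ℝ) ≤ 2 ^ (n + 2) := one_le_pow₀ (by norm_num)
  refine ⟨h.b0, h.dl, h.a0, h.ac, h.cT, hA, h.D0, h.kD, h.e0, h.e1, h.lam0,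
    h.ta.gauss h.b0.le h.dl h.a0 aT hA h2 le_rfl h.hp, h.ra, by linarith, ?_, h.ep0, h.loc,
    cl_nonneg _ _, by positivity, by linarith, ?_, ?_, ?_⟩
  · have e1 : ((N / l : ℕ) : ℝ) ^ 2 / 2 - (10 * ((N / l : ℕ) : ℝ) ^ 2 + 2 * √lam) / 20 =
        -(√lam / 10) := by ring
    rw [e1]
    linarith
  · intro s _
    exact H239.typ_meas h.b0.le T0 1 _
  · intro s _ J hJ
    have h3 : Rs (nwt N b T 0) ((1 : ℝ) • J) ≤ cl n (8 * (lam * D)) := hJ
    rwa [one_smul] at h3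
  · intro s hs
    exact h.ex hs

lemma q1 : 1 ≤ T / a * ((N / l : ℕ) : ℝ) ^ 2 := by
  have T0 := h.T0
  have a0 := h.a0
  have h1 : (1 : ℝ) ≤ ((N / l : ℕ) : ℝ) ^ 2 := by
    have h2 : (1 : ℝ) ≤ ((N / l : ℕ) : ℝ) := by exact_mod_cast NeZero.pos (N / l)
    exact one_le_pow₀ h2
  have h2 : 1 ≤ T / a := by
    rw [le_div_iff₀ a0]
    linarith [h.ac, h.cT]
  nlinarith

lemma ks_le : Real.exp (cl n (8 * (lam * D))) - 1 +
    (18 * p + 17 * Real.exp (-(√lam / 10))) ≤ 2 * cl n (128 * (lam * D)) + β := by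
  have hz : 0 ≤ lam * D := mul_nonneg h.lam0 h.D0.le
  have h1 : cl n (8 * (lam * D)) ≤ cl n (128 * (lam * D)) := cl_mono n (by linarith)
  have h2 := cl_nonneg n (8 * (lam * D))
  have h3 : |Real.exp (cl n (8 * (lam * D))) - 1| ≤ 2 * |cl n (8 * (lam * D))| :=
    Real.abs_exp_sub_one_le (by rw [abs_of_nonneg h2]; exact h1.trans h.ra)
  rw [abs_of_nonneg h2] at h3
  have h4 := (abs_le.1 h3).2
  have h5 := h.be
  have h6 := h.p0
  have h7 := Real.exp_pos (-(√lam / 10))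
  linarith

lemma sq_be : √(18 * p + 17 * Real.exp (-(√lam / 10))) ≤ √β := by
  refine Real.sqrt_le_sqrt ?_
  have h5 := h.be
  have h6 := h.p0
  have h7 := Real.exp_pos (-(√lam / 10))
  linarith

lemma be_le : β ≤ T / a * ((N / l : ℕ) : ℝ) ^ 2 * √β := by
  have h1 := h.q1
  have h2 : β ≤ √β := by
    have h3 := Real.sqrt_le_one.2 h.be1
    have h4 := Real.mul_self_sqrt h.be0
    have h5 := Real.sqrt_nonneg β
    nlinarith
  have h5 := Real.sqrt_nonneg β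
  nlinarith

/-- the product of the law error and the size -/
lemma prod_le :
    (Real.exp (cl n (8 * (lam * D))) - 1 + (18 * p + 17 * Real.exp (-(√lam / 10)))) *
      FarH.R1 n N l T a D lam β ≤
    2 * cl n (128 * (lam * D)) ^ 2 + 73 * (T / a * ((N / l : ℕ) : ℝ) ^ 2 * √β) := by
  have h1 := h.ks_le
  have h2 := cl_nonneg n (128 * (lam * D))
  have h3 := h.ra
  have h4 := h.be_le
  have h5 := h.be0
  have h6 := h.be1
  unfold FarH.R1
  set R := cl n (128 * (lam * D))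
  set B := T / a * ((N / l : ℕ) : ℝ) ^ 2 * √β
  have hB : 0 ≤ B := h5.trans h4
  refine (mul_le_mul_of_nonneg_right h1 (by positivity : 0 ≤ R + 24 * B)).trans ?_
  nlinarith [mul_nonneg h2 hB, mul_nonneg h5 hB, mul_nonneg h5 h2,
    mul_nonneg (sub_nonneg.2 h3) hB, mul_nonneg (sub_nonneg.2 h6) hB,
    mul_nonneg (sub_nonneg.2 h3) h5]

/-- `T δ₁` -/
theorem fu {w w' : V nb} (hw : (K : ℝ) < tn (w' - w)) {g g' : V (N / l) → ℝ}
    (hg : ∀ x, cx nb m x ≠ w → g x = 0) (hg' : ∀ x, cx nb m x ≠ w' → g' x = 0) :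
    |bf (dNm N l b T a c) g g'| ≤
      (8 * ε + 8 * cl n (128 * (lam * D)) ^ 2 +
        17500 * (T / a * ((N / l : ℕ) : ℝ) ^ 2 * √β)) / T *
        (√(∑ x, g x ^ 2) * √(∑ x, g' x ^ 2)) := by
  obtain ⟨A, hF⟩ := h.far
  refine (hF.fu hw hg hg').trans (mul_le_mul_of_nonneg_right ?_ (by positivity))
  have T0 := h.T0
  have a0 := h.a0
  have h1 := h.prod_le
  have h2 := h.sq_be
  have hB : 0 ≤ T / a * ((N / l : ℕ) : ℝ) ^ 2 * √β := by positivity
  rw [le_div_iff₀ T0]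
  unfold FarH.dlf FarH.eL
  set X := Real.exp (cl n (8 * (lam * D))) - 1 + (18 * p + 17 * Real.exp (-(√lam / 10)))
  set P := √(18 * p + 17 * Real.exp (-(√lam / 10)))
  have h3 : ((N / l : ℕ) : ℝ) ^ 2 / a * P ≤ ((N / l : ℕ) : ℝ) ^ 2 / a * √β :=
    mul_le_mul_of_nonneg_left h2 (by positivity)
  have e1 : 2 * (4 / T * (ε + 2136 * (T / a * ((N / l : ℕ) : ℝ) ^ 2 * √β)) +
      (X * (FarH.R1 n N l T a D lam β / (T / 2)) + 39 * (((N / l : ℕ) : ℝ) ^ 2 / a * P))) * T =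
      8 * (ε + 2136 * (T / a * ((N / l : ℕ) : ℝ) ^ 2 * √β)) +
        4 * (X * FarH.R1 n N l T a D lam β) + 78 * T * (((N / l : ℕ) : ℝ) ^ 2 / a * P) := by
    field_simp
    ring
  rw [e1]
  have h4 : 78 * T * (((N / l : ℕ) : ℝ) ^ 2 / a * P) ≤
      78 * (T / a * ((N / l : ℕ) : ℝ) ^ 2 * √β) := by
    have h5 := mul_le_mul_of_nonneg_left h3 (by positivity : 0 ≤ 78 * T)
    refine h5.trans (le_of_eq ?_)
    field_simp
  linarith

/-- `T δf` -/
theorem ft {w w' : V nb} (hw : (K : ℝ) < tn (w' - w)) {B : Matrix (V (N / l)) (V (N / l)) ℝ}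
    (hB : Ct B) (hsB : ∀ x j, B x j ≠ 0 → cx nb m x = w ∨ cx nb m x = w') :
    |H159.pr (B * Bᵀ) (dNm N l b T a c) -
      H159.pr (flp (cx nb m) w' B * (flp (cx nb m) w' B)ᵀ) (dNm N l b T a c)| ≤
      (32 * ε / e + 176 * e ^ (2 * (1 - (1 / 2 : ℝ) ^ n) - 1) * cl n (128 * (lam * D)) +
        16 * cl n (128 * (lam * D)) ^ 2 +
        8100 * (((N / l : ℕ) : ℝ) * (T / a * ((N / l : ℕ) : ℝ) ^ 2 * √β)) / e) / T := by
  obtain ⟨A, hF⟩ := h.far
  refine (hF.ft hw hB hsB).trans ?_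
  have T0 := h.T0
  have a0 := h.a0
  have he0 := h.e0
  have he1 := h.e1
  have h1 := h.prod_le
  have h2 := h.sq_be
  have hs := s2_le (n := n) (q := T / a * ((N / l : ℕ) : ℝ) ^ 2) (β := β) h.D0.le he0 he1 h.lam0
    (le_refl (cl n (128 * (lam * D))))
  have hN : (1 : ℝ) ≤ ((N / l : ℕ) : ℝ) := by exact_mod_cast NeZero.pos (N / l)
  have hB : 0 ≤ T / a * ((N / l : ℕ) : ℝ) ^ 2 * √β := by positivity
  rw [le_div_iff₀ T0]
  unfold FarH.dff
  have ee : e ^ (2 * (1 - (1 / 2 : ℝ) ^ n) - 1) = e ^ (2 * (1 - (1 / 2 : ℝ) ^ n)) / e := by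
    rw [Real.rpow_sub he0, Real.rpow_one]
  rw [ee]
  set E := e ^ (2 * (1 - (1 / 2 : ℝ) ^ n))
  set R := cl n (128 * (lam * D))
  set S := s2 n D e lam (T / a * ((N / l : ℕ) : ℝ) ^ 2) β
  set X := Real.exp (cl n (8 * (lam * D))) - 1 + (18 * p + 17 * Real.exp (-(√lam / 10)))
  set P := √(18 * p + 17 * Real.exp (-(√lam / 10)))
  set M := ((N / l : ℕ) : ℝ)
  have e1 : ((8 * (ε + 192 * (T / a * M ^ 2 * √β)) + 2 * S) / e / (T / 4) +
      2 * (X * (2 * (FarH.R1 n N l T a D lam β / (T / 2))) +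
        39 * (2 * M * (M ^ 2 / a) * P))) * T =
      (32 * ε + 6144 * (T / a * M ^ 2 * √β) + 8 * S) / e +
        8 * (X * FarH.R1 n N l T a D lam β) + 156 * (M * (T / a * M ^ 2 * P)) := by
    field_simp
    ring
  rw [e1]
  have h3 : M * (T / a * M ^ 2 * P) ≤ M * (T / a * M ^ 2 * √β) :=
    mul_le_mul_of_nonneg_left (mul_le_mul_of_nonneg_left h2 (by positivity)) (by positivity)
  set Q := T / a * M ^ 2 * √β
  have h4 : (32 * ε + 6144 * Q + 8 * S) / e ≤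
      32 * ε / e + 176 * (E / e) * R + 7296 * (Q / e) := by
    have h5 : 32 * ε / e + 176 * (E / e) * R + 7296 * (Q / e) =
        (32 * ε + 176 * E * R + 7296 * Q) / e := by
      field_simp
    rw [h5]
    refine div_le_div_of_nonneg_right ?_ he0.le
    linarith
  have h6 : Q ≤ Q / e := by
    rw [le_div_iff₀ he0]
    nlinarith
  have h7 : Q / e ≤ M * Q / e := by
    refine div_le_div_of_nonneg_right ?_ he0.le
    nlinarith
  have h8 : M * Q ≤ M * Q / e := by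
    rw [le_div_iff₀ he0]
    nlinarith [mul_nonneg (zero_le_one.trans hN) hB]
  have h9 : 8100 * (M * Q) / e = 8100 * (M * Q / e) := by ring
  rw [h9]
  have h10 : 0 ≤ M * Q / e := by positivity
  linarith

end FarT

end far

end

end Vale.Agent.P159.H43
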