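import Vale.Agent.P159.H43.Far7

/-!
P159 / GLUE P_up, FAR part (helper43), numbers, part 1: monomial bounds and the two scalar
inequalities of the far part.
-/

set_option linter.unusedSectionVars false

namespace Vale.Agent.P159.H43

open Vale.Agent.P159.H447 (cl cl_nonneg cl_mono)

noncomputable section

/-! ### monomial bounds -/

/-- `0 ≤ A ≤ c ε^α` -/
structure Mb (ε A c α : ℝ) : Prop where
  nn : 0 ≤ A
  le : A ≤ c * ε ^ α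

section mb

variable {ε A B c d α β : ℝ}

lemma Mb.c0 (hε : 0 < ε) (h : Mb ε A c α) : 0 ≤ c := by
  have h1 := h.nn.trans h.le
  have h2 := Real.rpow_pos_of_pos hε α
  by_contra hc
  push Not at hc
  have := mul_neg_of_neg_of_pos hc h2
  linarith

lemma Mb.mul (hε : 0 < ε) (h : Mb ε A c α) (h' : Mb ε B d β) : Mb ε (A * B) (c * d) (α + β) := by
  refine ⟨mul_nonneg h.nn h'.nn, ?_⟩
  have h1 := mul_le_mul h.le h'.le h'.nn (h.nn.trans h.le)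
  refine h1.trans (le_of_eq ?_)
  rw [Real.rpow_add hε]
  ring

lemma Mb.pow (hε : 0 < ε) (h : Mb ε A c α) (k : ℕ) : Mb ε (A ^ k) (c ^ k) (k * α) := by
  refine ⟨pow_nonneg h.nn k, ?_⟩
  have h1 := pow_le_pow_left₀ h.nn h.le k
  refine h1.trans (le_of_eq ?_)
  rw [mul_pow, ← Real.rpow_natCast (ε ^ α), ← Real.rpow_mul hε.le, mul_comm α]

lemma Mb.rpow (hε : 0 < ε) (h : Mb ε A c α) {x : ℝ} (hx : 0 ≤ x) :
    Mb ε (A ^ x) (c ^ x) (x * α) := by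
  refine ⟨Real.rpow_nonneg h.nn x, ?_⟩
  have h1 := Real.rpow_le_rpow h.nn h.le hx
  refine h1.trans (le_of_eq ?_)
  rw [Real.mul_rpow (h.c0 hε) (Real.rpow_nonneg hε.le _), ← Real.rpow_mul hε.le, mul_comm α]

lemma Mb.sqrt (hε : 0 < ε) (h : Mb ε A c α) : Mb ε (√A) (√c) (1 / 2 * α) := by
  rw [Real.sqrt_eq_rpow, Real.sqrt_eq_rpow]
  exact h.rpow hε (by norm_num)

lemma Mb.smul (h : Mb ε A c α) {k : ℝ} (hk : 0 ≤ k) : Mb ε (k * A) (k * c) α := by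
  refine ⟨mul_nonneg hk h.nn, ?_⟩
  have h1 := mul_le_mul_of_nonneg_left h.le hk
  linarith

/-- a smaller exponent and a larger constant -/
lemma Mb.weak (hε : 0 < ε) (hε1 : ε ≤ 1) (h : Mb ε A c α) (hc : c ≤ d) (hα : β ≤ α) :
    Mb ε A d β := by
  refine ⟨h.nn, h.le.trans ?_⟩
  exact mul_le_mul hc (Real.rpow_le_rpow_of_exponent_ge hε hε1 hα) (Real.rpow_nonneg hε.le _)
    ((h.c0 hε).trans hc)

lemma Mb.add (h : Mb ε A c α) (h' : Mb ε B d α) : Mb ε (A + B) (c + d) α :=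
  ⟨add_nonneg h.nn h'.nn, by linarith [h.le, h'.le]⟩

lemma Mb.of_le (h : Mb ε A c α) (hB : 0 ≤ B) (hBA : B ≤ A) : Mb ε B c α :=
  ⟨hB, hBA.trans h.le⟩

lemma Mb.one : Mb ε 1 1 0 := ⟨zero_le_one, by rw [Real.rpow_zero, mul_one]⟩

lemma Mb.self (hε : 0 < ε) (α : ℝ) : Mb ε (ε ^ α) 1 α :=
  ⟨Real.rpow_nonneg hε.le _, by rw [one_mul]⟩

end mb

/-! ### the number of steps -/

/-- `J` with `2^(-J) ≤ sg / 64` -/
def Js (sg : ℝ) : ℕ := ⌈Real.logb 2 (64 / sg)⌉₊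

lemma Js_le {sg : ℝ} (hsg : 0 < sg) : (1 / 2 : ℝ) ^ Js sg ≤ sg / 64 := by
  have h1 : Real.logb 2 (64 / sg) ≤ Js sg := Nat.le_ceil _
  have h2 : 64 / sg ≤ (2 : ℝ) ^ (Js sg : ℝ) := by
    rw [← Real.logb_le_iff_le_rpow one_lt_two (by positivity)]
    exact h1
  rw [Real.rpow_natCast] at h2
  rw [one_div, inv_pow, inv_le_comm₀ (by positivity) (by positivity), inv_div]
  exact h2

/-- the total constant -/
def CtN (Cx : ℝ) : ℝ := 2 ^ 131 + 2 ^ 31 * Cx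

/-- the small numbers of the far part in terms of `ε` -/
structure FNum (sg thp C0 ε M nb NL Ta lam D : ℝ) : Prop where
  ε0 : 0 < ε
  ε1 : ε ≤ 1
  sg0 : 0 < sg
  sg1 : sg ≤ 1
  thp0 : 0 < thp
  thpsg : thp ≤ sg / 4000
  C00 : 0 < C0
  hM : Mb ε M 16 (-(4 * thp))
  hnb : Mb ε nb 64 (-(5 * thp))
  hNL : Mb ε NL 128 (-(5 * thp + C0))
  hTa : Mb ε Ta 1024 (-(8 * thp))
  hlam : lam = 100 * ε ^ (-(2 * thp))
  hD : Mb ε D (2 ^ 33) (1 - 26 * thp)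

namespace FNum

variable {sg thp C0 ε M nb NL Ta lam D : ℝ} (h : FNum sg thp C0 ε M nb NL Ta lam D)
include h

/-- the smallness `R₀` -/
lemma R0 : Mb ε (cl (Js sg) (128 * (lam * D))) (2 ^ 50) (1 - sg / 40) := by
  have ε0 := h.ε0
  have ε1 := h.ε1
  have hJ := Js_le h.sg0
  have hsg1 := h.sg1
  have hsg0 := h.sg0
  have ht := h.thpsg
  set x : ℝ := 1 - (1 / 2 : ℝ) ^ Js sg with hx
  have hu0 : 0 < (1 / 2 : ℝ) ^ Js sg := by positivity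
  have hx0 : 0 ≤ x := by linarith
  have hx1 : x ≤ 1 := by linarith
  have hl : Mb ε lam 100 (-(2 * thp)) := by
    rw [h.hlam]
    exact ⟨by positivity, le_rfl⟩
  have h1 : Mb ε (128 * (lam * D)) (128 * (100 * 2 ^ 33)) (-(2 * thp) + (1 - 26 * thp)) :=
    (hl.mul ε0 h.hD).smul (by norm_num)
  rw [H447.cl_eq _ h1.nn]
  have h2 := (h1.rpow ε0 hx0).smul (by norm_num : (0 : ℝ) ≤ 8)
  refine h2.weak ε0 ε1 ?_ ?_
  · have h3 : (128 * (100 * 2 ^ 33) : ℝ) ^ x ≤ (128 * (100 * 2 ^ 33) : ℝ) ^ (1 : ℝ) :=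
      Real.rpow_le_rpow_of_exponent_le (by norm_num) hx1
    rw [Real.rpow_one] at h3
    calc 8 * (128 * (100 * 2 ^ 33) : ℝ) ^ x ≤ 8 * (128 * (100 * 2 ^ 33)) := by linarith
      _ ≤ 2 ^ 50 := by norm_num
  · have h4 := h.thp0
    nlinarith

omit h in
lemma fin {κ q A δ Cx : ℝ} (hε : 0 < ε) (hε1 : ε ≤ 1) (hA : Mb ε A (CtN Cx) (1 + δ))
    (hδ : sg / 12 ≤ δ) (hE : CtN Cx * ε ^ (sg / 12) ≤ κ / 64) (hq : ε / 8 ≤ q) :
    A ≤ κ / 8 * q := by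
  have h1 := hA.le
  have hc := hA.c0 hε
  rw [Real.rpow_add hε, Real.rpow_one] at h1
  have h2 : ε ^ δ ≤ ε ^ (sg / 12) := Real.rpow_le_rpow_of_exponent_ge hε hε1 hδ
  have h3 : CtN Cx * ε ^ δ ≤ κ / 64 := (mul_le_mul_of_nonneg_left h2 hc).trans hE
  have hκ : 0 ≤ κ / 64 := (mul_nonneg hc (Real.rpow_nonneg hε.le _)).trans h3
  calc A ≤ CtN Cx * (ε * ε ^ δ) := h1
    _ = CtN Cx * ε ^ δ * ε := by ring
    _ ≤ κ / 64 * ε := mul_le_mul_of_nonneg_right h3 hε.le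
    _ ≤ κ / 8 * q := by nlinarith

omit h in
lemma fin2 {κ q A B δ Cx : ℝ} (hε : 0 < ε) (hε1 : ε ≤ 1) (hB : Mb ε B (CtN Cx) δ)
    (hδ : sg / 12 ≤ δ) (hE : CtN Cx * ε ^ (sg / 12) ≤ κ / 64) (hq : 0 ≤ q)
    (hA : A ≤ B * q) : A ≤ κ / 8 * q := by
  have h1 := hB.le
  have hc := hB.c0 hε
  have h2 : ε ^ δ ≤ ε ^ (sg / 12) := Real.rpow_le_rpow_of_exponent_ge hε hε1 hδ
  have h3 : CtN Cx * ε ^ δ ≤ κ / 64 := (mul_le_mul_of_nonneg_left h2 hc).trans hE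
  have hκ : 0 ≤ κ / 64 := (mul_nonneg hc (Real.rpow_nonneg hε.le _)).trans h3
  have h4 : B ≤ κ / 8 := by linarith
  exact hA.trans (mul_le_mul_of_nonneg_right h4 hq)

variable {exl β q Y κ mm Cx : ℝ}

/-- the tail `B = Ta NL² √β` -/
lemma tail (hβ : Mb ε β 200 (6 * C0 + 10)) :
    Mb ε (Ta * NL ^ 2 * √β) (2 ^ 28) (4 + C0) := by
  have ε0 := h.ε0
  have h1 := (h.hTa.mul ε0 (h.hNL.pow ε0 2)).mul ε0 (hβ.sqrt ε0)
  refine h1.weak ε0 h.ε1 ?_ ?_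
  · have h2 : √(200 : ℝ) ≤ 15 := by
      rw [Real.sqrt_le_left (by norm_num)]
      norm_num
    calc (1024 : ℝ) * 128 ^ 2 * √200 ≤ 1024 * 128 ^ 2 * 15 := by gcongr
      _ ≤ 2 ^ 28 := by norm_num
  · have h3 := h.thpsg
    have h4 := h.sg1
    push_cast
    linarith

lemma ymax (hq : q = max (ε / 8) (ε ^ (-(sg / 2)) * Y ^ 2)) :
    max Y ε ^ 2 ≤ 9 * ε ^ (sg / 2) * q := by
  have ε0 := h.ε0
  have h1 : ε / 8 ≤ q := by rw [hq]; exact le_max_left _ _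
  have h2 : ε ^ (-(sg / 2)) * Y ^ 2 ≤ q := by rw [hq]; exact le_max_right _ _
  have hp : 0 < ε ^ (sg / 2) := Real.rpow_pos_of_pos ε0 _
  have h3 : Y ^ 2 ≤ ε ^ (sg / 2) * q := by
    have h4 := mul_le_mul_of_nonneg_left h2 hp.le
    have h5 : ε ^ (sg / 2) * (ε ^ (-(sg / 2)) * Y ^ 2) = Y ^ 2 := by
      rw [← mul_assoc, ← Real.rpow_add ε0, add_neg_cancel, Real.rpow_zero, one_mul]
    rwa [h5] at h4
  have h6 : ε ≤ ε ^ (sg / 2) := by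
    have := Real.rpow_le_rpow_of_exponent_ge ε0 h.ε1 (by linarith [h.sg1] : sg / 2 ≤ 1)
    rwa [Real.rpow_one] at this
  have h7 : ε ^ 2 ≤ 8 * ε ^ (sg / 2) * q := by
    have hq0 : 0 ≤ q := by linarith
    nlinarith [mul_le_mul_of_nonneg_right h6 hq0, mul_le_mul_of_nonneg_left h1 ε0.le]
  have h8 : max Y ε ^ 2 ≤ Y ^ 2 + ε ^ 2 := by
    rcases le_total Y ε with h9 | h9
    · rw [max_eq_right h9]
      nlinarith [sq_nonneg Y]
    · rw [max_eq_left h9]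
      nlinarith [sq_nonneg ε]
  linarith

/-- **the first number** : `T δ₁ nb⁴ (m - n + 1)` -/
theorem B2 (hκ : 0 ≤ κ) (hmm : 0 ≤ mm) (hmM : mm ≤ M) (hCx : 0 ≤ Cx) (hexl : Mb ε exl Cx 8)
    (hβ : Mb ε β 200 (6 * C0 + 10))
    (hq : q = max (ε / 8) (ε ^ (-(sg / 2)) * Y ^ 2))
    (hE : CtN Cx * ε ^ (sg / 12) ≤ κ / 64) :
    (8 * (exl + 8 * (2 * (nb ^ 2 * max Y ε)) ^ 2) + 8 * cl (Js sg) (128 * (lam * D)) ^ 2 +
      17500 * (Ta * NL ^ 2 * √β)) * nb ^ 4 * mm ≤ κ * q := by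
  have ε0 := h.ε0
  have ε1 := h.ε1
  have sg1 := h.sg1
  have sg0 := h.sg0
  have ht := h.thpsg
  have ht0 := h.thp0
  have C00 := h.C00
  have hq1 : ε / 8 ≤ q := by rw [hq]; exact le_max_left _ _
  have hq0 : 0 ≤ q := by linarith
  have hM' : Mb ε mm 16 (-(4 * thp)) := h.hM.of_le hmm hmM
  have hn4 := (h.hnb.pow ε0 4).mul ε0 hM'
  have hn8 := (h.hnb.pow ε0 8).mul ε0 hM'
  push_cast at hn4 hn8
  have hCt : (2 : ℝ) ^ 131 ≤ CtN Cx := by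
    unfold CtN
    nlinarith
  have hCt2 : (2 : ℝ) ^ 31 * Cx ≤ CtN Cx := by
    unfold CtN
    have : (0 : ℝ) < 2 ^ 131 := by positivity
    linarith
  -- the four terms
  have t1 : 8 * (exl * (nb ^ 4 * mm)) ≤ κ / 8 * q := by
    refine fin (sg := sg) (δ := 1) ε0 ε1 (((hexl.mul ε0 hn4).smul (by norm_num)).weak ε0 ε1 ?_ ?_)
      (by linarith) hE hq1
    · refine le_trans (le_of_eq ?_) hCt2
      ring
    · linarith
  have t2 : 256 * (nb ^ 8 * mm * max Y ε ^ 2) ≤ κ / 8 * q := by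
    have h1 := h.ymax hq
    have h2 : Mb ε (nb ^ 8 * mm * ε ^ (sg / 2)) (64 ^ 8 * 16 * 1)
        (8 * -(5 * thp) + -(4 * thp) + sg / 2) := hn8.mul ε0 (Mb.self ε0 _)
    refine fin2 (sg := sg) (B := 2304 * (nb ^ 8 * mm * ε ^ (sg / 2))) (δ := sg / 4) ε0 ε1
      ((h2.smul (by norm_num)).weak ε0 ε1 ?_ ?_) (by linarith) hE hq0 ?_
    · refine le_trans ?_ hCt
      norm_num
    · linarith
    · have h3 := mul_le_mul_of_nonneg_left h1 hn8.nn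
      nlinarith
  have t3 : 8 * (cl (Js sg) (128 * (lam * D)) ^ 2 * (nb ^ 4 * mm)) ≤ κ / 8 * q := by
    have h1 := h.R0.pow ε0 2
    push_cast at h1
    refine fin (sg := sg) (δ := 1 / 2) ε0 ε1
      (((h1.mul ε0 hn4).smul (by norm_num)).weak ε0 ε1 ?_ ?_) (by linarith) hE hq1
    · refine le_trans ?_ hCt
      norm_num
    · linarith
  have t4 : 17500 * ((Ta * NL ^ 2 * √β) * (nb ^ 4 * mm)) ≤ κ / 8 * q := by
    refine fin (sg := sg) (δ := 1) ε0 ε1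
      ((((h.tail hβ).mul ε0 hn4).smul (by norm_num)).weak ε0 ε1 ?_ ?_) (by linarith) hE hq1
    · refine le_trans ?_ hCt
      norm_num
    · linarith
  have e : (8 * (exl + 8 * (2 * (nb ^ 2 * max Y ε)) ^ 2) + 8 * cl (Js sg) (128 * (lam * D)) ^ 2 +
      17500 * (Ta * NL ^ 2 * √β)) * nb ^ 4 * mm =
      8 * (exl * (nb ^ 4 * mm)) + 256 * (nb ^ 8 * mm * max Y ε ^ 2) +
      8 * (cl (Js sg) (128 * (lam * D)) ^ 2 * (nb ^ 4 * mm)) +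
      17500 * ((Ta * NL ^ 2 * √β) * (nb ^ 4 * mm)) := by ring
  rw [e]
  have : 0 ≤ κ * q := mul_nonneg hκ hq0
  linarith

/-- **the second number** : `T δf nb²`, `e = ε^(sg / 8)` -/
theorem B4 (hκ : 0 ≤ κ) (hCx : 0 ≤ Cx) (hexl : Mb ε exl Cx 8)
    (hβ : Mb ε β 200 (6 * C0 + 10))
    (hq : q = max (ε / 8) (ε ^ (-(sg / 2)) * Y ^ 2))
    (hE : CtN Cx * ε ^ (sg / 12) ≤ κ / 64) :
    (32 * (exl + 8 * (2 * (nb ^ 2 * max Y ε)) ^ 2) / ε ^ (sg / 8) +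
      176 * (ε ^ (sg / 8)) ^ (2 * (1 - (1 / 2 : ℝ) ^ Js sg) - 1) *
        cl (Js sg) (128 * (lam * D)) +
      16 * cl (Js sg) (128 * (lam * D)) ^ 2 +
      8100 * (NL * (Ta * NL ^ 2 * √β)) / ε ^ (sg / 8)) * nb ^ 2 ≤ κ * q := by
  have ε0 := h.ε0
  have ε1 := h.ε1
  have sg1 := h.sg1
  have sg0 := h.sg0
  have ht := h.thpsg
  have ht0 := h.thp0
  have C00 := h.C00
  have hJ := Js_le sg0
  have hu0 : 0 < (1 / 2 : ℝ) ^ Js sg := by positivity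
  have hq1 : ε / 8 ≤ q := by rw [hq]; exact le_max_left _ _
  have hq0 : 0 ≤ q := by linarith
  have hn2 := h.hnb.pow ε0 2
  have hn6 := h.hnb.pow ε0 6
  push_cast at hn2 hn6
  have hCt : (2 : ℝ) ^ 131 ≤ CtN Cx := by
    unfold CtN
    nlinarith
  have hCt2 : (2 : ℝ) ^ 31 * Cx ≤ CtN Cx := by
    unfold CtN
    have : (0 : ℝ) < 2 ^ 131 := by positivity
    linarith
  have hi : (ε ^ (sg / 8))⁻¹ = ε ^ (-(sg / 8)) := (Real.rpow_neg ε0.le _).symm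
  have he : Mb ε (ε ^ (-(sg / 8))) 1 (-(sg / 8)) := Mb.self ε0 _
  have s1 : 32 * (exl * ε ^ (-(sg / 8)) * nb ^ 2) ≤ κ / 8 * q := by
    refine fin (sg := sg) (δ := 1) ε0 ε1
      ((((hexl.mul ε0 he).mul ε0 hn2).smul (by norm_num)).weak ε0 ε1 ?_ ?_)
      (by linarith) hE hq1
    · refine le_trans ?_ hCt2
      nlinarith
    · linarith
  have s2 : 1024 * (nb ^ 6 * ε ^ (-(sg / 8)) * max Y ε ^ 2) ≤ κ / 8 * q := by
    have h1 := h.ymax hq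
    have h2 : Mb ε (nb ^ 6 * ε ^ (-(sg / 8)) * ε ^ (sg / 2)) (64 ^ 6 * 1 * 1)
        (6 * -(5 * thp) + -(sg / 8) + sg / 2) := (hn6.mul ε0 he).mul ε0 (Mb.self ε0 _)
    refine fin2 (sg := sg) (B := 9216 * (nb ^ 6 * ε ^ (-(sg / 8)) * ε ^ (sg / 2))) (δ := sg / 4)
      ε0 ε1 ((h2.smul (by norm_num)).weak ε0 ε1 ?_ ?_) (by linarith) hE hq0 ?_
    · refine le_trans ?_ hCt
      norm_num
    · linarith
    · have h3 := mul_le_mul_of_nonneg_left h1 (hn6.mul ε0 he).nn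
      nlinarith
  have s3 : 176 * ((ε ^ (sg / 8)) ^ (2 * (1 - (1 / 2 : ℝ) ^ Js sg) - 1) *
      cl (Js sg) (128 * (lam * D)) * nb ^ 2) ≤ κ / 8 * q := by
    have h1 : (ε ^ (sg / 8)) ^ (2 * (1 - (1 / 2 : ℝ) ^ Js sg) - 1) =
        ε ^ (sg / 8 * (2 * (1 - (1 / 2 : ℝ) ^ Js sg) - 1)) := (Real.rpow_mul ε0.le _ _).symm
    rw [h1]
    refine fin (sg := sg) (δ := sg / 12) ε0 ε1
      (((((Mb.self ε0 _).mul ε0 h.R0).mul ε0 hn2).smul (by norm_num)).weak ε0 ε1 ?_ ?_)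
      le_rfl hE hq1
    · refine le_trans ?_ hCt
      norm_num
    · nlinarith
  have s4 : 16 * (cl (Js sg) (128 * (lam * D)) ^ 2 * nb ^ 2) ≤ κ / 8 * q := by
    have h1 := h.R0.pow ε0 2
    push_cast at h1
    refine fin (sg := sg) (δ := 1 / 2) ε0 ε1
      (((h1.mul ε0 hn2).smul (by norm_num)).weak ε0 ε1 ?_ ?_) (by linarith) hE hq1
    · refine le_trans ?_ hCt
      norm_num
    · linarith
  have s5 : 8100 * (NL * (Ta * NL ^ 2 * √β) * ε ^ (-(sg / 8)) * nb ^ 2) ≤ κ / 8 * q := by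
    refine fin (sg := sg) (δ := 1) ε0 ε1
      (((((h.hNL.mul ε0 (h.tail hβ)).mul ε0 he).mul ε0 hn2).smul (by norm_num)).weak ε0 ε1 ?_ ?_)
      (by linarith) hE hq1
    · refine le_trans ?_ hCt
      norm_num
    · linarith
  have e : (32 * (exl + 8 * (2 * (nb ^ 2 * max Y ε)) ^ 2) / ε ^ (sg / 8) +
      176 * (ε ^ (sg / 8)) ^ (2 * (1 - (1 / 2 : ℝ) ^ Js sg) - 1) *
        cl (Js sg) (128 * (lam * D)) +
      16 * cl (Js sg) (128 * (lam * D)) ^ 2 +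
      8100 * (NL * (Ta * NL ^ 2 * √β)) / ε ^ (sg / 8)) * nb ^ 2 =
      32 * (exl * ε ^ (-(sg / 8)) * nb ^ 2) +
      1024 * (nb ^ 6 * ε ^ (-(sg / 8)) * max Y ε ^ 2) +
      176 * ((ε ^ (sg / 8)) ^ (2 * (1 - (1 / 2 : ℝ) ^ Js sg) - 1) *
        cl (Js sg) (128 * (lam * D)) * nb ^ 2) +
      16 * (cl (Js sg) (128 * (lam * D)) ^ 2 * nb ^ 2) +
      8100 * (NL * (Ta * NL ^ 2 * √β) * ε ^ (-(sg / 8)) * nb ^ 2) := by
    rw [← hi]
    ring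
  rw [e]
  have : 0 ≤ κ * q := mul_nonneg hκ hq0
  linarith

end FNum

end

end Vale.Agent.P159.H43
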