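import Vale.Agent.P159.H43.FarN1
import Vale.Agent.P159.H43.OscP
import Vale.Agent.P159.H145.Nu1

/-!
P159 / GLUE P_up, FAR part (helper43), numbers, part 2: **the far inputs of `D0I`** (helper159,
`H159/D0G`): `Blk.fu`, `Blk.ft` and the numbers (B2), (B4), from the state at level `n`.

Inputs: `StN` (helper145), `Rng` on the torus `2 ^ r`, the number `yt` at the mass `4 t_n`, `DN ≤ ε`
at one real mass `T ∈ [t_n, 4 t_n]`, typical sources `TypE` at the priors `t_m`, `4 t_m`.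
-/

set_option linter.unusedSectionVars false

namespace Vale.Agent.P159.H43

open Finset Matrix
open Vale.Agent.P159.H37
open Vale.Agent.P159.H159 (Ct flp)
open Vale.Agent.P159.TM.Spec (V Rng)
open Vale.Agent.P159.TM.SpecC (Tor wT)
open Vale.Agent.P159.H447 (cl cl_nonneg K4S SN CN Bnwt)
open Vale.Agent.P159.H963 (nwt)
open Vale.Agent.P159.H239 (TypE dNm)
open Vale.Agent.P159.H692 (cx)
open Vale.Agent.P159.H972 (tn DN lg)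
open Vale.Agent.P159.H864 (yt)
open Vale.Agent.P159.H145 (StN absorb exp_absorb two_lg_ge two_lg_le pow_base rpow_anti OscZ mt)

noncomputable section

/-- the far inputs of `D0I`: bilinear and sign flip form on two far boxes, with the numbers -/
structure FarC (b κ q : ℝ) (n m r s K : ℕ) [NeZero (2 ^ r / 2 ^ s)] (T δ₁ δf : ℝ) : Prop where
  d1 : 0 ≤ δ₁
  df : 0 ≤ δf
  fu : ∀ (w w' : V (2 ^ (r - n))) (g g' : V (2 ^ r / 2 ^ s) → ℝ),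
    (K : ℝ) < TM.H859.tn (w' - w) →
    (∀ x, cx (2 ^ (r - n)) (2 ^ (n - s)) x ≠ w → g x = 0) →
    (∀ x, cx (2 ^ (r - n)) (2 ^ (n - s)) x ≠ w' → g' x = 0) →
    |bf (dNm (2 ^ r) (2 ^ s) b T (tn m) (4 * tn m)) g g'| ≤
      δ₁ * (√(∑ x, g x ^ 2) * √(∑ x, g' x ^ 2))
  ft : ∀ (w w' : V (2 ^ (r - n))), (K : ℝ) < TM.H859.tn (w' - w) →
    ∀ B : Matrix (V (2 ^ r / 2 ^ s)) (V (2 ^ r / 2 ^ s)) ℝ, Ct B →
    (∀ x j, B x j ≠ 0 → cx (2 ^ (r - n)) (2 ^ (n - s)) x = w ∨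
      cx (2 ^ (r - n)) (2 ^ (n - s)) x = w') →
    |H159.pr (B * Bᵀ) (dNm (2 ^ r) (2 ^ s) b T (tn m) (4 * tn m)) -
      H159.pr (flp (cx (2 ^ (r - n)) (2 ^ (n - s))) w' B *
        (flp (cx (2 ^ (r - n)) (2 ^ (n - s))) w' B)ᵀ)
        (dNm (2 ^ r) (2 ^ s) b T (tn m) (4 * tn m))| ≤ δf
  n1 : T * δ₁ * (2 ^ (r - n)) ^ 4 * (m - n + 1 : ℕ) ≤ κ * q
  nf : T * δf * (2 ^ (r - n)) ^ 2 ≤ κ * q

/-- `Rng` with weaker thresholds -/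
lemma rng_w {b1 b2 a W ys ys' : ℝ} {X X' N : ℕ} [NeZero N] {b : ℝ} {ξ : ℕ} {y : ℝ}
    (h : Rng b1 b2 a W ys' X' N b ξ y) (h1 : ys' ≤ ys) (h2 : X ≤ X') :
    Rng b1 b2 a W ys X N b ξ y :=
  { h with
    hX := h2.trans h.hX
    hK := (Nat.mul_le_mul_right ξ h2).trans h.hK
    y1 := h.y1.trans h1 }

/-- the cumulant in units of the box number -/
lemma k4_le {b T ε : ℝ} {n r s : ℕ} (hn : n ≤ r) (h : DN b n r s T ≤ ε) :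
    T ^ 2 * K4S (nwt (2 ^ r) b T 0) (SN (2 ^ r) (2 ^ s)) (SN (2 ^ r) (2 ^ s)) ≤
      2 * ((2 : ℝ) ^ (r - n)) ^ 2 * ε := by
  unfold DN at h
  have e : (2 : ℝ) ^ r = 2 ^ (r - n) * 2 ^ n := by rw [← pow_add, Nat.sub_add_cancel hn]
  rw [e] at h
  set K4 := K4S (nwt (2 ^ r) b T 0) (SN (2 ^ r) (2 ^ s)) (SN (2 ^ r) (2 ^ s))
  set x : ℝ := 2 ^ (r - n) with hx
  have hx0 : 0 < x := by positivity
  have h2 : (0 : ℝ) < 2 ^ n := by positivity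
  have e2 : 1 / 2 * T ^ 2 * (2 ^ n / (x * 2 ^ n)) ^ 2 * K4 = T ^ 2 * K4 / (2 * x ^ 2) := by
    field_simp
  rw [e2, div_le_iff₀ (by positivity)] at h
  linarith

/-- masses of two levels -/
lemma tn_rat {n m : ℕ} (h : n ≤ m) : tn n = (2 ^ (m - n)) ^ 2 * tn m := by
  unfold tn
  obtain ⟨k, rfl⟩ := Nat.exists_eq_add_of_le h
  rw [Nat.add_sub_cancel_left, pow_add, ← pow_mul, mul_comm k 2, pow_mul,
    show (2 : ℝ) ^ 2 = 4 by norm_num]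
  field_simp

lemma tn_mass (n : ℕ) : 1 / (((2 ^ n : ℕ) : ℝ)) ^ 2 = tn n := by
  unfold tn
  push_cast
  rw [← pow_mul, mul_comm, pow_mul, one_div, show (2 : ℝ) ^ 2 = 4 by norm_num]

lemma tn_pos' (n : ℕ) : 0 < tn n := by unfold tn; positivity

/-- the tail of the locality bound -/
lemma exl_mb {C c ω K thp C0 ε T ξ NL Λ : ℝ} (hε : 0 < ε) (hε1 : ε ≤ 1) (hC : 0 ≤ C)
    (hω : ω ≤ 1 / 2) (ht : 0 ≤ thp) (hC0 : 0 ≤ C0) (hT : 0 ≤ T) (hTξ : ξ ^ 2 * T ≤ 4)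
    (hNL : Mb ε NL 128 (-(5 * thp + C0)))
    (hΛ : Λ = T / 4 * (10 * NL ^ 2 + 2 * (10 * ε ^ (-thp))))
    (hK : Real.exp (-(c * K / 2)) ≤ ε ^ (10 * thp + 2 * C0 + 8)) :
    Mb ε (Real.exp ((1 + 16 * ω) / 2) * (ξ ^ 2 * Λ) * (C * Real.exp (-(c * K / 2))))
      (Real.exp (9 / 2) * 2 ^ 18 * C) 8 := by
  have h1 := hNL.pow hε 2
  have h2 : Mb ε (ε ^ (-thp)) 1 (-thp) := Mb.self hε _
  have h3 : Mb ε (10 * NL ^ 2 + 2 * (10 * ε ^ (-thp))) (10 * 128 ^ 2 + 20)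
      (-(10 * thp + 2 * C0)) := by
    refine (((h1.smul (by norm_num : (0 : ℝ) ≤ 10)).weak hε hε1 le_rfl ?_).add
      ((h2.smul (by norm_num : (0 : ℝ) ≤ 20)).weak hε hε1 (le_refl _) ?_)).of_le ?_ ?_ |>.weak
      hε hε1 ?_ (le_refl (-(10 * thp + 2 * C0)))
    · push_cast; linarith
    · linarith
    · have := h1.nn
      have := h2.nn
      positivity
    · have := h2.nn
      linarith
    · norm_num
  have h4 : Mb ε (ξ ^ 2 * Λ) (2 ^ 18) (-(10 * thp + 2 * C0)) := by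
    refine (h3.weak hε hε1 (by norm_num : (10 * 128 ^ 2 + 20 : ℝ) ≤ 2 ^ 18) le_rfl).of_le ?_ ?_
    · rw [hΛ]
      have := h3.nn
      positivity
    · rw [hΛ]
      calc ξ ^ 2 * (T / 4 * (10 * NL ^ 2 + 2 * (10 * ε ^ (-thp)))) =
            (ξ ^ 2 * T) / 4 * (10 * NL ^ 2 + 2 * (10 * ε ^ (-thp))) := by ring
        _ ≤ 1 * (10 * NL ^ 2 + 2 * (10 * ε ^ (-thp))) :=
            mul_le_mul_of_nonneg_right (by linarith) h3.nn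
        _ = _ := one_mul _
  have h5 : Mb ε (Real.exp (-(c * K / 2))) 1 (10 * thp + 2 * C0 + 8) :=
    ⟨(Real.exp_pos _).le, by rw [one_mul]; exact hK⟩
  have h6 : Mb ε (Real.exp ((1 + 16 * ω) / 2)) (Real.exp (9 / 2)) 0 := by
    refine ⟨(Real.exp_pos _).le, ?_⟩
    rw [Real.rpow_zero, mul_one]
    exact Real.exp_le_exp.2 (by linarith)
  refine ((h6.mul hε h4).mul hε (h5.smul hC)).weak hε hε1 (le_of_eq (by ring)) ?_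
  linarith

/-- the constant of the locality tail -/
def CxN (C : ℝ) : ℝ := Real.exp (9 / 2) * 2 ^ 18 * C

/-- all thresholds -/
lemma thr {c C sg thp C0 k0 κ : ℝ} (hc : 0 < c) (hC : 0 ≤ C) (hsg : 0 < sg) (ht : 0 < thp)
    (hk0 : 0 < k0) (hκ : 0 < κ) :
    ∃ E0 : ℝ, 0 < E0 ∧ ∀ e, 0 < e → e ≤ E0 →
      4 * e ^ thp ≤ 1 ∧ 5 * e ^ k0 ≤ 1 ∧ 64 * e ^ (1 / 8 : ℝ) ≤ c ∧
      4 * 64 ^ 2 * e ^ (1 / 4 : ℝ) ≤ 1 ∧ 2 ^ 50 * e ^ (1 / 2 : ℝ) ≤ 1 ∧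
      Real.exp (-(1 * e ^ (-thp))) ≤ e ^ (6 * C0 + 10) ∧ 200 * e ^ (1 : ℝ) ≤ 1 ∧
      Real.exp (-(c / 2 * e ^ (-k0))) ≤ e ^ (10 * thp + 2 * C0 + 8) ∧
      CtN (CxN C) * e ^ (sg / 12) ≤ κ / 64 := by
  have hCt : 0 ≤ CtN (CxN C) := by unfold CtN CxN; positivity
  obtain ⟨E1, p1, h1⟩ := absorb (A := 4) (a := thp) (κ := 1) (by norm_num) ht one_pos
  obtain ⟨E2, p2, h2⟩ := absorb (A := 5) (a := k0) (κ := 1) (by norm_num) hk0 one_pos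
  obtain ⟨E3, p3, h3⟩ := absorb (A := 64) (a := 1 / 8) (κ := c) (by norm_num) (by norm_num) hc
  obtain ⟨E4, p4, h4⟩ := absorb (A := 4 * 64 ^ 2) (a := 1 / 4) (κ := 1) (by norm_num)
    (by norm_num) one_pos
  obtain ⟨E5, p5, h5⟩ := absorb (A := 2 ^ 50) (a := 1 / 2) (κ := 1) (by norm_num)
    (by norm_num) one_pos
  obtain ⟨E6, p6, h6⟩ := exp_absorb (c := 1) (a := thp) (6 * C0 + 10) one_pos ht
  obtain ⟨E7, p7, h7⟩ := absorb (A := 200) (a := 1) (κ := 1) (by norm_num) one_pos one_pos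
  obtain ⟨E8, p8, h8⟩ := exp_absorb (c := c / 2) (a := k0) (10 * thp + 2 * C0 + 8) (by positivity)
    hk0
  obtain ⟨E9, p9, h9⟩ := absorb (A := CtN (CxN C)) (a := sg / 12) (κ := κ / 64) hCt (by positivity)
    (by positivity)
  refine ⟨min E1 (min E2 (min E3 (min E4 (min E5 (min E6 (min E7 (min E8 E9))))))),
    by positivity, fun e he hE => ?_⟩
  simp only [le_min_iff] at hE
  obtain ⟨a1, a2, a3, a4, a5, a6, a7, a8, a9⟩ := hE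
  exact ⟨h1 e he a1, h2 e he a2, h3 e he a3, h4 e he a4, h5 e he a5, h6 e he a6, h7 e he a7,
    h8 e he a8, h9 e he a9⟩

/-! ### the numbers from `StN` -/

section st

variable {sg thp th C0 ε T : ℝ} {n m r s : ℕ} (h : StN th thp C0 n m r s ε)
include h

lemma st_M : Mb ε ((2 : ℝ) ^ (m - n)) 16 (-(4 * thp)) := ⟨by positivity, h.M_le⟩

lemma st_nb : Mb ε ((2 : ℝ) ^ (r - n)) 64 (-(5 * thp)) := ⟨by positivity, h.nb_le⟩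

lemma st_NLe : ((2 ^ r / 2 ^ s : ℕ) : ℝ) = 2 ^ (r - s) := by
  have := h.hsn
  have := h.nm
  have := h.mr
  rw [Nat.pow_div (by omega) two_pos]
  push_cast
  rfl

lemma st_NL : Mb ε ((2 ^ r / 2 ^ s : ℕ) : ℝ) 128 (-(5 * thp + C0)) := by
  rw [st_NLe h]
  exact ⟨by positivity, h.nc_le⟩

lemma st_ratio (hT2 : T ≤ 4 * tn n) : T / tn m ≤ 4 * ((2 : ℝ) ^ (m - n)) ^ 2 := by
  have tm0 : 0 < tn m := tn_pos' m
  rw [div_le_iff₀ tm0]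
  calc T ≤ 4 * tn n := hT2
    _ = _ := by rw [tn_rat h.nm]; ring

lemma st_Ta (hT0 : 0 ≤ T) (hT2 : T ≤ 4 * tn n) : Mb ε (T / tn m) 1024 (-(8 * thp)) := by
  have tm0 : 0 < tn m := tn_pos' m
  refine ((((st_M h).pow h.ε0 2).smul (by norm_num : (0 : ℝ) ≤ 4)).weak h.ε0 h.ε1' ?_ ?_).of_le
    (by positivity) (st_ratio h hT2)
  · norm_num
  · push_cast; linarith

/-- the number `D` -/
lemma st_D : Mb ε (32 * ((2 : ℝ) ^ (m - n)) ^ 4 * ((2 : ℝ) ^ (r - n)) ^ 2 * ε) (2 ^ 33)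
    (1 - 26 * thp) := by
  have ε0 := h.ε0
  have h1 := ((((st_M h).pow ε0 4).smul (by norm_num : (0 : ℝ) ≤ 32)).mul ε0
    ((st_nb h).pow ε0 2)).mul ε0 (Mb.self ε0 1)
  rw [Real.rpow_one] at h1
  refine h1.weak ε0 h.ε1' ?_ ?_
  · norm_num
  · push_cast; linarith

lemma st_num (hsg0 : 0 < sg) (hsg1 : sg ≤ 1) (htsg : thp ≤ sg / 4000) (hC0 : 0 < C0)
    (hT0 : 0 ≤ T) (hT2 : T ≤ 4 * tn n) :
    FNum sg thp C0 ε ((2 : ℝ) ^ (m - n)) ((2 : ℝ) ^ (r - n)) ((2 ^ r / 2 ^ s : ℕ) : ℝ)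
      (T / tn m) (100 * ε ^ (-(2 * thp)))
      (32 * ((2 : ℝ) ^ (m - n)) ^ 4 * ((2 : ℝ) ^ (r - n)) ^ 2 * ε) :=
  ⟨h.ε0, h.ε1', hsg0, hsg1, h.thp0, htsg, hC0, st_M h, st_nb h, st_NL h, st_Ta h hT0 hT2, rfl,
    st_D h⟩

/-- the priors are small -/
lemma st_cT (hT1 : tn n ≤ T) (k1 : 4 * ε ^ thp ≤ 1) : 4 * tn m ≤ T / 2 := by
  have tm0 : 0 < tn m := tn_pos' m
  have hM4 : (4 : ℝ) ≤ 2 ^ (m - n) := by
    refine le_trans ?_ h.M_ge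
    have := Real.rpow_pos_of_pos h.ε0 thp
    rw [Real.rpow_neg h.ε0.le, le_inv_comm₀ (by norm_num) this]
    linarith
  have h1 := tn_rat h.nm
  have : (16 : ℝ) ≤ (2 ^ (m - n)) ^ 2 := by nlinarith
  nlinarith

/-- `ω` is small -/
lemma st_Q {Y : ℝ} (ht : thp ≤ 1 / 4000) (hY : Y ^ 2 ≤ ε)
    (k4 : 4 * 64 ^ 2 * ε ^ (1 / 4 : ℝ) ≤ 1) :
    4 * (((2 : ℝ) ^ (r - n)) ^ 2 * max Y ε) ≤ 1 := by
  have ε0 := h.ε0
  have ε1 := h.ε1'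
  have hmax : max Y ε ≤ ε ^ (1 / 2 : ℝ) := by
    refine max_le ?_ ?_
    · rw [← Real.sqrt_eq_rpow]
      exact Real.le_sqrt_of_sq_le hY
    · have := Real.rpow_le_rpow_of_exponent_ge ε0 ε1 (by norm_num : (1 / 2 : ℝ) ≤ 1)
      rwa [Real.rpow_one] at this
  have hmax0 : 0 < max Y ε := lt_max_of_lt_right ε0
  have h1 : Mb ε (((2 : ℝ) ^ (r - n)) ^ 2 * max Y ε) (64 ^ 2) (1 / 4) := by
    refine ((((st_nb h).pow ε0 2).mul ε0 (Mb.self ε0 (1 / 2))).weak ε0 ε1 ?_ ?_).of_le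
      (by positivity) ?_
    · norm_num
    · push_cast; linarith
    · exact mul_le_mul_of_nonneg_left hmax (by positivity)
  have h2 := h1.le
  linarith

/-- the window of the torus -/
lemma st_y {c : ℝ} (ht : thp ≤ 1 / 4000) (k3 : 64 * ε ^ (1 / 8 : ℝ) ≤ c) :
    ((2 ^ r : ℕ) : ℝ) * ε ^ (1 / 4 : ℝ) ≤ c * (2 ^ n : ℕ) := by
  have ε0 := h.ε0
  have hnr : n ≤ r := by have := h.nm; have := h.mr; omega
  have e1 : ((2 ^ r : ℕ) : ℝ) = 2 ^ (r - n) * (2 ^ n : ℕ) := by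
    push_cast
    rw [← pow_add, Nat.sub_add_cancel hnr]
  have h1 : Mb ε ((2 : ℝ) ^ (r - n) * ε ^ (1 / 4 : ℝ)) 64 (1 / 8) := by
    refine (((st_nb h).mul ε0 (Mb.self ε0 (1 / 4))).weak ε0 h.ε1' ?_ ?_)
    · norm_num
    · linarith
  have h2 := h1.le.trans k3
  have h3 : (0 : ℝ) ≤ ((2 ^ n : ℕ) : ℝ) := by positivity
  rw [e1]
  calc 2 ^ (r - n) * (2 ^ n : ℕ) * ε ^ (1 / 4 : ℝ) =
        2 ^ (r - n) * ε ^ (1 / 4 : ℝ) * (2 ^ n : ℕ) := by ring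
    _ ≤ c * (2 ^ n : ℕ) := mul_le_mul_of_nonneg_right h2 h3

end st

/-- the distance in units of `ξ` -/
lemma dist_eq {c : ℝ} {n s K : ℕ} (h : s ≤ n) :
    c * ((K : ℝ) * (((2 ^ s : ℕ) : ℝ) * ((2 ^ (n - s) : ℕ) : ℝ)) / (2 * ((2 ^ n : ℕ) : ℝ))) =
      c * K / 2 := by
  have h5 : ((2 ^ s : ℕ) : ℝ) * ((2 ^ (n - s) : ℕ) : ℝ) = ((2 ^ n : ℕ) : ℝ) := by
    push_cast
    rw [← pow_add]
    congr 1
    omega
  rw [h5]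
  have h6 : (0 : ℝ) < ((2 ^ n : ℕ) : ℝ) := by positivity
  field_simp

lemma xi_mass {n : ℕ} {T : ℝ} (hT2 : T ≤ 4 * tn n) : (((2 ^ n : ℕ) : ℝ)) ^ 2 * T ≤ 4 := by
  have e1 := tn_mass n
  have h3 : (0 : ℝ) < ((2 ^ n : ℕ) : ℝ) := by positivity
  have e2 : (((2 ^ n : ℕ) : ℝ)) ^ 2 * tn n = 1 := by
    rw [← e1]
    field_simp
  have h4 : (0 : ℝ) ≤ (((2 ^ n : ℕ) : ℝ)) ^ 2 := by positivity
  calc (((2 ^ n : ℕ) : ℝ)) ^ 2 * T ≤ (((2 ^ n : ℕ) : ℝ)) ^ 2 * (4 * tn n) :=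
        mul_le_mul_of_nonneg_left hT2 h4
    _ = 4 * ((((2 ^ n : ℕ) : ℝ)) ^ 2 * tn n) := by ring
    _ = 4 := by rw [e2, mul_one]

lemma sqrt_lam {ε thp : ℝ} (ε0 : 0 < ε) : √(100 * ε ^ (-(2 * thp))) = 10 * ε ^ (-thp) := by
  have e1 : 100 * ε ^ (-(2 * thp)) = (10 * ε ^ (-thp)) ^ 2 := by
    rw [pow_base ε0]
    push_cast
    norm_num
    congr 1
    ring
  rw [e1, Real.sqrt_sq (by positivity)]

/-- the number `D` dominates the cumulant at the prior `t_m` -/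
lemma kD_of {b T ε : ℝ} {n m r s : ℕ} [NeZero (2 ^ r / 2 ^ s)] (hb : 0 < b) (hT : 0 < T)
    (hl : 2 ^ s ∣ 2 ^ r) (hn : n ≤ r)
    (hTa : T / tn m ≤ 4 * ((2 : ℝ) ^ (m - n)) ^ 2) (hD : DN b n r s T ≤ ε) :
    (T ^ 2 / tn m) ^ 2 * K4S (nwt (2 ^ r) b T 0) (SN (2 ^ r) (2 ^ s)) (SN (2 ^ r) (2 ^ s)) ≤
      32 * ((2 : ℝ) ^ (m - n)) ^ 4 * ((2 : ℝ) ^ (r - n)) ^ 2 * ε := by
  have tm0 : 0 < tn m := tn_pos' m
  have h1 := k4_le hn hD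
  have h2 : 0 ≤ T / tn m := by positivity
  have h3 : (T / tn m) ^ 2 ≤ (4 * ((2 : ℝ) ^ (m - n)) ^ 2) ^ 2 := pow_le_pow_left₀ h2 hTa 2
  have hMj := H447.maj_nwt (N := 2 ^ r) hb.le hT 0
  have hK4 : 0 ≤ K4S (nwt (2 ^ r) b T 0) (SN (2 ^ r) (2 ^ s)) (SN (2 ^ r) (2 ^ s)) := by
    rw [← H447.CN_gram hl]
    exact H447.K4S_gram_nonneg hMj.em hMj.ev hMj.pk _ _
  set K4 := K4S (nwt (2 ^ r) b T 0) (SN (2 ^ r) (2 ^ s)) (SN (2 ^ r) (2 ^ s))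
  calc (T ^ 2 / tn m) ^ 2 * K4 = (T / tn m) ^ 2 * (T ^ 2 * K4) := by ring
    _ ≤ (4 * ((2 : ℝ) ^ (m - n)) ^ 2) ^ 2 * (2 * ((2 : ℝ) ^ (r - n)) ^ 2 * ε) :=
        mul_le_mul h3 h1 (by positivity) (by positivity)
    _ = _ := by ring

/-- the locality input at one torus -/
def LocN (W₀ c C ys b1 b2 : ℝ) (X : ℕ) : Prop :=
  ∀ W : ℝ, W₀ ≤ W →
    ∀ (N : ℕ) [NeZero N] (b : ℝ) (ξ : ℕ) (y : ℝ),
      Rng b1 b2 (5 / 2) W ys X N b ξ y → (N : ℝ) * y ≤ c * ξ →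
      ∀ (l : ℕ) [NeZero (N / l)] (nb m : ℕ) [NeZero nb] [NeZero m], l ∣ N → N / l = nb * m →
      ∀ (K : ℕ), 5 ≤ K → ∀ T : ℝ, 1 / (ξ : ℝ) ^ 2 ≤ T → ∀ ω : ℝ, ω ≤ 1 / 2 →
        OscZ (wT b N) (T • (1 : Matrix (Tor N) (Tor N) ℝ)) ω → ∀ Λ : ℝ, 0 < Λ →
        ∀ w w' : V nb, (K : ℝ) < TM.H859.tn (w' - w) →
          FL (nwt N b T 0) (CN N l)ᵀ (fun x => cx nb m x = w) (fun x => cx nb m x = w')
            (Gfar N b T) (Bnwt N T 0) Λ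
            (Real.exp ((1 + 16 * ω) / 2) * ((ξ : ℝ) ^ 2 * Λ) *
              (C * Real.exp (-(c * (K * (l * m) / (2 * ξ))))) + 8 * ω ^ 2)

/-- **the hypotheses of the far part**, with the tail -/
lemma farT_of {W₀ c C ys b1 b2 : ℝ} {X : ℕ} (hb1 : 0 < b1) (hc : 0 < c) (hC : 0 ≤ C)
    (key : LocN W₀ c C ys b1 b2 X) {sg th thp C0 k0 κ : ℝ} (hsg0 : 0 < sg) (hsg1 : sg ≤ 1)
    (htsg : thp ≤ sg / 4000) (hC0 : 0 < C0) {W : ℝ} (hW : W₀ ≤ W)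
    {b : ℝ} {n m r s : ℕ} {ε Y : ℝ} [NeZero (2 ^ r / 2 ^ s)] (hN : StN th thp C0 n m r s ε)
    (hR : Rng b1 b2 (5 / 2) W ys X (2 ^ r) b (2 ^ n) (ε ^ (1 / 4 : ℝ))) (hYε : Y ^ 2 ≤ ε)
    (hy4 : yt (2 ^ r) b (4 * tn n) ≤ max Y ε) {T : ℝ} (hT1 : tn n ≤ T) (hT2 : T ≤ 4 * tn n)
    (hD : DN b n r s T ≤ ε) {Yt p : ℝ} (hYt : (2 : ℝ) ^ (Js sg + 2) ≤ Yt)
    (hp : p ≤ ε ^ (6 * C0 + 10)) (hta : TypE (2 ^ r) (2 ^ s) b T (tn m) Yt 1 p)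
    (htc : TypE (2 ^ r) (2 ^ s) b T (4 * tn m) Yt 1 p) {K : ℕ} (hK : ε ^ (-k0) ≤ K)
    (hE : 4 * ε ^ thp ≤ 1 ∧ 5 * ε ^ k0 ≤ 1 ∧ 64 * ε ^ (1 / 8 : ℝ) ≤ c ∧
      4 * 64 ^ 2 * ε ^ (1 / 4 : ℝ) ≤ 1 ∧ 2 ^ 50 * ε ^ (1 / 2 : ℝ) ≤ 1 ∧
      Real.exp (-(1 * ε ^ (-thp))) ≤ ε ^ (6 * C0 + 10) ∧ 200 * ε ^ (1 : ℝ) ≤ 1 ∧
      Real.exp (-(c / 2 * ε ^ (-k0))) ≤ ε ^ (10 * thp + 2 * C0 + 8) ∧
      CtN (CxN C) * ε ^ (sg / 12) ≤ κ / 64) :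
    ∃ exl : ℝ, Mb ε exl (CxN C) 8 ∧
      FarT (2 ^ r) (2 ^ s) (2 ^ (r - n)) (2 ^ (n - s)) K b T (tn m) (4 * tn m) (Js sg)
        (32 * ((2 : ℝ) ^ (m - n)) ^ 4 * ((2 : ℝ) ^ (r - n)) ^ 2 * ε)
        (ε ^ (sg / 8)) (100 * ε ^ (-(2 * thp))) p (200 * ε ^ (6 * C0 + 10))
        (exl + 8 * (2 * (((2 : ℝ) ^ (r - n)) ^ 2 * max Y ε)) ^ 2) := by
  obtain ⟨k1, k2, k3, k4, k5, k6, k7, k8, k9⟩ := hE
  have ε0 := hN.ε0
  have ε1 := hN.ε1'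
  have hb : 0 < b := hb1.trans_le hR.hb1
  have hnm := hN.nm
  have hmr := hN.mr
  have hsn := hN.hsn
  have hnr : n ≤ r := by omega
  have tm0 : 0 < tn m := tn_pos' m
  have T0 : 0 < T := (tn_pos' n).trans_le hT1
  have hl : 2 ^ s ∣ 2 ^ r := Nat.pow_dvd_pow 2 (by omega)
  have ht0 := hN.thp0
  have hcT := st_cT hN hT1 k1
  have hQ4 := st_Q hN (by linarith) hYε k4
  have hmax0 : 0 < max Y ε := lt_max_of_lt_right ε0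
  have hO := osc_post hb hnr hT1 hT2 hy4 hQ4
  have hRy := st_y hN (by linarith) k3
  have hNum := st_num hN hsg0 hsg1 htsg hC0 T0.le hT2
  have hK5 : 5 ≤ K := by
    have h1 : (5 : ℝ) ≤ K := by
      refine le_trans ?_ hK
      have := Real.rpow_pos_of_pos ε0 k0
      rw [Real.rpow_neg ε0.le, le_inv_comm₀ (by norm_num) this]
      linarith
    exact_mod_cast h1
  obtain ⟨Q, hQ⟩ : ∃ Q : ℝ, Q = ((2 : ℝ) ^ (r - n)) ^ 2 * max Y ε := ⟨_, rfl⟩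
  rw [← hQ] at hO hQ4 ⊢
  have hQ0 : 0 < Q := by rw [hQ]; positivity
  obtain ⟨Λ, hΛ⟩ : ∃ Λ : ℝ, Λ = T / 4 * (10 * ((2 ^ r / 2 ^ s : ℕ) : ℝ) ^ 2 +
    2 * (10 * ε ^ (-thp))) := ⟨_, rfl⟩
  have hΛ0 : 0 < Λ := by
    rw [hΛ]
    have : 0 < ε ^ (-thp) := Real.rpow_pos_of_pos ε0 _
    positivity
  have hKe : Real.exp (-(c * K / 2)) ≤ ε ^ (10 * thp + 2 * C0 + 8) := by
    refine le_trans (Real.exp_le_exp.2 ?_) k8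
    have := mul_le_mul_of_nonneg_left hK (by positivity : 0 ≤ c / 2)
    linarith
  have mexl : Mb ε (Real.exp ((1 + 16 * (2 * Q)) / 2) * ((((2 ^ n : ℕ) : ℝ)) ^ 2 * Λ) *
      (C * Real.exp (-(c * K / 2)))) (CxN C) 8 :=
    exl_mb ε0 ε1 hC (by linarith) ht0.le hC0.le T0.le (xi_mass hT2) (st_NL hN) hΛ hKe
  refine ⟨_, mexl, ?_⟩
  have hβ : (0 : ℝ) ≤ ε ^ (6 * C0 + 10) := (Real.rpow_pos_of_pos ε0 _).le
  refine ⟨hb, hl, tm0, by linarith, hcT, by positivity, ?_, Real.rpow_pos_of_pos ε0 _,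
    Real.rpow_le_one ε0.le ε1 (by positivity), by positivity, ?_, ?_, ?_, ?_, ?_, ?_, ?_⟩
  · exact kD_of hb T0 hl hnr (st_ratio hN hT2) hD
  · exact hta.mono hb.le hl tm0 (by linarith) (by positivity) hYt le_rfl le_rfl
  · exact htc.mono hb.le hl (by linarith) (by linarith) (by positivity) hYt le_rfl le_rfl
  · have h1 := hNum.R0
    have h2 := h1.weak ε0 ε1 le_rfl (by linarith : (1 / 2 : ℝ) ≤ 1 - sg / 40)
    exact h2.le.trans k5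
  · rw [sqrt_lam ε0]
    have e1 : -(10 * ε ^ (-thp) / 10) = -(1 * ε ^ (-thp)) := by ring
    rw [e1]
    linarith
  · have h1 : ε ^ (6 * C0 + 10) ≤ ε ^ (1 : ℝ) :=
      Real.rpow_le_rpow_of_exponent_ge ε0 ε1 (by linarith)
    linarith
  · have := mexl.nn
    positivity
  · intro w w' hw
    have hn2 : 2 ^ r / 2 ^ s = 2 ^ (r - n) * 2 ^ (n - s) := by
      rw [Nat.pow_div (by omega) two_pos, ← pow_add]
      congr 1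
      omega
    have h1 := key W hW (2 ^ r) b (2 ^ n) (ε ^ (1 / 4 : ℝ)) hR hRy (2 ^ s)
      (2 ^ (r - n)) (2 ^ (n - s)) hl hn2 K hK5 T (by rw [tn_mass]; exact hT1) (2 * Q)
      (by linarith) hO Λ hΛ0 w w' hw
    rw [dist_eq hsn] at h1
    rw [sqrt_lam ε0, ← hΛ]
    exact h1

/-- **the far inputs of `D0Step`** -/
theorem far_num {b1 : ℝ} (hb1 : 0 < b1) (b2 : ℝ) :
    ∃ (W₀ ys : ℝ) (X : ℕ), 0 < ys ∧ 1 ≤ X ∧ ∀ sg th thp C0 k0 κ : ℝ, 0 < sg → sg ≤ 1 →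
      0 < thp → thp ≤ sg / 4000 → 0 < C0 → 0 < k0 → 0 < κ → ∃ E0 : ℝ, 0 < E0 ∧
      ∀ (W ys' : ℝ) (X' : ℕ), W₀ ≤ W → ys' ≤ ys → X ≤ X' →
      ∀ (b : ℝ) (n m r s : ℕ) (ε Y : ℝ) [NeZero (2 ^ r / 2 ^ s)],
        StN th thp C0 n m r s ε → ε ≤ E0 →
        Rng b1 b2 (5 / 2) W ys' X' (2 ^ r) b (2 ^ n) (ε ^ (1 / 4 : ℝ)) →
        Y ^ 2 ≤ ε → yt (2 ^ r) b (4 * tn n) ≤ max Y ε →
        ∀ T : ℝ, tn n ≤ T → T ≤ 4 * tn n → DN b n r s T ≤ ε →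
        ∀ Yt p : ℝ, (2 : ℝ) ^ (Js sg + 2) ≤ Yt → p ≤ ε ^ (6 * C0 + 10) →
        TypE (2 ^ r) (2 ^ s) b T (tn m) Yt 1 p →
        TypE (2 ^ r) (2 ^ s) b T (4 * tn m) Yt 1 p →
        ∀ K : ℕ, ε ^ (-k0) ≤ K →
        ∃ δ₁ δf : ℝ, FarC b κ (max (ε / 8) (ε ^ (-(sg / 2)) * Y ^ 2)) n m r s K T δ₁ δf := by
  obtain ⟨W₀, c, C, ys, X, hc, hC, hys, hX, key⟩ := far_FL hb1 b2 (5 / 2)
  refine ⟨W₀, ys, X, hys, hX, ?_⟩
  intro sg th thp C0 k0 κ hsg0 hsg1 ht0 htsg hC0 hk0 hκ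
  obtain ⟨E0, hE0, thE⟩ := thr (c := c) (C := C) (sg := sg) (thp := thp) (C0 := C0) (k0 := k0)
    (κ := κ) hc (by linarith) hsg0 ht0 hk0 hκ
  refine ⟨E0, hE0, ?_⟩
  intro W ys' X' hW hys' hX' b n m r s ε Y _ hN hεE hR hYε hy4 T hT1 hT2 hD Yt p hYt hp hta htc K hK
  have hE := thE ε hN.ε0 hεE
  have T0 : 0 < T := (tn_pos' n).trans_le hT1
  have ε0 := hN.ε0
  obtain ⟨exl, mexl, hF⟩ := farT_of hb1 hc (by linarith) key hsg0 hsg1 htsg hC0 hW hN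
    (rng_w hR hys' hX') hYε hy4 hT1 hT2 hD hYt hp hta htc hK hE
  have k9 := hE.2.2.2.2.2.2.2.2
  have hNum := st_num hN hsg0 hsg1 htsg hC0 T0.le hT2
  have mbe : Mb ε (200 * ε ^ (6 * C0 + 10)) 200 (6 * C0 + 10) :=
    ⟨by positivity, le_rfl⟩
  have hCx : 0 ≤ CxN C := by unfold CxN; positivity
  have hmm : ((m - n + 1 : ℕ) : ℝ) ≤ 2 ^ (m - n) := by
    exact_mod_cast Nat.lt_two_pow_self (n := m - n)
  have hB2 := hNum.B2 (κ := κ) (Y := Y) hκ.le (by positivity) hmm hCx mexl mbe rfl k9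
  have hB4 := hNum.B4 (κ := κ) (Y := Y) hκ.le hCx mexl mbe rfl k9
  have he0 := hF.e0
  have hR00 := cl_nonneg (Js sg) (128 * (100 * ε ^ (-(2 * thp)) *
    (32 * ((2 : ℝ) ^ (m - n)) ^ 4 * ((2 : ℝ) ^ (r - n)) ^ 2 * ε)))
  have mexl0 := mexl.nn
  have tm0 : 0 < tn m := tn_pos' m
  have hfu := fun (w w' : V (2 ^ (r - n))) (g g' : V (2 ^ r / 2 ^ s) → ℝ)
    (hw : (K : ℝ) < TM.H859.tn (w' - w)) hg hg' => hF.fu (w := w) (w' := w') hw (g := g)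
      (g' := g') hg hg'
  have hft := fun (w w' : V (2 ^ (r - n))) (hw : (K : ℝ) < TM.H859.tn (w' - w))
    (B : Matrix (V (2 ^ r / 2 ^ s)) (V (2 ^ r / 2 ^ s)) ℝ) hB hsB =>
      hF.ft (w := w) (w' := w') hw (B := B) hB hsB
  refine ⟨_, _, ⟨?_, ?_, hfu, hft, ?_, ?_⟩⟩
  · positivity
  · positivity
  · rw [mul_div_cancel₀ _ T0.ne']
    exact hB2
  · rw [mul_div_cancel₀ _ T0.ne']
    exact hB4

end

end Vale.Agent.P159.H43
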