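import Mathlib

/-!
P159 (helper43): Landau-Kolmogorov inequalities on an interval, any order, any normed space.
`‖f⁽ᵐ⁾(0)‖ ≤ C (A h⁻ᵐ + B hⁿ⁻ᵐ)` if `‖f‖ ≤ A` and `‖f⁽ⁿ⁾‖ ≤ B` on `[0, h]`, `m < n`.
-/

open Finset Set

namespace Vale.Agent.P159.H43

noncomputable section

/-- coefficients which extract the `m`-th Taylor coefficient from `n` values -/
lemma exists_coef (n : ℕ) (m : Fin n) : ∃ c : Fin n → ℝ,
    ∀ i : Fin n, ∑ j, c j * (((j : ℕ) + 1 : ℝ) / n) ^ (i : ℕ) = if i = m then 1 else 0 := by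
  set v : Fin n → ℝ := fun j => ((j : ℕ) + 1 : ℝ) / n with hv
  have hn : (n : ℝ) ≠ 0 := by
    have : 0 < n := m.pos
    positivity
  have hinj : Function.Injective v := by
    intro a b h
    simp only [hv] at h
    have h1 : ((a : ℕ) + 1 : ℝ) = ((b : ℕ) + 1 : ℝ) := by
      field_simp at h
      exact h
    have h2 : (a : ℕ) = (b : ℕ) := by
      exact_mod_cast (add_right_cancel h1)
    exact Fin.ext h2
  have hdet : (Matrix.vandermonde v).det ≠ 0 := Matrix.det_vandermonde_ne_zero_iff.2 hinj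
  refine ⟨fun j => (Matrix.vandermonde v)⁻¹ m j, fun i => ?_⟩
  have h1 : (Matrix.vandermonde v)⁻¹ * Matrix.vandermonde v = 1 :=
    Matrix.nonsing_inv_mul _ (isUnit_iff_ne_zero.2 hdet)
  have h2 := congrFun (congrFun h1 m) i
  rw [Matrix.mul_apply, Matrix.one_apply] at h2
  simp only [Matrix.vandermonde_apply] at h2
  rw [h2]
  by_cases h : m = i
  · subst h; simp
  · rw [if_neg h, if_neg (fun h' => h h'.symm)]

variable {E : Type*} [NormedAddCommGroup E] [NormedSpace ℝ E]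

/-- **Landau-Kolmogorov, one-sided interval**, order `n`, all `m < n`. -/
theorem lk_exists (n : ℕ) : ∃ C : ℝ, 0 < C ∧ ∀ (f : ℝ → E) (h A B : ℝ), 0 < h →
    ContDiff ℝ n f → (∀ x ∈ Icc 0 h, ‖f x‖ ≤ A) → (∀ x ∈ Icc 0 h, ‖iteratedDeriv n f x‖ ≤ B) →
    ∀ m < n, ‖iteratedDeriv m f 0‖ * h ^ m ≤ C * (A + B * h ^ n) := by
  classical
  rcases n with _ | n
  · exact ⟨1, one_pos, fun f h A B _ _ _ _ m hm => absurd hm (Nat.not_lt_zero m)⟩
  choose c hc using exists_coef (n + 1)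
  set S : ℝ := ∑ m, ∑ j, |c m j| with hS
  have hS0 : 0 ≤ S := sum_nonneg fun _ _ => sum_nonneg fun _ _ => abs_nonneg _
  refine ⟨(n + 1).factorial * (S + 1), by positivity, ?_⟩
  intro f h A B hh hf hA hB m hm
  have hA0 : 0 ≤ A := (norm_nonneg _).trans (hA 0 ⟨le_rfl, hh.le⟩)
  have hB0 : 0 ≤ B := (norm_nonneg _).trans (hB 0 ⟨le_rfl, hh.le⟩)
  have hu : UniqueDiffOn ℝ (Icc (0 : ℝ) h) := uniqueDiffOn_Icc hh
  have hw : ∀ k ≤ n + 1, ∀ x ∈ Icc 0 h,
      iteratedDerivWithin k f (Icc 0 h) x = iteratedDeriv k f x := by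
    intro k hk x hx
    exact iteratedDerivWithin_eq_iteratedDeriv hu
      ((hf.of_le (by exact_mod_cast hk)).contDiffAt) hx
  -- Taylor with remainder at the nodes
  have htay : ∀ j : Fin (n + 1), ‖f ((((j : ℕ) + 1 : ℝ) / (n + 1 : ℕ)) * h) -
      ∑ i : Fin (n + 1), ((((j : ℕ) + 1 : ℝ) / (n + 1 : ℕ)) * h) ^ (i : ℕ) •
        ((1 / ((i : ℕ).factorial : ℝ)) • iteratedDeriv (i : ℕ) f 0)‖ ≤ B * h ^ (n + 1) := by
    intro j
    set τ : ℝ := ((j : ℕ) + 1 : ℝ) / (n + 1 : ℕ) with hτ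
    have hτ0 : 0 ≤ τ := by positivity
    have hτ1 : τ ≤ 1 := by
      rw [hτ, div_le_one (by positivity)]
      have := j.isLt
      push_cast
      have : ((j : ℕ) : ℝ) + 1 ≤ (n : ℝ) + 1 := by exact_mod_cast (by omega : (j : ℕ) + 1 ≤ n + 1)
      exact this
    have hx : τ * h ∈ Icc (0 : ℝ) h := ⟨by positivity, by nlinarith⟩
    have h1 := taylor_mean_remainder_bound (f := f) (a := 0) (b := h) (C := B) (x := τ * h)
      (n := n) hh.le (by exact_mod_cast hf.contDiffOn) hx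
      (fun y hy => by rw [hw (n + 1) le_rfl y hy]; exact hB y hy)
    have h2 : taylorWithinEval f n (Icc 0 h) 0 (τ * h) = ∑ i : Fin (n + 1), (τ * h) ^ (i : ℕ) •
        ((1 / ((i : ℕ).factorial : ℝ)) • iteratedDeriv (i : ℕ) f 0) := by
      rw [taylor_within_apply, Finset.sum_range fun k =>
        ((k.factorial : ℝ)⁻¹ * (τ * h - 0) ^ k) • iteratedDerivWithin k f (Icc 0 h) 0]
      refine sum_congr rfl fun i _ => ?_
      rw [hw (i : ℕ) (by have := i.isLt; omega) 0 ⟨le_rfl, hh.le⟩, smul_smul, sub_zero, one_div,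
        mul_comm]
    rw [h2] at h1
    refine h1.trans ?_
    rw [sub_zero]
    have h3 : (τ * h) ^ (n + 1) ≤ h ^ (n + 1) := by
      apply pow_le_pow_left₀ (by positivity)
      nlinarith
    have h4 : (1 : ℝ) ≤ (n.factorial : ℝ) := by exact_mod_cast Nat.one_le_iff_ne_zero.2 (Nat.factorial_ne_zero n)
    rw [div_le_iff₀ (by positivity)]
    have h5 : B * (τ * h) ^ (n + 1) ≤ B * h ^ (n + 1) := mul_le_mul_of_nonneg_left h3 hB0
    have h6 : 0 ≤ B * h ^ (n + 1) := by positivity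
    nlinarith
  set M : Fin (n + 1) := ⟨m, hm⟩ with hM
  -- the linear combination
  have hsum : ∑ j, c M j • ∑ i : Fin (n + 1), ((((j : ℕ) + 1 : ℝ) / (n + 1 : ℕ)) * h) ^ (i : ℕ) •
        ((1 / ((i : ℕ).factorial : ℝ)) • iteratedDeriv (i : ℕ) f 0) =
      (h ^ m * (1 / (m.factorial : ℝ))) • iteratedDeriv m f 0 := by
    simp only [smul_sum, smul_smul]
    rw [sum_comm]
    have h1 : ∀ i : Fin (n + 1), ∑ j : Fin (n + 1), (c M j * (((((j : ℕ) + 1 : ℝ) / (n + 1 : ℕ)) * h) ^ (i : ℕ) *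
        (1 / ((i : ℕ).factorial : ℝ)))) • iteratedDeriv (i : ℕ) f 0 =
        (if i = M then (h ^ m * (1 / (m.factorial : ℝ))) else 0) • iteratedDeriv (i : ℕ) f 0 := by
      intro i
      rw [← sum_smul]
      congr 1
      have h2 : ∀ j : Fin (n + 1), c M j * (((((j : ℕ) + 1 : ℝ) / (n + 1 : ℕ)) * h) ^ (i : ℕ) *
          (1 / ((i : ℕ).factorial : ℝ))) = (c M j * (((j : ℕ) + 1 : ℝ) / (n + 1 : ℕ)) ^ (i : ℕ)) *
            (h ^ (i : ℕ) * (1 / ((i : ℕ).factorial : ℝ))) := by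
        intro j
        rw [mul_pow]
        ring
      rw [sum_congr rfl fun j _ => h2 j, ← sum_mul, hc M i]
      by_cases hi : i = M
      · rw [if_pos hi, if_pos hi, one_mul, hi]
      · rw [if_neg hi, if_neg hi, zero_mul]
    rw [sum_congr rfl fun i _ => h1 i]
    simp [hM]
  have hbound : ‖(h ^ m * (1 / (m.factorial : ℝ))) • iteratedDeriv m f 0‖ ≤
      S * (A + B * h ^ (n + 1)) := by
    rw [← hsum]
    calc ‖∑ j, c M j • ∑ i : Fin (n + 1), ((((j : ℕ) + 1 : ℝ) / (n + 1 : ℕ)) * h) ^ (i : ℕ) •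
          ((1 / ((i : ℕ).factorial : ℝ)) • iteratedDeriv (i : ℕ) f 0)‖
        ≤ ∑ j, |c M j| * (A + B * h ^ (n + 1)) := by
          refine norm_sum_le_of_le _ fun j _ => ?_
          rw [norm_smul, Real.norm_eq_abs]
          refine mul_le_mul_of_nonneg_left ?_ (abs_nonneg _)
          set τ : ℝ := ((j : ℕ) + 1 : ℝ) / (n + 1 : ℕ) with hτ
          have hτ0 : 0 ≤ τ := by positivity
          have hτ1 : τ ≤ 1 := by
            rw [hτ, div_le_one (by positivity)]
            have := j.isLt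
            push_cast
            have : ((j : ℕ) : ℝ) + 1 ≤ (n : ℝ) + 1 := by
              exact_mod_cast (by omega : (j : ℕ) + 1 ≤ n + 1)
            exact this
          have hx : τ * h ∈ Icc (0 : ℝ) h := ⟨by positivity, by nlinarith⟩
          have h3 := norm_le_norm_add_norm_sub' (∑ i : Fin (n + 1), (τ * h) ^ (i : ℕ) •
            ((1 / ((i : ℕ).factorial : ℝ)) • iteratedDeriv (i : ℕ) f 0)) (f (τ * h))
          have h4 := htay j
          rw [norm_sub_rev] at h4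
          exact h3.trans (add_le_add (hA _ hx) h4)
      _ = (∑ j, |c M j|) * (A + B * h ^ (n + 1)) := by rw [sum_mul]
      _ ≤ S * (A + B * h ^ (n + 1)) := by
          refine mul_le_mul_of_nonneg_right ?_ (by positivity)
          rw [hS]
          exact single_le_sum (f := fun m => ∑ j, |c m j|)
            (fun _ _ => sum_nonneg fun _ _ => abs_nonneg _) (mem_univ M)
  rw [norm_smul, Real.norm_of_nonneg (by positivity)] at hbound
  have hfac : (0 : ℝ) < (m.factorial : ℝ) := by positivity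
  have hfac2 : (m.factorial : ℝ) ≤ ((n + 1).factorial : ℝ) := by
    exact_mod_cast Nat.factorial_le hm.le
  have h7 : ‖iteratedDeriv m f 0‖ * h ^ m ≤ m.factorial * (S * (A + B * h ^ (n + 1))) := by
    calc ‖iteratedDeriv m f 0‖ * h ^ m = m.factorial * (h ^ m * (1 / (m.factorial : ℝ)) *
          ‖iteratedDeriv m f 0‖) := by field_simp
      _ ≤ _ := mul_le_mul_of_nonneg_left hbound hfac.le
  refine h7.trans ?_
  have h8 : 0 ≤ A + B * h ^ (n + 1) := by positivity
  calc (m.factorial : ℝ) * (S * (A + B * h ^ (n + 1)))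
      ≤ (n + 1).factorial * ((S + 1) * (A + B * h ^ (n + 1))) := by
        apply mul_le_mul hfac2 _ (by positivity) (by positivity)
        nlinarith
    _ = _ := by ring

end

end Vale.Agent.P159.H43
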