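import Vale.Agent.P159.H896.Chg

/-!
P159 (helper43), LOC11, one-variable layer: `ℓ : ℝ → ℝ` continuous, `|ℓ| ≤ om ≤ 1`, `∫₀¹ e^ℓ = 1`
(`ℓ(c) = log Z(F + c) - log Z⁰(F)`): charge sectors of `e^ℓ` versus Fourier coefficients of `ℓ`,
with two directional derivatives.
-/

open MeasureTheory Complex Set
open scoped ComplexConjugate
open Vale.Agent.P159.H896 (ph continuous_ph norm_ph ph_add_int ph_zero_left conj_ph)

namespace Vale.Agent.P159.H43

noncomputable section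

/-- mean over a period -/
def avg (f : ℝ → ℝ) : ℝ := ∫ u in (0 : ℝ)..1, f u

/-- `L²` norm over a period -/
def nm (f : ℝ → ℝ) : ℝ := √(∫ u in (0 : ℝ)..1, f u ^ 2)

/-- Fourier coefficient -/
def hat (f : ℝ → ℝ) (q : ℤ) : ℂ := ∫ u in (0 : ℝ)..1, (f u : ℂ) * ph q u

/-- the harmonics `0, ±1` -/
def lo (f : ℝ → ℝ) (u : ℝ) : ℝ := avg f + 2 * (hat f 1 * ph (-1) u).re

/-- the harmonics `|q| ≥ 2` -/
def hi (f : ℝ → ℝ) (u : ℝ) : ℝ := f u - lo f u

lemma continuous_lo (f : ℝ → ℝ) : Continuous (lo f) := by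
  unfold lo
  have := continuous_ph (-1)
  fun_prop

lemma continuous_hi {f : ℝ → ℝ} (hf : Continuous f) : Continuous (hi f) :=
  hf.sub (continuous_lo f)

lemma nm_nonneg (f : ℝ → ℝ) : 0 ≤ nm f := Real.sqrt_nonneg _

lemma nm_sq (f : ℝ → ℝ) : nm f ^ 2 = ∫ u in (0 : ℝ)..1, f u ^ 2 := by
  unfold nm
  rw [Real.sq_sqrt]
  exact intervalIntegral.integral_nonneg zero_le_one fun u _ => sq_nonneg _

lemma int_mono {f g : ℝ → ℝ} (hf : Continuous f) (hg : Continuous g)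
    (h : ∀ u ∈ Icc (0 : ℝ) 1, f u ≤ g u) : ∫ u in (0 : ℝ)..1, f u ≤ ∫ u in (0 : ℝ)..1, g u :=
  intervalIntegral.integral_mono_on zero_le_one (hf.intervalIntegrable _ _)
    (hg.intervalIntegrable _ _) h

lemma nm_le {f : ℝ → ℝ} (hf : Continuous f) {B : ℝ} (hB : 0 ≤ B)
    (h : ∀ u ∈ Icc (0 : ℝ) 1, |f u| ≤ B) : nm f ≤ B := by
  unfold nm
  rw [Real.sqrt_le_left hB]
  calc ∫ u in (0 : ℝ)..1, f u ^ 2 ≤ ∫ u in (0 : ℝ)..1, B ^ 2 :=
        int_mono (by fun_prop) continuous_const fun u hu => by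
          rw [← sq_abs]; exact pow_le_pow_left₀ (abs_nonneg _) (h u hu) 2
    _ = B ^ 2 := by simp

/-- Cauchy-Schwarz -/
lemma cs_int {f g : ℝ → ℝ} (hf : Continuous f) (hg : Continuous g) :
    ∫ u in (0 : ℝ)..1, |f u| * |g u| ≤ nm f * nm g := by
  set A := ∫ u in (0 : ℝ)..1, f u ^ 2 with hA
  set B := ∫ u in (0 : ℝ)..1, g u ^ 2 with hB
  set I := ∫ u in (0 : ℝ)..1, |f u| * |g u| with hI
  have hA0 : 0 ≤ A := intervalIntegral.integral_nonneg zero_le_one fun u _ => sq_nonneg _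
  have hB0 : 0 ≤ B := intervalIntegral.integral_nonneg zero_le_one fun u _ => sq_nonneg _
  have h1 : ∀ s : ℝ, 0 ≤ A * (s * s) + (-(2 * I)) * s + B := by
    intro s
    have h2 : A * (s * s) + (-(2 * I)) * s + B = ∫ u in (0 : ℝ)..1, (s * |f u| - |g u|) ^ 2 := by
      rw [hA, hI, hB]
      have e1 : (∫ u in (0 : ℝ)..1, f u ^ 2) * (s * s) = ∫ u in (0 : ℝ)..1, f u ^ 2 * (s * s) := by
        rw [intervalIntegral.integral_mul_const]
      have e2 : (-(2 * ∫ u in (0 : ℝ)..1, |f u| * |g u|)) * s =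
          ∫ u in (0 : ℝ)..1, (|f u| * |g u|) * (-2 * s) := by
        rw [intervalIntegral.integral_mul_const]; ring
      rw [e1, e2, ← intervalIntegral.integral_add, ← intervalIntegral.integral_add]
      · refine intervalIntegral.integral_congr fun u _ => ?_
        show f u ^ 2 * (s * s) + |f u| * |g u| * (-2 * s) + g u ^ 2 = (s * |f u| - |g u|) ^ 2
        rw [sub_sq, mul_pow, sq_abs, sq_abs]
        ring
      · exact Continuous.intervalIntegrable (by fun_prop) _ _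
      · exact Continuous.intervalIntegrable (by fun_prop) _ _
      · exact Continuous.intervalIntegrable (by fun_prop) _ _
      · exact Continuous.intervalIntegrable (by fun_prop) _ _
    rw [h2]
    exact intervalIntegral.integral_nonneg zero_le_one fun u _ => sq_nonneg _
  have h3 := discrim_le_zero h1
  unfold discrim at h3
  have h4 : I ^ 2 ≤ A * B := by nlinarith
  have h5 : nm f * nm g = √(A * B) := by
    unfold nm
    rw [Real.sqrt_mul hA0]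
  rw [h5]
  exact Real.le_sqrt_of_sq_le h4

lemma norm_int_le {E : Type*} [NormedAddCommGroup E] [NormedSpace ℝ E] {F : ℝ → E} {g : ℝ → ℝ}
    (hg : Continuous g) (h : ∀ u ∈ Icc (0 : ℝ) 1, ‖F u‖ ≤ g u) :
    ‖∫ u in (0 : ℝ)..1, F u‖ ≤ ∫ u in (0 : ℝ)..1, g u :=
  intervalIntegral.norm_integral_le_of_norm_le zero_le_one
    (Filter.Eventually.of_forall fun u hu => h u ⟨hu.1.le, hu.2⟩) (hg.intervalIntegrable _ _)

/-- Cauchy-Schwarz with a phase -/
lemma cs_ph {f g : ℝ → ℝ} (hf : Continuous f) (hg : Continuous g) (q : ℤ) :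
    ‖∫ u in (0 : ℝ)..1, ((f u * g u : ℝ) : ℂ) * ph q u‖ ≤ nm f * nm g := by
  refine le_trans (norm_int_le (g := fun u => |f u| * |g u|) (by fun_prop) fun u _ => ?_)
    (cs_int hf hg)
  rw [norm_mul, norm_ph, mul_one, Complex.norm_real, Real.norm_eq_abs, abs_mul]

lemma nm_one : nm (fun _ => (1 : ℝ)) = 1 := by
  unfold nm; simp

lemma norm_hat_le {f : ℝ → ℝ} (hf : Continuous f) (q : ℤ) : ‖hat f q‖ ≤ nm f := by
  have h := cs_ph hf (continuous_const (y := (1 : ℝ))) q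
  rw [nm_one, mul_one] at h
  simpa [hat] using h

lemma abs_avg_le {f : ℝ → ℝ} (hf : Continuous f) : |avg f| ≤ nm f := by
  have h := norm_hat_le hf 0
  have h1 : hat f 0 = ((avg f : ℝ) : ℂ) := by
    unfold hat avg
    simp only [ph_zero_left, mul_one]
    rw [intervalIntegral.integral_ofReal]
  rwa [h1, Complex.norm_real, Real.norm_eq_abs] at h

/-- the integral of a phase -/
lemma int_ph (q : ℤ) (hq : q ≠ 0) : ∫ u in (0 : ℝ)..1, ph q u = 0 := by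
  have h0 : (-(2 * Real.pi * q * I) : ℂ) ≠ 0 := by
    simp [Real.pi_ne_zero, hq, I_ne_zero]
  have h1 : ∀ u : ℝ, ph q u = cexp ((-(2 * Real.pi * q * I) : ℂ) * u) := by
    intro u; unfold ph; congr 1; ring
  simp only [h1]
  rw [integral_exp_mul_complex h0]
  have h2 : cexp (-(2 * (Real.pi : ℂ) * q * I) * ((1 : ℝ) : ℂ)) = 1 := by
    have h3 := H896.ph_one q
    unfold ph at h3
    rw [← h3]
    congr 1
    push_cast
    ring
  rw [h2]
  simp

lemma int_ph_zero : ∫ u in (0 : ℝ)..1, ph 0 u = 1 := by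
  simp [ph_zero_left]

lemma lo_eq (f : ℝ → ℝ) (u : ℝ) :
    ((lo f u : ℝ) : ℂ) = avg f + hat f 1 * ph (-1) u + conj (hat f 1) * ph 1 u := by
  unfold lo
  push_cast
  have h1 : (2 : ℂ) * ((hat f 1 * ph (-1) u).re : ℂ) =
      hat f 1 * ph (-1) u + conj (hat f 1 * ph (-1) u) := by
    rw [Complex.add_conj]
    push_cast
    ring
  rw [h1, map_mul, conj_ph, neg_neg]
  ring

lemma hat_add {f g : ℝ → ℝ} (hf : Continuous f) (hg : Continuous g) (q : ℤ) :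
    hat (fun u => f u + g u) q = hat f q + hat g q := by
  unfold hat
  have := continuous_ph q
  rw [← intervalIntegral.integral_add (Continuous.intervalIntegrable (by fun_prop) _ _)
    (Continuous.intervalIntegrable (by fun_prop) _ _)]
  refine intervalIntegral.integral_congr fun u _ => ?_
  show ((f u + g u : ℝ) : ℂ) * ph q u = (f u : ℂ) * ph q u + (g u : ℂ) * ph q u
  push_cast; ring

lemma hat_sub {f g : ℝ → ℝ} (hf : Continuous f) (hg : Continuous g) (q : ℤ) :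
    hat (fun u => f u - g u) q = hat f q - hat g q := by
  unfold hat
  have := continuous_ph q
  rw [← intervalIntegral.integral_sub (Continuous.intervalIntegrable (by fun_prop) _ _)
    (Continuous.intervalIntegrable (by fun_prop) _ _)]
  refine intervalIntegral.integral_congr fun u _ => ?_
  show ((f u - g u : ℝ) : ℂ) * ph q u = (f u : ℂ) * ph q u - (g u : ℂ) * ph q u
  push_cast; ring

lemma int_tri (A a b : ℂ) (p q r : ℤ) (s : ℤ) :
    ∫ u in (0 : ℝ)..1, (A * ph p u + a * ph q u + b * ph r u) * ph s u =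
      A * (if p + s = 0 then 1 else 0) + a * (if q + s = 0 then 1 else 0)
        + b * (if r + s = 0 then 1 else 0) := by
  have hI : ∀ n : ℤ, ∫ u in (0 : ℝ)..1, ph n u = if n = 0 then 1 else 0 := by
    intro n
    split_ifs with h
    · rw [h]; exact int_ph_zero
    · exact int_ph n h
  have h1 : ∀ u : ℝ, (A * ph p u + a * ph q u + b * ph r u) * ph s u =
      A * ph (p + s) u + a * ph (q + s) u + b * ph (r + s) u := by
    intro u
    rw [ph_add_int, ph_add_int, ph_add_int]; ring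
  simp only [h1]
  have c1 := continuous_ph (p + s)
  have c2 := continuous_ph (q + s)
  have c3 := continuous_ph (r + s)
  rw [intervalIntegral.integral_add, intervalIntegral.integral_add,
    intervalIntegral.integral_const_mul, intervalIntegral.integral_const_mul,
    intervalIntegral.integral_const_mul, hI, hI, hI]
  all_goals exact Continuous.intervalIntegrable (by fun_prop) _ _

lemma hat_lo (f : ℝ → ℝ) (s : ℤ) : hat (lo f) s = avg f * (if (0 : ℤ) + s = 0 then 1 else 0) +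
    hat f 1 * (if -1 + s = 0 then 1 else 0) + conj (hat f 1) * (if 1 + s = 0 then 1 else 0) := by
  rw [← int_tri]
  show ∫ u in (0 : ℝ)..1, ((lo f u : ℝ) : ℂ) * ph s u = _
  refine intervalIntegral.integral_congr fun u _ => ?_
  show ((lo f u : ℝ) : ℂ) * ph s u =
    (avg f * ph 0 u + hat f 1 * ph (-1) u + conj (hat f 1) * ph 1 u) * ph s u
  rw [lo_eq, ph_zero_left]
  ring

lemma hat_zero (f : ℝ → ℝ) : hat f 0 = ((avg f : ℝ) : ℂ) := by
  unfold hat avg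
  simp only [ph_zero_left, mul_one]
  rw [intervalIntegral.integral_ofReal]

lemma hat_neg (f : ℝ → ℝ) (q : ℤ) : hat f (-q) = conj (hat f q) := by
  unfold hat
  rw [intervalIntegral.integral_of_le zero_le_one, intervalIntegral.integral_of_le zero_le_one,
    ← integral_conj]
  refine integral_congr_ae (Filter.Eventually.of_forall fun u => ?_)
  show (f u : ℂ) * ph (-q) u = conj ((f u : ℂ) * ph q u)
  rw [map_mul, conj_ph, Complex.conj_ofReal]

lemma hat_hi {f : ℝ → ℝ} (hf : Continuous f) {q : ℤ} (hq : q = 0 ∨ q = 1 ∨ q = -1) :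
    hat (hi f) q = 0 := by
  unfold hi
  rw [hat_sub hf (continuous_lo f), hat_lo]
  rcases hq with h | h | h
  · subst h; simp [hat_zero]
  · subst h; simp
  · subst h
    rw [hat_neg]
    simp

/-- orthogonality -/
lemma int_hi_lo {f : ℝ → ℝ} (hf : Continuous f) (g : ℝ → ℝ) :
    ∫ u in (0 : ℝ)..1, hi f u * lo g u = 0 := by
  have h0 := continuous_hi hf
  have h1 : ((∫ u in (0 : ℝ)..1, hi f u * lo g u : ℝ) : ℂ) = 0 := by
    rw [← intervalIntegral.integral_ofReal]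
    have h2 : ∀ u : ℝ, ((hi f u * lo g u : ℝ) : ℂ) = (avg g : ℂ) * ((hi f u : ℂ) * ph 0 u) +
        hat g 1 * ((hi f u : ℂ) * ph (-1) u) + conj (hat g 1) * ((hi f u : ℂ) * ph 1 u) := by
      intro u
      push_cast
      rw [lo_eq, ph_zero_left]; ring
    simp only [h2]
    have c1 := continuous_ph 0
    have c2 := continuous_ph (-1)
    have c3 := continuous_ph 1
    have e0 := hat_hi hf (q := 0) (Or.inl rfl)
    have e1 := hat_hi hf (q := 1) (Or.inr (Or.inl rfl))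
    have e2 := hat_hi hf (q := -1) (Or.inr (Or.inr rfl))
    unfold hat at e0 e1 e2
    rw [intervalIntegral.integral_add, intervalIntegral.integral_add,
      intervalIntegral.integral_const_mul, intervalIntegral.integral_const_mul,
      intervalIntegral.integral_const_mul, e0, e1, e2]
    · simp
    all_goals exact Continuous.intervalIntegrable (by fun_prop) _ _
  exact_mod_cast h1

lemma nm_pyth {f : ℝ → ℝ} (hf : Continuous f) : nm f ^ 2 = nm (lo f) ^ 2 + nm (hi f) ^ 2 := by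
  rw [nm_sq, nm_sq, nm_sq]
  have h0 := continuous_hi hf
  have h1 := continuous_lo f
  have h2 := int_hi_lo hf f
  have h3 : ∫ u in (0 : ℝ)..1, f u ^ 2 = (∫ u in (0 : ℝ)..1, lo f u ^ 2) +
      (∫ u in (0 : ℝ)..1, hi f u ^ 2) + 2 * ∫ u in (0 : ℝ)..1, hi f u * lo f u := by
    rw [← intervalIntegral.integral_const_mul, ← intervalIntegral.integral_add,
      ← intervalIntegral.integral_add]
    · refine intervalIntegral.integral_congr fun u _ => ?_
      show f u ^ 2 = lo f u ^ 2 + hi f u ^ 2 + 2 * (hi f u * lo f u)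
      unfold hi; ring
    all_goals exact Continuous.intervalIntegrable (by fun_prop) _ _
  rw [h3, h2]; ring

lemma nm_lo_le {f : ℝ → ℝ} (hf : Continuous f) : nm (lo f) ≤ nm f := by
  have h := nm_pyth hf
  have h1 := nm_nonneg f
  have h2 := nm_nonneg (lo f)
  exact abs_le_of_sq_le_sq' (by nlinarith [sq_nonneg (nm (hi f))]) h1 |>.2

lemma nm_hi_le {f : ℝ → ℝ} (hf : Continuous f) : nm (hi f) ≤ nm f := by
  have h := nm_pyth hf
  have h1 := nm_nonneg f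
  have h2 := nm_nonneg (lo f)
  exact abs_le_of_sq_le_sq' (by nlinarith [sq_nonneg (nm (lo f))]) h1 |>.2

/-- the product of the low parts has first coefficient `avg f * ĝ(1) + avg g * f̂(1)` -/
lemma hat_lo_mul_lo (f g : ℝ → ℝ) :
    ∫ u in (0 : ℝ)..1, ((lo f u * lo g u : ℝ) : ℂ) * ph 1 u =
      (avg f : ℂ) * hat g 1 + (avg g : ℂ) * hat f 1 := by
  have h1 : ∀ u : ℝ, ((lo f u * lo g u : ℝ) : ℂ) * ph 1 u =
      (((avg f : ℂ) * avg g + hat f 1 * conj (hat g 1) + conj (hat f 1) * hat g 1) * ph 0 u +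
        ((avg f : ℂ) * hat g 1 + (avg g : ℂ) * hat f 1) * ph (-1) u +
        ((avg f : ℂ) * conj (hat g 1) + (avg g : ℂ) * conj (hat f 1)) * ph 1 u) * ph 1 u +
      ((hat f 1 * hat g 1) * ph (-2) u + (conj (hat f 1) * conj (hat g 1)) * ph 2 u +
        0 * ph 0 u) * ph 1 u := by
    intro u
    push_cast
    rw [lo_eq, lo_eq]
    have e1 : ph (-1) u * ph 1 u = 1 := by rw [← ph_add_int]; simp [ph_zero_left]
    have e2 : ph (-2) u = ph (-1) u * ph (-1) u := by rw [← ph_add_int]; norm_num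
    have e3 : ph 2 u = ph 1 u * ph 1 u := by rw [← ph_add_int]; norm_num
    rw [e2, e3, ph_zero_left]
    linear_combination (hat f 1 * conj (hat g 1) + conj (hat f 1) * hat g 1) * ph 1 u * e1
  simp only [h1]
  have c0 := continuous_ph 0
  have c1 := continuous_ph 1
  have c2 := continuous_ph 2
  have c3 := continuous_ph (-1)
  have c4 := continuous_ph (-2)
  rw [intervalIntegral.integral_add, int_tri, int_tri]
  · simp
  all_goals exact Continuous.intervalIntegrable (by fun_prop) _ _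

/-- **bilinear estimate** for the first coefficient of a product -/
theorem bil {f g : ℝ → ℝ} (hf : Continuous f) (hg : Continuous g) :
    ‖∫ u in (0 : ℝ)..1, ((f u * g u : ℝ) : ℂ) * ph 1 u‖ ≤
      |avg f| * ‖hat g 1‖ + |avg g| * ‖hat f 1‖ + nm f * nm (hi g) + nm (hi f) * nm g := by
  have hl := continuous_lo f
  have hm := continuous_lo g
  have h1 : ∫ u in (0 : ℝ)..1, ((f u * g u : ℝ) : ℂ) * ph 1 u =
      (∫ u in (0 : ℝ)..1, ((lo f u * lo g u : ℝ) : ℂ) * ph 1 u) +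
      (∫ u in (0 : ℝ)..1, ((lo f u * hi g u : ℝ) : ℂ) * ph 1 u) +
      ∫ u in (0 : ℝ)..1, ((hi f u * g u : ℝ) : ℂ) * ph 1 u := by
    have c1 := continuous_ph 1
    have c2 := continuous_hi hf
    have c3 := continuous_hi hg
    rw [← intervalIntegral.integral_add, ← intervalIntegral.integral_add]
    · refine intervalIntegral.integral_congr fun u _ => ?_
      show ((f u * g u : ℝ) : ℂ) * ph 1 u = ((lo f u * lo g u : ℝ) : ℂ) * ph 1 u +
        ((lo f u * hi g u : ℝ) : ℂ) * ph 1 u + ((hi f u * g u : ℝ) : ℂ) * ph 1 u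
      unfold hi
      push_cast
      ring
    all_goals exact Continuous.intervalIntegrable (by fun_prop) _ _
  rw [h1, hat_lo_mul_lo]
  have h2 := cs_ph hl (continuous_hi hg) 1
  have h3 := cs_ph (continuous_hi hf) hg 1
  have h4 : ‖(avg f : ℂ) * hat g 1 + (avg g : ℂ) * hat f 1‖ ≤
      |avg f| * ‖hat g 1‖ + |avg g| * ‖hat f 1‖ := by
    refine (norm_add_le _ _).trans (le_of_eq ?_)
    rw [norm_mul, norm_mul, Complex.norm_real, Complex.norm_real, Real.norm_eq_abs,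
      Real.norm_eq_abs]
  have h5 : nm (lo f) * nm (hi g) ≤ nm f * nm (hi g) :=
    mul_le_mul_of_nonneg_right (nm_lo_le hf) (nm_nonneg _)
  refine (norm_add_le _ _).trans ?_
  refine (add_le_add (norm_add_le _ _) le_rfl).trans ?_
  linarith

/-! ### exponential -/

lemma exp_sub_one_le {x : ℝ} (hx : |x| ≤ 1) : |Real.exp x - 1| ≤ 2 * |x| := by
  have := Real.abs_exp_sub_one_le hx
  exact this

lemma exp_sub_le {x : ℝ} (hx : |x| ≤ 1) : |Real.exp x - 1 - x| ≤ x ^ 2 :=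
  Real.abs_exp_sub_one_sub_id_le hx

lemma exp_sub_le3 {x : ℝ} (hx : |x| ≤ 1) : |Real.exp x - 1 - x - x ^ 2 / 2| ≤ |x| ^ 3 := by
  have h := Real.exp_bound hx (n := 3) (by norm_num)
  have h1 : ∑ m ∈ Finset.range 3, x ^ m / (m.factorial : ℝ) = 1 + x + x ^ 2 / 2 := by
    simp [Finset.sum_range_succ, Nat.factorial]
  rw [h1] at h
  have h2 : Real.exp x - 1 - x - x ^ 2 / 2 = Real.exp x - (1 + x + x ^ 2 / 2) := by ring
  rw [h2]
  refine h.trans ?_
  have h3 : (0 : ℝ) ≤ |x| ^ 3 := by positivity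
  norm_num [Nat.factorial]
  nlinarith

/-! ### the sectors -/

/-- the standing assumptions -/
structure Nz (ℓ : ℝ → ℝ) (om : ℝ) : Prop where
  cont : Continuous ℓ
  om1 : om ≤ 1
  bd : ∀ u ∈ Icc (0 : ℝ) 1, |ℓ u| ≤ om
  norm : ∫ u in (0 : ℝ)..1, Real.exp (ℓ u) = 1

variable {ℓ : ℝ → ℝ} {om : ℝ}

lemma Nz.nonneg (h : Nz ℓ om) : 0 ≤ om := (abs_nonneg _).trans (h.bd 0 ⟨le_rfl, zero_le_one⟩)

lemma Nz.bd1 (h : Nz ℓ om) (u : ℝ) (hu : u ∈ Icc (0 : ℝ) 1) : |ℓ u| ≤ 1 :=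
  (h.bd u hu).trans h.om1

lemma Nz.nm_le (h : Nz ℓ om) : nm ℓ ≤ om := H43.nm_le h.cont h.nonneg h.bd

/-- `-∫ ℓ = ∫ (e^ℓ - 1 - ℓ)` -/
lemma Nz.avg_eq (h : Nz ℓ om) : -avg ℓ = ∫ u in (0 : ℝ)..1, (Real.exp (ℓ u) - 1 - ℓ u) := by
  have hc := h.cont
  rw [intervalIntegral.integral_sub, intervalIntegral.integral_sub, h.norm]
  · unfold avg; simp
  all_goals exact Continuous.intervalIntegrable (by fun_prop) _ _

/-- **charge 0**: `0 ≤ Ū - U⁰ ≤ ‖ℓ‖²` -/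
theorem Nz.avg_bd (h : Nz ℓ om) : 0 ≤ -avg ℓ ∧ -avg ℓ ≤ nm ℓ ^ 2 := by
  have hc := h.cont
  constructor
  · rw [h.avg_eq]
    refine intervalIntegral.integral_nonneg zero_le_one fun u _ => ?_
    have := Real.add_one_le_exp (ℓ u)
    linarith
  · rw [h.avg_eq, nm_sq]
    exact int_mono (by fun_prop) (by fun_prop) fun u hu =>
      (le_abs_self _).trans (exp_sub_le (h.bd1 u hu))

lemma Nz.abs_avg (h : Nz ℓ om) : |avg ℓ| ≤ nm ℓ ^ 2 := by
  have := h.avg_bd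
  rw [abs_le]; constructor <;> nlinarith [nm_nonneg ℓ]

/-- the sector of charge `q` minus the Fourier coefficient of `ℓ` -/
lemma Nz.sec_sub (h : Nz ℓ om) {q : ℤ} (hq : q ≠ 0) :
    hat (fun u => Real.exp (ℓ u)) q - hat ℓ q =
      ∫ u in (0 : ℝ)..1, ((Real.exp (ℓ u) - 1 - ℓ u : ℝ) : ℂ) * ph q u := by
  have hc := h.cont
  have cp := continuous_ph q
  have h1 : ∫ u in (0 : ℝ)..1, ((Real.exp (ℓ u) - 1 - ℓ u : ℝ) : ℂ) * ph q u =
      hat (fun u => Real.exp (ℓ u)) q - (∫ u in (0 : ℝ)..1, ph q u) - hat ℓ q := by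
    unfold hat
    rw [← intervalIntegral.integral_sub, ← intervalIntegral.integral_sub]
    · refine intervalIntegral.integral_congr fun u _ => ?_
      show ((Real.exp (ℓ u) - 1 - ℓ u : ℝ) : ℂ) * ph q u =
        ((Real.exp (ℓ u) : ℝ) : ℂ) * ph q u - ph q u - (ℓ u : ℂ) * ph q u
      push_cast; ring
    all_goals exact Continuous.intervalIntegrable (by fun_prop) _ _
  rw [h1, int_ph q hq]; ring

/-- **charge q ≠ 0**: `|Φ_q - W_q| ≤ ‖ℓ‖²` -/
theorem Nz.sec_le (h : Nz ℓ om) {q : ℤ} (hq : q ≠ 0) :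
    ‖hat (fun u => Real.exp (ℓ u)) q - hat ℓ q‖ ≤ nm ℓ ^ 2 := by
  rw [h.sec_sub hq, nm_sq]
  refine norm_int_le (by have := h.cont; fun_prop) fun u hu => ?_
  rw [norm_mul, norm_ph, mul_one, Complex.norm_real, Real.norm_eq_abs]
  exact exp_sub_le (h.bd1 u hu)

/-- **charge 1, third order**: `|Φ₁ - W₁| ≤ ‖ℓ‖ ‖hi ℓ‖ + 2 om ‖ℓ‖²` -/
theorem Nz.sec1_le (h : Nz ℓ om) :
    ‖hat (fun u => Real.exp (ℓ u)) 1 - hat ℓ 1‖ ≤ nm ℓ * nm (hi ℓ) + 2 * om * nm ℓ ^ 2 := by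
  have hc := h.cont
  have cp := continuous_ph 1
  rw [h.sec_sub one_ne_zero]
  have h1 : ∫ u in (0 : ℝ)..1, ((Real.exp (ℓ u) - 1 - ℓ u : ℝ) : ℂ) * ph 1 u =
      (1 / 2 : ℂ) * (∫ u in (0 : ℝ)..1, ((ℓ u * ℓ u : ℝ) : ℂ) * ph 1 u) +
        ∫ u in (0 : ℝ)..1, ((Real.exp (ℓ u) - 1 - ℓ u - ℓ u ^ 2 / 2 : ℝ) : ℂ) * ph 1 u := by
    rw [← intervalIntegral.integral_const_mul, ← intervalIntegral.integral_add]
    · refine intervalIntegral.integral_congr fun u _ => ?_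
      show ((Real.exp (ℓ u) - 1 - ℓ u : ℝ) : ℂ) * ph 1 u =
        (1 / 2 : ℂ) * (((ℓ u * ℓ u : ℝ) : ℂ) * ph 1 u) +
          ((Real.exp (ℓ u) - 1 - ℓ u - ℓ u ^ 2 / 2 : ℝ) : ℂ) * ph 1 u
      push_cast; ring
    all_goals exact Continuous.intervalIntegrable (by fun_prop) _ _
  rw [h1]
  have h2 := bil hc hc
  have h3 : ‖∫ u in (0 : ℝ)..1, ((Real.exp (ℓ u) - 1 - ℓ u - ℓ u ^ 2 / 2 : ℝ) : ℂ) * ph 1 u‖ ≤
      om * nm ℓ ^ 2 := by
    rw [nm_sq, ← intervalIntegral.integral_const_mul]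
    refine norm_int_le (by fun_prop) fun u hu => ?_
    rw [norm_mul, norm_ph, mul_one, Complex.norm_real, Real.norm_eq_abs]
    refine (exp_sub_le3 (h.bd1 u hu)).trans ?_
    have h4 : |ℓ u| ^ 3 = |ℓ u| * ℓ u ^ 2 := by rw [pow_succ, sq_abs]; ring
    rw [h4]
    exact mul_le_mul_of_nonneg_right (h.bd u hu) (sq_nonneg _)
  have h5 := h.abs_avg
  have h6 := norm_hat_le hc 1
  have h7 := h.nm_le
  have h8 := nm_nonneg ℓ
  have h9 : |avg ℓ| * ‖hat ℓ 1‖ ≤ om * nm ℓ ^ 2 := by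
    calc |avg ℓ| * ‖hat ℓ 1‖ ≤ nm ℓ ^ 2 * om :=
          mul_le_mul h5 (h6.trans h7) (norm_nonneg _) (by positivity)
      _ = _ := by ring
  refine (norm_add_le _ _).trans ?_
  rw [norm_mul]
  have h10 : ‖(1 / 2 : ℂ)‖ = 1 / 2 := by norm_num
  rw [h10]
  nlinarith

/-! ### one derivative: `ℓ₁` with `∫ e^ℓ ℓ₁ = 0` -/

/-- `|avg ℓ₁| ≤ 2 ‖ℓ‖ ‖ℓ₁‖` -/
theorem Nz.avg1_le (h : Nz ℓ om) {ℓ₁ : ℝ → ℝ} (h1 : Continuous ℓ₁)
    (hn : ∫ u in (0 : ℝ)..1, Real.exp (ℓ u) * ℓ₁ u = 0) : |avg ℓ₁| ≤ 2 * nm ℓ * nm ℓ₁ := by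
  have hc := h.cont
  have h2 : avg ℓ₁ = -∫ u in (0 : ℝ)..1, (Real.exp (ℓ u) - 1) * ℓ₁ u := by
    have h3 : ∫ u in (0 : ℝ)..1, (Real.exp (ℓ u) - 1) * ℓ₁ u =
        (∫ u in (0 : ℝ)..1, Real.exp (ℓ u) * ℓ₁ u) - avg ℓ₁ := by
      unfold avg
      rw [← intervalIntegral.integral_sub]
      · refine intervalIntegral.integral_congr fun u _ => ?_
        show (Real.exp (ℓ u) - 1) * ℓ₁ u = Real.exp (ℓ u) * ℓ₁ u - ℓ₁ u
        ring
      all_goals exact Continuous.intervalIntegrable (by fun_prop) _ _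
    rw [h3, hn]; ring
  rw [h2, abs_neg]
  calc |∫ u in (0 : ℝ)..1, (Real.exp (ℓ u) - 1) * ℓ₁ u|
      ≤ ∫ u in (0 : ℝ)..1, 2 * (|ℓ u| * |ℓ₁ u|) := by
        have := norm_int_le (F := fun u : ℝ =>
          (Real.exp (ℓ u) - 1) * ℓ₁ u) (g := fun u => 2 * (|ℓ u| * |ℓ₁ u|)) (by fun_prop)
          fun u hu => ?_
        · simpa [Real.norm_eq_abs] using this
        · rw [norm_mul, Real.norm_eq_abs, Real.norm_eq_abs, ← mul_assoc]
          exact mul_le_mul_of_nonneg_right (exp_sub_one_le (h.bd1 u hu)) (abs_nonneg _)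
    _ = 2 * ∫ u in (0 : ℝ)..1, |ℓ u| * |ℓ₁ u| := intervalIntegral.integral_const_mul _ _
    _ ≤ 2 * (nm ℓ * nm ℓ₁) := by
        have := cs_int hc h1
        linarith
    _ = _ := by ring

/-- the derivative of the remainder, charge `q`: `‖D(Φ_q - W_q)‖ ≤ 2 ‖ℓ‖ ‖ℓ₁‖` -/
theorem Nz.dsec_le (h : Nz ℓ om) {ℓ₁ : ℝ → ℝ} (h1 : Continuous ℓ₁) (q : ℤ) :
    ‖(∫ u in (0 : ℝ)..1, ((Real.exp (ℓ u) * ℓ₁ u : ℝ) : ℂ) * ph q u) - hat ℓ₁ q‖ ≤
      2 * nm ℓ * nm ℓ₁ := by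
  have hc := h.cont
  have cp := continuous_ph q
  have h2 : (∫ u in (0 : ℝ)..1, ((Real.exp (ℓ u) * ℓ₁ u : ℝ) : ℂ) * ph q u) - hat ℓ₁ q =
      ∫ u in (0 : ℝ)..1, (((Real.exp (ℓ u) - 1) * ℓ₁ u : ℝ) : ℂ) * ph q u := by
    unfold hat
    rw [← intervalIntegral.integral_sub]
    · refine intervalIntegral.integral_congr fun u _ => ?_
      show ((Real.exp (ℓ u) * ℓ₁ u : ℝ) : ℂ) * ph q u - (ℓ₁ u : ℂ) * ph q u =
        (((Real.exp (ℓ u) - 1) * ℓ₁ u : ℝ) : ℂ) * ph q u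
      push_cast; ring
    all_goals exact Continuous.intervalIntegrable (by fun_prop) _ _
  rw [h2]
  refine (norm_int_le (g := fun u => 2 * (|ℓ u| * |ℓ₁ u|)) (by fun_prop) fun u hu => ?_).trans ?_
  · rw [norm_mul, norm_ph, mul_one, Complex.norm_real, norm_mul, Real.norm_eq_abs,
      Real.norm_eq_abs, ← mul_assoc]
    exact mul_le_mul_of_nonneg_right (exp_sub_one_le (h.bd1 u hu)) (abs_nonneg _)
  · rw [intervalIntegral.integral_const_mul]
    have := cs_int hc h1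
    linarith

/-- **derivative of the remainder, charge 1, third order**:
`‖D(Φ₁ - W₁)‖ ≤ ‖ℓ‖ ‖hi ℓ₁‖ + ‖hi ℓ‖ ‖ℓ₁‖ + 4 om ‖ℓ‖ ‖ℓ₁‖` -/
theorem Nz.dsec1_le (h : Nz ℓ om) {ℓ₁ : ℝ → ℝ} (h1 : Continuous ℓ₁)
    (hn : ∫ u in (0 : ℝ)..1, Real.exp (ℓ u) * ℓ₁ u = 0) :
    ‖(∫ u in (0 : ℝ)..1, ((Real.exp (ℓ u) * ℓ₁ u : ℝ) : ℂ) * ph 1 u) - hat ℓ₁ 1‖ ≤
      nm ℓ * nm (hi ℓ₁) + nm (hi ℓ) * nm ℓ₁ + 4 * om * nm ℓ * nm ℓ₁ := by
  have hc := h.cont
  have cp := continuous_ph 1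
  have h2 : (∫ u in (0 : ℝ)..1, ((Real.exp (ℓ u) * ℓ₁ u : ℝ) : ℂ) * ph 1 u) - hat ℓ₁ 1 =
      (∫ u in (0 : ℝ)..1, ((ℓ u * ℓ₁ u : ℝ) : ℂ) * ph 1 u) +
      ∫ u in (0 : ℝ)..1, (((Real.exp (ℓ u) - 1 - ℓ u) * ℓ₁ u : ℝ) : ℂ) * ph 1 u := by
    unfold hat
    rw [← intervalIntegral.integral_sub, ← intervalIntegral.integral_add]
    · refine intervalIntegral.integral_congr fun u _ => ?_
      show ((Real.exp (ℓ u) * ℓ₁ u : ℝ) : ℂ) * ph 1 u - (ℓ₁ u : ℂ) * ph 1 u =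
        ((ℓ u * ℓ₁ u : ℝ) : ℂ) * ph 1 u + (((Real.exp (ℓ u) - 1 - ℓ u) * ℓ₁ u : ℝ) : ℂ) * ph 1 u
      push_cast; ring
    all_goals exact Continuous.intervalIntegrable (by fun_prop) _ _
  rw [h2]
  have h3 := bil hc h1
  have h4 : ‖∫ u in (0 : ℝ)..1, (((Real.exp (ℓ u) - 1 - ℓ u) * ℓ₁ u : ℝ) : ℂ) * ph 1 u‖ ≤
      om * (nm ℓ * nm ℓ₁) := by
    refine (norm_int_le (g := fun u => om * (|ℓ u| * |ℓ₁ u|)) (by fun_prop)
      fun u hu => ?_).trans ?_
    · rw [norm_mul, norm_ph, mul_one, Complex.norm_real, norm_mul, Real.norm_eq_abs,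
        Real.norm_eq_abs, ← mul_assoc]
      refine mul_le_mul_of_nonneg_right ((exp_sub_le (h.bd1 u hu)).trans ?_) (abs_nonneg _)
      rw [← sq_abs, sq]
      exact mul_le_mul_of_nonneg_right (h.bd u hu) (abs_nonneg _)
    · rw [intervalIntegral.integral_const_mul]
      exact mul_le_mul_of_nonneg_left (cs_int hc h1) h.nonneg
  have h5 := h.abs_avg
  have h6 := norm_hat_le hc 1
  have h6' := norm_hat_le h1 1
  have h7 := h.nm_le
  have h8 := nm_nonneg ℓ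
  have h8' := nm_nonneg ℓ₁
  have h9 := h.avg1_le h1 hn
  have h10 : |avg ℓ| * ‖hat ℓ₁ 1‖ ≤ om * (nm ℓ * nm ℓ₁) := by
    calc |avg ℓ| * ‖hat ℓ₁ 1‖ ≤ nm ℓ ^ 2 * nm ℓ₁ :=
          mul_le_mul h5 h6' (norm_nonneg _) (by positivity)
      _ = nm ℓ * (nm ℓ * nm ℓ₁) := by ring
      _ ≤ om * (nm ℓ * nm ℓ₁) := mul_le_mul_of_nonneg_right h7 (by positivity)
  have h11 : |avg ℓ₁| * ‖hat ℓ 1‖ ≤ 2 * om * (nm ℓ * nm ℓ₁) := by
    calc |avg ℓ₁| * ‖hat ℓ 1‖ ≤ (2 * nm ℓ * nm ℓ₁) * om :=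
          mul_le_mul h9 (h6.trans h7) (norm_nonneg _) (by positivity)
      _ = _ := by ring
  refine (norm_add_le _ _).trans ?_
  nlinarith

/-! ### two derivatives: `ℓ₁, ℓ₂, ℓ₁₂` with `∫ e^ℓ ℓ_i = 0`, `∫ e^ℓ (ℓ₁₂ + ℓ₁ ℓ₂) = 0` -/

/-- `|D²(Ū - U⁰)| ≤ 2 ‖ℓ‖ ‖ℓ₁₂‖ + 3 ‖ℓ₁‖ ‖ℓ₂‖` -/
theorem Nz.avg2_le (h : Nz ℓ om) {ℓ₁ ℓ₂ m : ℝ → ℝ} (h1 : Continuous ℓ₁) (h2 : Continuous ℓ₂)
    (hm : Continuous m)
    (hn : ∫ u in (0 : ℝ)..1, Real.exp (ℓ u) * (m u + ℓ₁ u * ℓ₂ u) = 0) :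
    |avg m| ≤ 2 * nm ℓ * nm m + 3 * nm ℓ₁ * nm ℓ₂ := by
  have hc := h.cont
  have h3 : avg m = -((∫ u in (0 : ℝ)..1, (Real.exp (ℓ u) - 1) * m u) +
      ∫ u in (0 : ℝ)..1, Real.exp (ℓ u) * (ℓ₁ u * ℓ₂ u)) := by
    have h4 : (∫ u in (0 : ℝ)..1, (Real.exp (ℓ u) - 1) * m u) +
        (∫ u in (0 : ℝ)..1, Real.exp (ℓ u) * (ℓ₁ u * ℓ₂ u)) =
        (∫ u in (0 : ℝ)..1, Real.exp (ℓ u) * (m u + ℓ₁ u * ℓ₂ u)) - avg m := by
      unfold avg
      rw [← intervalIntegral.integral_sub, ← intervalIntegral.integral_add]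
      · refine intervalIntegral.integral_congr fun u _ => ?_
        show (Real.exp (ℓ u) - 1) * m u + Real.exp (ℓ u) * (ℓ₁ u * ℓ₂ u) =
          Real.exp (ℓ u) * (m u + ℓ₁ u * ℓ₂ u) - m u
        ring
      all_goals exact Continuous.intervalIntegrable (by fun_prop) _ _
    rw [h4, hn]; ring
  rw [h3, abs_neg]
  have h5 : |∫ u in (0 : ℝ)..1, (Real.exp (ℓ u) - 1) * m u| ≤ 2 * (nm ℓ * nm m) := by
    have := norm_int_le (F := fun u : ℝ =>
      (Real.exp (ℓ u) - 1) * m u) (g := fun u => 2 * (|ℓ u| * |m u|)) (by fun_prop)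
      fun u hu => ?_
    · rw [intervalIntegral.integral_const_mul, Real.norm_eq_abs] at this
      have h6 := cs_int hc hm
      linarith
    · rw [norm_mul, Real.norm_eq_abs, Real.norm_eq_abs, ← mul_assoc]
      exact mul_le_mul_of_nonneg_right (exp_sub_one_le (h.bd1 u hu)) (abs_nonneg _)
  have h7 : |∫ u in (0 : ℝ)..1, Real.exp (ℓ u) * (ℓ₁ u * ℓ₂ u)| ≤ 3 * (nm ℓ₁ * nm ℓ₂) := by
    have := norm_int_le (F := fun u : ℝ =>
      Real.exp (ℓ u) * (ℓ₁ u * ℓ₂ u)) (g := fun u => 3 * (|ℓ₁ u| * |ℓ₂ u|)) (by fun_prop)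
      fun u hu => ?_
    · rw [intervalIntegral.integral_const_mul, Real.norm_eq_abs] at this
      have h6 := cs_int h1 h2
      linarith
    · rw [norm_mul, norm_mul, Real.norm_eq_abs, Real.norm_eq_abs, Real.norm_eq_abs]
      refine mul_le_mul_of_nonneg_right ?_ (by positivity)
      rw [abs_of_pos (Real.exp_pos _)]
      have h8 := exp_sub_one_le (h.bd1 u hu)
      have h9 := (abs_le.1 h8).2
      have h10 := h.bd1 u hu
      linarith
  refine (abs_add_le _ _).trans ?_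
  nlinarith

end

end Vale.Agent.P159.H43
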