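import Vale.Agent.P159.H145.Pair
import Vale.Agent.P159.H43.Per

/-!
P159 (helper43), LOC11 in the letters of `Spec0`: charge sectors `Φ_q = Z^(q) / Z⁰` versus the
harmonics `W_q` of `log Z(F + c)` in the constant `c`, values and first directional derivatives.

Everything is bounded by the `L²(dc)` norms (`nm`) of
  `el w M F   : c ↦ log Z(F + c) - log Z⁰(F)`          (`|el| ≤ 2 ω`),
  `el1 w M F g : c ↦ D_g of the former`,
and of their parts `hi` with harmonics `|q| ≥ 2`.
-/

open MeasureTheory Complex Set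
open scoped ComplexConjugate
open Vale.Agent.P159.H896 (ph continuous_ph norm_ph ph_add_int ph_zero_left conj_ph)
open Vale.Agent.P159.TM.H104 (EM Lg Ex Cv Gr li T)
open Vale.Agent.P159.H37
open Vale.Agent.P159.H145 (LM L0 cs OscZ)

namespace Vale.Agent.P159.H43

noncomputable section

/-! ### differentiation under `∫₀¹` -/

theorem hasDerivAt_int {E : Type*} [NormedAddCommGroup E] [NormedSpace ℝ E]
    {G G' : ℝ → ℝ → E} (h0 : ∀ r, Continuous (G r))
    (h1 : Continuous (Function.uncurry G'))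
    (hd : ∀ r c, HasDerivAt (fun r => G r c) (G' r c) r) (r : ℝ) :
    HasDerivAt (fun r => ∫ c in (0 : ℝ)..1, G r c) (∫ c in (0 : ℝ)..1, G' r c) r := by
  have hK : IsCompact (Icc (r - 1) (r + 1) ×ˢ Icc (0 : ℝ) 1) := isCompact_Icc.prod isCompact_Icc
  obtain ⟨B, hB⟩ := hK.exists_bound_of_continuousOn (f := Function.uncurry G') h1.continuousOn
  have h2 := intervalIntegral.hasDerivAt_integral_of_dominated_loc_of_deriv_le (μ := volume)
    (a := (0 : ℝ)) (b := 1) (F := G) (F' := G') (x₀ := r) (s := Metric.ball r 1)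
    (bound := fun _ => B) (Metric.ball_mem_nhds r one_pos)
    (Filter.Eventually.of_forall fun x => (h0 x).aestronglyMeasurable)
    ((h0 r).intervalIntegrable _ _)
    ((h1.comp (Continuous.prodMk_right r)).aestronglyMeasurable)
    (Filter.Eventually.of_forall fun c hc x hx => ?_)
    intervalIntegrable_const
    (Filter.Eventually.of_forall fun c _ x _ => hd x c)
  · exact h2.2
  · rw [uIoc_of_le zero_le_one] at hc
    rw [Metric.mem_ball, Real.dist_eq, abs_lt] at hx
    exact hB (x, c) ⟨⟨by linarith [hx.1], by linarith [hx.2]⟩, ⟨hc.1.le, hc.2⟩⟩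

section

variable {V : Type*} [Fintype V] [DecidableEq V] {w : (V → ℤ) → ℝ} {M : Matrix V V ℝ}

/-- `D_g log Z_M(F)` -/
def dL (w : (V → ℤ) → ℝ) (M : Matrix V V ℝ) (F g : V → ℝ) : ℝ :=
  Ex (wM w M) (M.mulVec F) (li (M.mulVec g)) - bf M F g

omit [DecidableEq V] in
lemma hasDerivAt_qf (hM : M.transpose = M) (F g : V → ℝ) (r : ℝ) :
    HasDerivAt (fun r : ℝ => qf M (F + r • g)) (2 * bf M (F + r • g) g) r := by
  have h1 : (fun r : ℝ => qf M (F + r • g)) =
      fun r : ℝ => qf M F + 2 * (r * bf M F g) + r ^ 2 * qf M g := by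
    funext r
    rw [qf_add_vec hM, bf_smul_right, qf_smul]
  rw [h1]
  have h2 : HasDerivAt (fun r : ℝ => qf M F + 2 * (r * bf M F g) + r ^ 2 * qf M g)
      (0 + 2 * (1 * bf M F g) + (2 * r ^ (2 - 1) * 1) * qf M g) r := by
    exact (((hasDerivAt_const r (qf M F)).add (((hasDerivAt_id r).mul_const _).const_mul 2))).add
      (((hasDerivAt_id r).pow 2).mul_const _)
  refine h2.congr_deriv ?_
  rw [bf_add_left, bf_smul_left]
  have h3 : bf M g g = qf M g := rfl
  rw [h3]
  ring

omit [DecidableEq V] in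
theorem hasDerivAt_LM (hM : M.transpose = M) (hE : EM (wM w M)) (F g : V → ℝ) (r : ℝ) :
    HasDerivAt (fun r : ℝ => LM w M (F + r • g)) (dL w M (F + r • g) g) r := by
  have h1 : (fun r : ℝ => LM w M (F + r • g)) = fun r : ℝ =>
      Lg (wM w M) (M.mulVec F + r • M.mulVec g) - qf M (F + r • g) / 2 := by
    funext r
    rw [H145.LM_eq hM hE, Matrix.mulVec_add, Matrix.mulVec_smul]
  rw [h1]
  have h2 := TM.H104.hasDerivAt_Lg hE (M.mulVec F) (M.mulVec g) r
  have h3 := (hasDerivAt_qf hM F g r).div_const 2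
  refine (h2.sub h3).congr_deriv ?_
  unfold dL
  rw [Matrix.mulVec_add, Matrix.mulVec_smul]
  ring

omit [Fintype V] [DecidableEq V] in
lemma cs_line (F g : V → ℝ) (r c : ℝ) : cs (F + r • g) c = cs F c + r • g := by
  funext x
  simp only [cs, Pi.add_apply]
  ring

omit [DecidableEq V] in
lemma continuous_dL (hE : EM (wM w M)) (g : V → ℝ) :
    Continuous fun F : V → ℝ => dL w M F g := by
  unfold dL
  have h1 := TM.H104.continuous_Ex hE (Gr.li (M.mulVec g))
  have h2 : Continuous fun F : V → ℝ => M.mulVec F := by fun_prop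
  have h3 : Continuous fun F : V → ℝ => bf M F g := by
    unfold bf
    fun_prop
  exact (h1.comp h2).sub h3

omit [Fintype V] [DecidableEq V] in
lemma continuous_line2 (F g : V → ℝ) : Continuous fun p : ℝ × ℝ => cs F p.2 + p.1 • g := by
  refine continuous_pi fun x => ?_
  simp only [cs, Pi.add_apply, Pi.smul_apply, smul_eq_mul]
  fun_prop

omit [DecidableEq V] in
lemma continuous_LM (hM : M.transpose = M) (hE : EM (wM w M)) : Continuous (LM w M) :=
  (H145.continuous_ZM hM hE).log fun F => (ZM_pos hM hE F).ne'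

/-- `c ↦ log Z(F + c) - log Z⁰(F)` -/
def el (w : (V → ℤ) → ℝ) (M : Matrix V V ℝ) (F : V → ℝ) (c : ℝ) : ℝ := LM w M (cs F c) - L0 w M F

/-- charge sector `q`, normalised -/
def Phq (w : (V → ℤ) → ℝ) (M : Matrix V V ℝ) (q : ℤ) (F : V → ℝ) : ℂ := Zq w M q F / (Zn w M F : ℂ)

/-- harmonic `q` of `log Z(F + c)` in the constant `c` -/
def Wq (w : (V → ℤ) → ℝ) (M : Matrix V V ℝ) (q : ℤ) (F : V → ℝ) : ℂ :=
  ∫ c in (0 : ℝ)..1, (LM w M (cs F c) : ℂ) * ph q c

omit [DecidableEq V] in
lemma continuous_el (hM : M.transpose = M) (hE : EM (wM w M)) (F : V → ℝ) :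
    Continuous (el w M F) :=
  ((continuous_LM hM hE).comp (H145.continuous_cs F)).sub continuous_const

omit [DecidableEq V] in
lemma exp_el (hM : M.transpose = M) (hE : EM (wM w M)) (F : V → ℝ) (c : ℝ) :
    Real.exp (el w M F c) = ZM w M (cs F c) / Zn w M F := by
  unfold el LM L0
  rw [Real.exp_sub, Real.exp_log (ZM_pos hM hE _), Real.exp_log (H145.Zn_pos hM hE F)]

omit [DecidableEq V] in
lemma int_exp_el (hM : M.transpose = M) (hE : EM (wM w M)) (F : V → ℝ) :
    ∫ c in (0 : ℝ)..1, Real.exp (el w M F c) = 1 := by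
  simp only [exp_el hM hE]
  rw [intervalIntegral.integral_div]
  exact div_self (H145.Zn_pos hM hE F).ne'

omit [DecidableEq V] in
lemma hat_exp_el (hM : M.transpose = M) (hE : EM (wM w M)) (q : ℤ) (F : V → ℝ) :
    hat (fun c => Real.exp (el w M F c)) q = Phq w M q F := by
  unfold hat Phq Zq
  rw [← intervalIntegral.integral_div]
  refine intervalIntegral.integral_congr fun c _ => ?_
  show ((Real.exp (el w M F c) : ℝ) : ℂ) * ph q c = (ZM w M (fun x => F x + c) : ℂ) * _ / _
  rw [exp_el hM hE]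
  unfold ph cs
  push_cast
  ring

omit [DecidableEq V] in
lemma hat_el (hM : M.transpose = M) (hE : EM (wM w M)) {q : ℤ} (hq : q ≠ 0) (F : V → ℝ) :
    hat (el w M F) q = Wq w M q F := by
  unfold hat Wq el
  have c1 := continuous_ph q
  have c2 : Continuous fun c : ℝ => LM w M (cs F c) :=
    (continuous_LM hM hE).comp (H145.continuous_cs F)
  have h1 : ∫ c in (0 : ℝ)..1, ((LM w M (cs F c) - L0 w M F : ℝ) : ℂ) * ph q c =
      (∫ c in (0 : ℝ)..1, (LM w M (cs F c) : ℂ) * ph q c) -
        (L0 w M F : ℂ) * ∫ c in (0 : ℝ)..1, ph q c := by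
    rw [← intervalIntegral.integral_const_mul, ← intervalIntegral.integral_sub]
    · refine intervalIntegral.integral_congr fun c _ => ?_
      show ((LM w M (cs F c) - L0 w M F : ℝ) : ℂ) * ph q c =
        (LM w M (cs F c) : ℂ) * ph q c - (L0 w M F : ℂ) * ph q c
      push_cast; ring
    all_goals exact Continuous.intervalIntegrable (by fun_prop) _ _
  rw [h1, int_ph q hq]
  ring

omit [DecidableEq V] in
/-- the standing assumptions hold for `el w M F` -/
theorem nz_el (hM : M.transpose = M) (hE : EM (wM w M)) {ω : ℝ} (hO : OscZ w M ω)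
    (hω : ω ≤ 1 / 2) (F : V → ℝ) : Nz (el w M F) (2 * ω) where
  cont := continuous_el hM hE F
  om1 := by linarith
  norm := int_exp_el hM hE F
  bd := by
    intro c hc
    have h0 := H145.Zn_pos hM hE F
    have h1 := hO F c hc
    have hz := ZM_pos hM hE (cs F c)
    have h2 : |ZM w M (cs F c) / Zn w M F - 1| ≤ ω := by
      have h3 : ZM w M (cs F c) / Zn w M F - 1 = (ZM w M (cs F c) - Zn w M F) / Zn w M F := by
        field_simp
      rw [h3, abs_div, abs_of_pos h0, div_le_iff₀ h0]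
      exact h1
    have hω0 : 0 ≤ ω := (abs_nonneg _).trans h2
    have h4 : el w M F c = Real.log (1 + (ZM w M (cs F c) / Zn w M F - 1)) := by
      rw [← Real.log_exp (el w M F c), exp_el hM hE]
      congr 1
      ring
    set x := ZM w M (cs F c) / Zn w M F - 1 with hx
    have hx1 : |x| ≤ 1 / 2 := h2.trans hω
    have h5 := H145.log_one_add_ge hx1
    have hpos : 0 < 1 + x := by
      have := div_pos hz h0
      rw [hx]; linarith
    have h6 := Real.log_le_sub_one_of_pos hpos
    rw [h4, abs_le]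
    have h7 := abs_le.1 h2
    have h8 := abs_le.1 hx1
    have h9 : x ^ 2 ≤ |x| / 2 := by
      rw [← sq_abs]; nlinarith [abs_nonneg x]
    constructor
    · have : x ^ 2 ≤ ω / 2 := h9.trans (by linarith)
      linarith [h7.1]
    · linarith [h7.2]

omit [DecidableEq V] in
/-- **LOC11, values, any charge**: `|Φ_q(F) - W_q(F)| ≤ ‖el‖²  (≤ 4 ω²)` -/
theorem Phq_sub_Wq (hM : M.transpose = M) (hE : EM (wM w M)) {ω : ℝ} (hO : OscZ w M ω)
    (hω : ω ≤ 1 / 2) {q : ℤ} (hq : q ≠ 0) (F : V → ℝ) :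
    ‖Phq w M q F - Wq w M q F‖ ≤ nm (el w M F) ^ 2 := by
  have h := (nz_el hM hE hO hω F).sec_le hq
  rwa [hat_exp_el hM hE, hat_el hM hE hq] at h

omit [DecidableEq V] in
lemma nm_el_le (hM : M.transpose = M) (hE : EM (wM w M)) {ω : ℝ} (hO : OscZ w M ω)
    (hω : ω ≤ 1 / 2) (F : V → ℝ) : nm (el w M F) ≤ 2 * ω := (nz_el hM hE hO hω F).nm_le

omit [DecidableEq V] in
/-- **LOC11, values, charge one, third order**:
`|Φ₁(F) - W₁(F)| ≤ ‖el‖ ‖hi el‖ + 4 ω ‖el‖²` -/
theorem Ph1_sub_W1 (hM : M.transpose = M) (hE : EM (wM w M)) {ω : ℝ} (hO : OscZ w M ω)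
    (hω : ω ≤ 1 / 2) (F : V → ℝ) :
    ‖Phq w M 1 F - Wq w M 1 F‖ ≤
      nm (el w M F) * nm (hi (el w M F)) + 4 * ω * nm (el w M F) ^ 2 := by
  have h := (nz_el hM hE hO hω F).sec1_le
  rw [hat_exp_el hM hE, hat_el hM hE one_ne_zero] at h
  linarith

/-! ### first derivatives -/

/-- `D_g log Z⁰(F)` -/
def dL0 (w : (V → ℤ) → ℝ) (M : Matrix V V ℝ) (F g : V → ℝ) : ℝ :=
  ∫ c in (0 : ℝ)..1, Real.exp (el w M F c) * dL w M (cs F c) g

/-- `c ↦ D_g (log Z(F + c) - log Z⁰(F))` -/
def el1 (w : (V → ℤ) → ℝ) (M : Matrix V V ℝ) (F g : V → ℝ) (c : ℝ) : ℝ :=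
  dL w M (cs F c) g - dL0 w M F g

omit [DecidableEq V] in
lemma continuous_el1 (hE : EM (wM w M)) (F g : V → ℝ) : Continuous (el1 w M F g) :=
  ((continuous_dL hE g).comp (H145.continuous_cs F)).sub continuous_const

omit [DecidableEq V] in
lemma int_el1 (hM : M.transpose = M) (hE : EM (wM w M)) (F g : V → ℝ) :
    ∫ c in (0 : ℝ)..1, Real.exp (el w M F c) * el1 w M F g c = 0 := by
  have c1 := continuous_el hM hE F
  have c2 : Continuous fun c : ℝ => dL w M (cs F c) g :=
    (continuous_dL hE g).comp (H145.continuous_cs F)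
  have h1 : ∫ c in (0 : ℝ)..1, Real.exp (el w M F c) * el1 w M F g c =
      dL0 w M F g - dL0 w M F g * ∫ c in (0 : ℝ)..1, Real.exp (el w M F c) := by
    unfold el1
    rw [← intervalIntegral.integral_const_mul]
    nth_rewrite 2 [dL0]
    rw [← intervalIntegral.integral_sub]
    · refine intervalIntegral.integral_congr fun c _ => ?_
      show Real.exp (el w M F c) * (dL w M (cs F c) g - dL0 w M F g) =
        Real.exp (el w M F c) * dL w M (cs F c) g - dL0 w M F g * Real.exp (el w M F c)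
      ring
    all_goals exact Continuous.intervalIntegrable (by fun_prop) _ _
  rw [h1, int_exp_el hM hE]
  ring

omit [DecidableEq V] in
lemma hasDerivAt_ZM (hM : M.transpose = M) (hE : EM (wM w M)) (F g : V → ℝ) (r : ℝ) :
    HasDerivAt (fun r : ℝ => ZM w M (F + r • g))
      (ZM w M (F + r • g) * dL w M (F + r • g) g) r := by
  have h1 := (hasDerivAt_LM hM hE F g r).exp
  have h2 : (fun r : ℝ => Real.exp (LM w M (F + r • g))) = fun r : ℝ => ZM w M (F + r • g) := by
    funext r
    exact Real.exp_log (ZM_pos hM hE _)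
  rw [h2] at h1
  have h3 : Real.exp (LM w M (F + r • g)) = ZM w M (F + r • g) := Real.exp_log (ZM_pos hM hE _)
  rwa [h3] at h1

omit [DecidableEq V] in
theorem hasDerivAt_Zn (hM : M.transpose = M) (hE : EM (wM w M)) (F g : V → ℝ) (r : ℝ) :
    HasDerivAt (fun r : ℝ => Zn w M (F + r • g))
      (Zn w M (F + r • g) * dL0 w M (F + r • g) g) r := by
  have hcZ := H145.continuous_ZM hM hE
  have h1 := hasDerivAt_int (G := fun r c => ZM w M (cs F c + r • g))
    (G' := fun r c => ZM w M (cs F c + r • g) * dL w M (cs F c + r • g) g)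
    (fun r => hcZ.comp ((H145.continuous_cs F).add continuous_const))
    ((hcZ.comp (continuous_line2 F g)).mul ((continuous_dL hE g).comp (continuous_line2 F g)))
    (fun r c => hasDerivAt_ZM hM hE (cs F c) g r) r
  have h2 : (fun r : ℝ => Zn w M (F + r • g)) =
      fun r : ℝ => ∫ c in (0 : ℝ)..1, ZM w M (cs F c + r • g) := by
    funext r
    unfold Zn
    refine intervalIntegral.integral_congr fun c _ => ?_
    show ZM w M (cs (F + r • g) c) = _
    rw [cs_line]
  rw [h2]
  refine h1.congr_deriv ?_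
  unfold dL0
  rw [← intervalIntegral.integral_const_mul]
  refine intervalIntegral.integral_congr fun c _ => ?_
  show ZM w M (cs F c + r • g) * dL w M (cs F c + r • g) g =
    Zn w M (F + r • g) * (Real.exp (el w M (F + r • g) c) * dL w M (cs (F + r • g) c) g)
  rw [exp_el hM hE, cs_line]
  have := (H145.Zn_pos hM hE (F + r • g)).ne'
  field_simp

omit [DecidableEq V] in
theorem hasDerivAt_L0 (hM : M.transpose = M) (hE : EM (wM w M)) (F g : V → ℝ) (r : ℝ) :
    HasDerivAt (fun r : ℝ => L0 w M (F + r • g)) (dL0 w M (F + r • g) g) r := by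
  have h1 := (hasDerivAt_Zn hM hE F g r).log (H145.Zn_pos hM hE _).ne'
  refine h1.congr_deriv ?_
  have := (H145.Zn_pos hM hE (F + r • g)).ne'
  field_simp

/-- `D_g Φ_q(F)` -/
def dPh (w : (V → ℤ) → ℝ) (M : Matrix V V ℝ) (q : ℤ) (F g : V → ℝ) : ℂ :=
  ∫ c in (0 : ℝ)..1, ((Real.exp (el w M F c) * el1 w M F g c : ℝ) : ℂ) * ph q c

/-- `D_g W_q(F)` -/
def dW (w : (V → ℤ) → ℝ) (M : Matrix V V ℝ) (q : ℤ) (F g : V → ℝ) : ℂ :=
  ∫ c in (0 : ℝ)..1, (dL w M (cs F c) g : ℂ) * ph q c

omit [DecidableEq V] in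
lemma hat_el1 (hE : EM (wM w M)) {q : ℤ} (hq : q ≠ 0) (F g : V → ℝ) :
    hat (el1 w M F g) q = dW w M q F g := by
  unfold hat dW el1
  have c1 := continuous_ph q
  have c2 : Continuous fun c : ℝ => dL w M (cs F c) g :=
    (continuous_dL hE g).comp (H145.continuous_cs F)
  have h1 : ∫ c in (0 : ℝ)..1, ((dL w M (cs F c) g - dL0 w M F g : ℝ) : ℂ) * ph q c =
      (∫ c in (0 : ℝ)..1, (dL w M (cs F c) g : ℂ) * ph q c) -
        (dL0 w M F g : ℂ) * ∫ c in (0 : ℝ)..1, ph q c := by
    rw [← intervalIntegral.integral_const_mul, ← intervalIntegral.integral_sub]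
    · refine intervalIntegral.integral_congr fun c _ => ?_
      show ((dL w M (cs F c) g - dL0 w M F g : ℝ) : ℂ) * ph q c =
        (dL w M (cs F c) g : ℂ) * ph q c - (dL0 w M F g : ℂ) * ph q c
      push_cast; ring
    all_goals exact Continuous.intervalIntegrable (by fun_prop) _ _
  rw [h1, int_ph q hq]
  ring

omit [DecidableEq V] in
theorem hasDerivAt_Wq (hM : M.transpose = M) (hE : EM (wM w M)) (q : ℤ) (F g : V → ℝ) (r : ℝ) :
    HasDerivAt (fun r : ℝ => Wq w M q (F + r • g)) (dW w M q (F + r • g) g) r := by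
  have hcL := continuous_LM hM hE
  have cp := continuous_ph q
  have h1 := hasDerivAt_int (G := fun r c => (LM w M (cs F c + r • g) : ℂ) * ph q c)
    (G' := fun r c => (dL w M (cs F c + r • g) g : ℂ) * ph q c)
    (fun r => ((Complex.continuous_ofReal.comp
      (hcL.comp ((H145.continuous_cs F).add continuous_const))).mul cp))
    ((Complex.continuous_ofReal.comp ((continuous_dL hE g).comp (continuous_line2 F g))).mul
      (cp.comp continuous_snd))
    (fun r c => ((hasDerivAt_LM hM hE (cs F c) g r).ofReal_comp).mul_const _) r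
  have h2 : (fun r : ℝ => Wq w M q (F + r • g)) =
      fun r : ℝ => ∫ c in (0 : ℝ)..1, (LM w M (cs F c + r • g) : ℂ) * ph q c := by
    funext r
    unfold Wq
    refine intervalIntegral.integral_congr fun c _ => ?_
    show (LM w M (cs (F + r • g) c) : ℂ) * ph q c = _
    rw [cs_line]
  rw [h2]
  refine h1.congr_deriv ?_
  unfold dW
  refine intervalIntegral.integral_congr fun c _ => ?_
  show (dL w M (cs F c + r • g) g : ℂ) * ph q c = (dL w M (cs (F + r • g) c) g : ℂ) * ph q c
  rw [cs_line]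

omit [DecidableEq V] in
theorem hasDerivAt_Phq (hM : M.transpose = M) (hE : EM (wM w M)) (q : ℤ) (F g : V → ℝ) (r : ℝ) :
    HasDerivAt (fun r : ℝ => Phq w M q (F + r • g)) (dPh w M q (F + r • g) g) r := by
  have hcZ := H145.continuous_ZM hM hE
  have cp := continuous_ph q
  have h1 := hasDerivAt_int (G := fun r c => (ZM w M (cs F c + r • g) : ℂ) * ph q c)
    (G' := fun r c => ((ZM w M (cs F c + r • g) * dL w M (cs F c + r • g) g : ℝ) : ℂ) * ph q c)
    (fun r => ((Complex.continuous_ofReal.comp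
      (hcZ.comp ((H145.continuous_cs F).add continuous_const))).mul cp))
    ((Complex.continuous_ofReal.comp ((hcZ.comp (continuous_line2 F g)).mul
      ((continuous_dL hE g).comp (continuous_line2 F g)))).mul (cp.comp continuous_snd))
    (fun r c => ((hasDerivAt_ZM hM hE (cs F c) g r).ofReal_comp).mul_const _) r
  have h2 : (fun r : ℝ => Zq w M q (F + r • g)) =
      fun r : ℝ => ∫ c in (0 : ℝ)..1, (ZM w M (cs F c + r • g) : ℂ) * ph q c := by
    funext r
    unfold Zq
    refine intervalIntegral.integral_congr fun c _ => ?_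
    show (ZM w M (cs (F + r • g) c) : ℂ) * ph q c = _
    rw [cs_line]
  rw [← h2] at h1
  have h3 := (hasDerivAt_Zn hM hE F g r).ofReal_comp
  have h0 := H145.Zn_pos hM hE (F + r • g)
  have h0' : ((Zn w M (F + r • g) : ℝ) : ℂ) ≠ 0 := by exact_mod_cast h0.ne'
  have h4 := h1.div h3 h0'
  unfold Phq
  refine h4.congr_deriv ?_
  rw [div_eq_iff (pow_ne_zero 2 h0')]
  set A : ℂ := ((Zn w M (F + r • g) : ℝ) : ℂ) with hA
  have e1 : dPh w M q (F + r • g) g * A =
      (∫ c in (0 : ℝ)..1, ((ZM w M (cs F c + r • g) * dL w M (cs F c + r • g) g : ℝ) : ℂ) * ph q c)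
        - (dL0 w M (F + r • g) g : ℂ) * Zq w M q (F + r • g) := by
    have hz : Zq w M q (F + r • g) =
        ∫ c in (0 : ℝ)..1, (ZM w M (cs F c + r • g) : ℂ) * ph q c := congrFun h2 r
    rw [hz]
    unfold dPh
    rw [← intervalIntegral.integral_mul_const, ← intervalIntegral.integral_const_mul,
      ← intervalIntegral.integral_sub]
    · refine intervalIntegral.integral_congr fun c _ => ?_
      show ((Real.exp (el w M (F + r • g) c) * el1 w M (F + r • g) g c : ℝ) : ℂ) * ph q c * A =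
        ((ZM w M (cs F c + r • g) * dL w M (cs F c + r • g) g : ℝ) : ℂ) * ph q c -
          (dL0 w M (F + r • g) g : ℂ) * ((ZM w M (cs F c + r • g) : ℂ) * ph q c)
      rw [exp_el hM hE]
      unfold el1
      rw [cs_line]
      push_cast
      rw [hA] at h0' ⊢
      field_simp
    · refine Continuous.intervalIntegrable ?_ _ _
      exact ((Complex.continuous_ofReal.comp ((hcZ.comp ((H145.continuous_cs F).add
        continuous_const)).mul ((continuous_dL hE g).comp ((H145.continuous_cs F).add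
        continuous_const)))).mul cp)
    · refine Continuous.intervalIntegrable ?_ _ _
      exact continuous_const.mul ((Complex.continuous_ofReal.comp (hcZ.comp
        ((H145.continuous_cs F).add continuous_const))).mul cp)
  have e2 : dPh w M q (F + r • g) g * A ^ 2 = (dPh w M q (F + r • g) g * A) * A := by ring
  rw [e2, e1]
  push_cast
  ring

omit [DecidableEq V] in
/-- **LOC11, first derivative, any charge**: `|D_g(Φ_q - W_q)| ≤ 2 ‖el‖ ‖el1‖` -/
theorem dPh_sub_dW (hM : M.transpose = M) (hE : EM (wM w M)) {ω : ℝ} (hO : OscZ w M ω)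
    (hω : ω ≤ 1 / 2) {q : ℤ} (hq : q ≠ 0) (F g : V → ℝ) :
    ‖dPh w M q F g - dW w M q F g‖ ≤ 2 * nm (el w M F) * nm (el1 w M F g) := by
  have h := (nz_el hM hE hO hω F).dsec_le (continuous_el1 hE F g) q
  rwa [hat_el1 hE hq] at h

omit [DecidableEq V] in
/-- **LOC11, first derivative, charge one, third order**:
`|D_g(Φ₁ - W₁)| ≤ ‖el‖ ‖hi el1‖ + ‖hi el‖ ‖el1‖ + 8 ω ‖el‖ ‖el1‖` -/
theorem dPh1_sub_dW1 (hM : M.transpose = M) (hE : EM (wM w M)) {ω : ℝ} (hO : OscZ w M ω)
    (hω : ω ≤ 1 / 2) (F g : V → ℝ) :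
    ‖dPh w M 1 F g - dW w M 1 F g‖ ≤ nm (el w M F) * nm (hi (el1 w M F g)) +
      nm (hi (el w M F)) * nm (el1 w M F g) + 8 * ω * nm (el w M F) * nm (el1 w M F g) := by
  have h := (nz_el hM hE hO hω F).dsec1_le (continuous_el1 hE F g) (int_el1 hM hE F g)
  rw [hat_el1 hE one_ne_zero] at h
  unfold dPh
  linarith

end

end

end Vale.Agent.P159.H43
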