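import Vale.Agent.P159.H733.Pt4
import Vale.Agent.P159.H43.P2a

/-!
P159 / START of V (contract H316/St1): the second part without hypothesis (helper43).
-/

namespace Vale.Agent.P159.H43.P2

open Vale.Agent.P159.H316

/-- **(P2) of the contract St1** -/
theorem part2 (b1 b2 pf : ℝ) (Q : ℕ) (K : ℝ) : Part2 b1 b2 pf Q K :=
  part2_of (H733.Pt.part2a b1 b2 pf Q K)

end Vale.Agent.P159.H43.P2
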