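import Vale.Agent.P159.H43.P7
import Vale.Agent.P159.H889.Vpc

/-!
P159 / V glue (helper43): helper889's piece `PcO`.
-/

set_option linter.unusedSectionVars false

namespace Vale.Agent.P159.H43

open Finset Matrix
open Vale.Agent.P159.H972 (Par tn)
open Vale.Agent.P159.H801 (Ev PS)
open Vale.Agent.P159.TM.Spec (V)
open Vale.Agent.P159.TM.SpecC (wT)
open Vale.Agent.P159.H145 (mt)
open Vale.Agent.P159.H363 (lf)
open Vale.Agent.P159.H896 (Ph om)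
open Vale.Agent.P159.H889 (PcO CxF Cx Cw CH2 QP Wc)

noncomputable section

variable {b1 b2 pf : ℝ} {Q : ℕ}

lemma ev_b1 : Ev b1 b2 pf Q fun P _ => P.b1 = b1 :=
  Ev.of ⟨0, fun _ _ => ⟨1, one_pos, fun _ _ _ => ⟨0, fun _ _ => ⟨1, one_pos, fun _ _ _ =>
    ⟨1, one_pos, fun _ _ _ => ⟨1, one_pos, fun _ _ _ => ⟨0, fun _ _ => ⟨1, one_pos, fun _ _ _ =>
      ⟨1, one_pos, fun _ hP => hP.eb1⟩⟩⟩⟩⟩⟩⟩⟩⟩

/-- **helper889's `PcO`**, every `C1` -/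
theorem pcO_ev (hb1 : 0 < b1) : Ev b1 b2 pf Q fun P c1 => ∀ (C1 b a : ℝ) (n m s : ℕ)
    (e e' y g : ℝ), CxF P b a C1 c1 n s e y → Cw P n m e e' → 0 ≤ g → g ≤ 1 / 2 →
    CH2 P b n e (y * e ^ g) → ∀ r, P.TT n e r →
      (∀ [NeZero (2 ^ r / 2 ^ s)] (F : V (2 ^ r / 2 ^ s) → ℝ),
        ‖Ph (wT b (2 ^ r)) (mt (2 ^ r) (tn n)) 1 (lf (2 ^ r) (2 ^ s) F)
          - Wc (2 ^ r) (2 ^ s) b (tn n) F‖ ≤ y * e ^ (1 / 2 + g)) ∧
      om (wT b (2 ^ r)) (mt (2 ^ r) (tn n)) 1 ≤ y * QP P e ^ 3 ∧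
      om (wT b (2 ^ r)) (mt (2 ^ r) (tn m)) 1 ≤ y * QP P e ^ 3 := by
  refine ((ev_p7 (b1 := b1) (b2 := b2) (pf := pf) (Q := Q)).and ev_b1).mono
    fun P c1 _ h C1 b a n m s e e' y g hC hw _ hg hc r hr => ?_
  obtain ⟨h, hP⟩ := h
  have hcx := hC.cx
  have hb : 0 < b := lt_of_lt_of_le (by rw [hP]; exact hb1) hcx.b1
  have ht0 : 0 < tn n := by unfold tn; positivity
  have ht1 : 0 < tn m := by unfold tn; positivity
  have ht : tn m ≤ tn n := by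
    have hnm : n ≤ m := by
      have := hw.w1
      omega
    unfold tn
    exact inv_anti₀ (by positivity) (pow_le_pow_right₀ (by norm_num) hnm)
  have e3 : QP P e ^ 3 = e ^ (-(P.th + 4 * P.q0 * P.thp) * 3) := by
    unfold H889.QP
    rw [← Real.rpow_natCast, ← Real.rpow_mul hcx.e0.le]
    norm_num
  have h1 := h b n e y hb hcx.e0 hcx.es hcx.y0 hcx.y1 hcx.vy r hr
  rw [e3]
  exact ⟨fun F => h1.1 g hg (hc r hr) _, h1.2.2 _ ht0 (by linarith), h1.2.2 _ ht1 (by linarith)⟩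

/-- **helper889's `PcO`** -/
theorem pcO (hb1 : 0 < b1) (C1 : ℝ) : PcO b1 b2 pf Q C1 :=
  (pcO_ev hb1).mono fun _ _ _ h b a n m s e e' y g => h C1 b a n m s e e' y g

end

end Vale.Agent.P159.H43
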