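import Vale.Agent.P159.H462.L1o
import Vale.Agent.P159.H889.Vb
import Vale.Agent.P159.H963.Link

/-!
P159 / P# (helper43): **sharp data from the `V` state**, part 1: the deviation of the total charge one
functional (field `dev` of helper462's `St`) from helper889's state.
-/

set_option linter.unusedSectionVars false

namespace Vale.Agent.P159.H43

open Finset Matrix MeasureTheory
open Vale.Agent.P159.H37
open Vale.Agent.P159.H363 (mainf ee Ch lf acl Nf n2 pin)
open Vale.Agent.P159.TM.Spec (V)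
open Vale.Agent.P159.TM.SpecC (wT)
open Vale.Agent.P159.H896 (Ph)
open Vale.Agent.P159.H145 (mt)
open Vale.Agent.P159.H889 (tn2 ST SB VT VB Den Dif)
open Vale.Agent.P159.H462 (Phl Dtot Smf)
open Vale.Agent.P159.LNK (dif_euler)

noncomputable section

variable {n : ℕ} [NeZero n] {A : Matrix (V n) (V n) ℝ}

lemma tn2_sum_le {ι : Type*} (s : Finset ι) {u : ι → (V n → ℝ) → ℂ}
    (hu : ∀ i ∈ s, Measurable (u i)) {K : ℝ} (hK : ∀ i ∈ s, ∀ F, ‖u i F‖ ≤ K)
    (A : Matrix (V n) (V n) ℝ) :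
    tn2 A (fun F => ∑ i ∈ s, u i F) ≤ ∑ i ∈ s, tn2 A (u i) :=
  H363.n2_sum_le s fun i hi => H889.memLp_tn (hu i hi) (hK i hi) A

/-- **the total deviation of a state** -/
theorem tot_le {Φ : (V n → ℝ) → ℂ} {ν : ℝ} {z : ℂ} {d : ℝ} {D : ℕ} {η Lp e : ℝ}
    (hΦ : Measurable Φ) {L : ℝ} (hL : ∀ F, ‖Φ F‖ ≤ L) (h : ST A Φ ν z d D η Lp e) :
    tn2 A (fun F => Φ F - z * ∑ x, mainf (1 - ν⁻¹ • A) x F) ≤ e + (n : ℝ) ^ 2 * d := by
  obtain ⟨Ψ, ψ, lam, h1, h2, h3, -, h5⟩ := h.ex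
  obtain ⟨K, hK0, hK⟩ := h1.bdx'
  obtain ⟨K', hK'0, hK'⟩ := h1.bd'
  set S : Matrix (V n) (V n) ℝ := 1 - ν⁻¹ • A with hS
  set M0 : ℝ := ∑ x, ∑ w, |S x w| with hM0
  have hmb : ∀ x F, ‖mainf S x F‖ ≤ M0 := fun x F =>
    (H363.norm_mainf_le S x F).trans (Finset.single_le_sum (f := fun x => ∑ w, |S x w|)
      (fun i _ => Finset.sum_nonneg fun w _ => abs_nonneg _) (Finset.mem_univ x))
  have hmu : ∀ x, Measurable fun F => ψ x F - z * mainf S x F := fun x =>
    (h3.m x).sub ((H363.measurable_mainf S x).const_mul z)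
  have hbu : ∀ x F, ‖ψ x F - z * mainf S x F‖ ≤ K + ‖z‖ * M0 := fun x F => by
    refine (norm_sub_le _ _).trans (add_le_add (hK x F) ?_)
    rw [norm_mul]
    exact mul_le_mul_of_nonneg_left (hmb x F) (norm_nonneg _)
  have e1 : ∀ F, Φ F - z * ∑ x, mainf S x F = (Φ F - Ψ F) + ∑ x, (ψ x F - z * mainf S x F) := by
    intro F
    rw [dif_euler h1 h2, Finset.sum_sub_distrib, ← Finset.mul_sum]
    ring
  rw [H889.tn2_congr e1]
  have hms : Measurable fun F => ∑ x, (ψ x F - z * mainf S x F) :=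
    Finset.measurable_fun_sum _ fun x _ => hmu x
  have hbs : ∀ F, ‖∑ x, (ψ x F - z * mainf S x F)‖ ≤ Fintype.card (V n) * (K + ‖z‖ * M0) := by
    intro F
    refine (norm_sum_le _ _).trans ((Finset.sum_le_sum fun x _ => hbu x F).trans ?_)
    rw [Finset.sum_const, Finset.card_univ, nsmul_eq_mul]
  refine (H889.tn2_add_le (hΦ.sub h1.m) hms (K := L + K') (fun F => (norm_sub_le _ _).trans
    (add_le_add (hL F) (hK' F))) hbs A).trans (add_le_add h5 ?_)
  refine (tn2_sum_le _ (fun x _ => hmu x) (fun x _ F => hbu x F) A).trans ?_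
  refine (Finset.sum_le_sum fun x _ => h3.dev x).trans ?_
  rw [Finset.sum_const, Finset.card_univ, nsmul_eq_mul]
  have hc : (Fintype.card (V n) : ℝ) = (n : ℝ) ^ 2 := by
    rw [Fintype.card_prod, ZMod.card]
    push_cast
    ring
  rw [hc]

section torus

variable {N l : ℕ} [NeZero N] [NeZero (N / l)] {b t : ℝ}

/-- the two charge one functionals agree -/
lemma Phl_eq (F : V (N / l) → ℝ) : Phl N l b t F = Ph (wT b N) (mt N t) 1 (lf N l F) := by
  unfold H462.Phl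
  rw [H864.MC_self]

/-- **field `dev` of `St`** -/
theorem dev_of (hb : 0 ≤ b) (hl : l ∣ N) (ht : 0 < t) {z : ℂ} {d : ℝ} {D : ℕ} {η Lp e : ℝ}
    (h : VT N l b t z d D η Lp e) :
    tn2 (acl N l b t t) (Dtot N l b t z) ≤ e + ((N / l : ℕ) : ℝ) ^ 2 * d := by
  have h1 : ST (acl N l b t t) (Phl N l b t) (t * (l : ℝ) ^ 2) z d D η Lp e := by
    have e1 : Phl N l b t = fun F => Ph (wT b N) (mt N t) 1 (lf N l F) := funext Phl_eq
    rw [e1]
    exact h
  exact tot_le (H462.measurable_Phl hb hl ht) (H462.norm_Phl_le hb hl ht) h1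

end torus

end

end Vale.Agent.P159.H43
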