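import Vale.Agent.P159.H43.Sd9
import Vale.Agent.P159.H889.Vpc

/-!
P159 / P# (helper43): **sharp data from the `V` state**, part 10: the inputs `SdI` of one level from
helper889's context `Cx` and state `SV`, helper415's `CH2`, helper816's strong level.
-/

set_option linter.unusedSectionVars false

namespace Vale.Agent.P159.H43

open Finset Matrix MeasureTheory Filter Topology
open Vale.Agent.P159.H363 (acl)
open Vale.Agent.P159.TM.Spec (V)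
open Vale.Agent.P159.TM.SpecC (Tor wT)
open Vale.Agent.P159.H889 (tn2 Cx SV CH2 nu lam)
open Vale.Agent.P159.H239 (TypE)
open Vale.Agent.P159.H462 (Dtot)
open Vale.Agent.P159.H972 (Par tn FL)

noncomputable section

lemma nu_nuj (n j : ℕ) : nu n j = nuj n j := rfl

lemma nuj_lam (n j : ℕ) : nuj n j = lam n j ^ 2 := by
  unfold nuj H889.lam
  unfold tn
  push_cast
  rw [div_pow, show (4 : ℝ) ^ n = (2 ^ n) ^ 2 by rw [← pow_mul, mul_comm, pow_mul]; norm_num]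
  field_simp

variable {P : Par} {b a C1 c1 : ℝ} {n j : ℕ} {e y : ℝ} {ζ : ℂ}

/-- the deviation on one torus -/
theorem dev_num (hb : 0 < b) (hL : Lk (2 ^ (1 + 4 * P.q0)) (P.th + 4 * P.q0 * P.thp) P.thp e y)
    {r : ℕ} (hr : P.TT n e r) (hj : j ≤ r) [NeZero (2 ^ r / 2 ^ j)] {Δ E : ℝ} {D : ℕ}
    {η Lp : ℝ} (hV : H889.VT (2 ^ r) (2 ^ j) b (tn n) (ζ * (nuj n j : ℝ)) (Δ * nuj n j) D η Lp E)
    (hΔ : Δ ≤ y * e ^ (7 / 8 : ℝ)) (hE : E ≤ y * e ^ (17 / 20 : ℝ)) :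
    tn2 (acl (2 ^ r) (2 ^ j) b (tn n) (tn n))
      (Dtot (2 ^ r) (2 ^ j) b (tn n) (ζ * (nuj n j : ℝ))) ≤ y ^ (3 / 2 : ℝ) := by
  have hT := tn_pos n
  have hl : 2 ^ j ∣ 2 ^ r := pow_dvd_pow 2 hj
  have hy := hL.y0
  have he := hL.e0
  have he1 := hL.e1
  have hnr : n ≤ r := le_trans (Nat.le_add_right _ _) hr.1
  have h1 := dev_of hb.le hl hT hV
  have hN : tn n * ((2 ^ r : ℕ) : ℝ) ^ 2 = (2 ^ (r - n)) ^ 2 := tn_mul_sq hnr
  have hcast : ((2 ^ r / 2 ^ j : ℕ) : ℝ) = (2 ^ r : ℝ) / 2 ^ j := by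
    rw [Nat.cast_div hl (by positivity)]
    push_cast
    rfl
  have e1 : ((2 ^ r / 2 ^ j : ℕ) : ℝ) ^ 2 * (Δ * nuj n j) = Δ * (2 ^ (r - n)) ^ 2 := by
    unfold nuj
    rw [← hN, hcast]
    push_cast
    field_simp
  rw [e1] at h1
  refine h1.trans ?_
  have hR := tt_R hr he he1
  have hR0 : (0 : ℝ) ≤ 2 ^ (r - n) := by positivity
  set c : ℝ := 2 ^ (1 + 4 * P.q0) with hc
  set ρ : ℝ := P.th + 4 * P.q0 * P.thp with hρ
  have hc0 := hL.c1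
  have hR2 : ((2 : ℝ) ^ (r - n)) ^ 2 ≤ c ^ 2 * e ^ (-(2 * ρ)) := by
    calc ((2 : ℝ) ^ (r - n)) ^ 2 ≤ (c * e ^ (-ρ)) ^ 2 := pow_le_pow_left₀ hR0 hR 2
      _ = c ^ 2 * e ^ (-(2 * ρ)) := by
          rw [mul_pow, ← Real.rpow_natCast (e ^ (-ρ)) 2, ← Real.rpow_mul he.le]
          congr 2
          push_cast
          ring
  have h2 : Δ * (2 ^ (r - n)) ^ 2 ≤ y * e ^ (17 / 20 : ℝ) := by
    calc Δ * (2 ^ (r - n)) ^ 2 ≤ (y * e ^ (7 / 8 : ℝ)) * (2 ^ (r - n)) ^ 2 :=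
          mul_le_mul_of_nonneg_right hΔ (by positivity)
      _ ≤ (y * e ^ (7 / 8 : ℝ)) * (c ^ 2 * e ^ (-(2 * ρ))) :=
          mul_le_mul_of_nonneg_left hR2 (by positivity)
      _ = (c ^ 2 * (e ^ (7 / 8 : ℝ) * e ^ (-(2 * ρ)))) * y := by ring
      _ ≤ (c ^ 2 * (e ^ (17 / 20 : ℝ) * e ^ (1 / 200 : ℝ))) * y := by
          rw [← Real.rpow_add he, ← Real.rpow_add he]
          have h3 : e ^ (7 / 8 + -(2 * ρ)) ≤ e ^ (17 / 20 + 1 / 200 : ℝ) :=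
            Real.rpow_le_rpow_of_exponent_ge he he1 (by linarith [hL.n7.ρ1])
          gcongr
      _ = (c ^ 2 * e ^ (1 / 200 : ℝ)) * (y * e ^ (17 / 20 : ℝ)) := by ring
      _ ≤ 1 * (y * e ^ (17 / 20 : ℝ)) := by
          refine mul_le_mul_of_nonneg_right ?_ (by positivity)
          have h4 := hL.n7.a1
          have h5 : 0 ≤ c ^ 2 * e ^ (1 / 200 : ℝ) := by positivity
          linarith
      _ = _ := one_mul _
  have h3 : y * e ^ (17 / 20 : ℝ) ≤ y ^ (5 / 2 : ℝ) := by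
    have h4 := hL.upow (x := 17 / 20) (by norm_num)
    calc y * e ^ (17 / 20 : ℝ) ≤ y ^ (1 : ℝ) * y ^ (9 / 5 * (17 / 20) : ℝ) := by
          rw [Real.rpow_one]
          gcongr
      _ ≤ y ^ (5 / 2 : ℝ) := by
          rw [← Real.rpow_add hy]
          exact Real.rpow_le_rpow_of_exponent_ge hy hL.y1 (by norm_num)
  have h5 : 2 * y ^ (5 / 2 : ℝ) ≤ y ^ (3 / 2 : ℝ) := by
    have h6 : y ^ (5 / 2 : ℝ) ≤ y ^ (1 / 100 : ℝ) * y ^ (3 / 2 : ℝ) := by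
      rw [← Real.rpow_add hy]
      exact Real.rpow_le_rpow_of_exponent_ge hy hL.y1 (by norm_num)
    have h7 : 2 * y ^ (1 / 100 : ℝ) ≤ 1 := by
      have h8 := hL.s1
      have h9 : 1 ≤ c ^ 4 := one_le_pow₀ hL.n7.c0
      have h10 : 0 < y ^ (1 / 100 : ℝ) := by positivity
      nlinarith
    have h11 : 0 < y ^ (3 / 2 : ℝ) := by positivity
    nlinarith
  linarith

/-- **the inputs of one level** -/
theorem sdI_of (hb : 0 < b) (hL : Lk (2 ^ (1 + 4 * P.q0)) (P.th + 4 * P.q0 * P.thp) P.thp e y)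
    {A1 Δ E : ℝ} (hC : Cx P b C1 c1 n j e y) (hC1 : 1 ≤ C1) (hy : y ≤ 1 / 40)
    (hS : SV P b A1 n j e ζ Δ E) (hΔ : Δ ≤ y * e ^ (7 / 8 : ℝ)) (hE : E ≤ y * e ^ (17 / 20 : ℝ))
    (hz : ‖ζ‖ = y) (hc : CH2 P b n e (y * e ^ (1 / 2 : ℝ))) (ha1 : 1 ≤ a) (ha2 : a ≤ 2)
    (hfl : ∀ r, P.TT n e r → FL b (tn n) a (17 * e ^ P.pf) (2 ^ r))
    (htyp : ∀ r, P.TT n e r → ∀ a', 0 < a' → a' < tn n → ∀ [NeZero (2 ^ r / 2 ^ j)],
      TypE (2 ^ r) (2 ^ j) b (tn n) a' 1 (e ^ (17 / 20 : ℝ)) (y ^ (8 : ℝ))) :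
    SdI P b a n e y j ζ := by
  have hy0 := hC.y0
  have he1 := hL.e1
  have hlam : lam n j ≤ y := by
    refine hC.s2.trans ?_
    have h1 : e * y ≤ y := mul_le_of_le_one_left hy0.le he1
    have h2 : 0 < e * y := mul_pos hC.e0 hy0
    calc (e * y) ^ C1 ≤ (e * y) ^ (1 : ℝ) :=
          Real.rpow_le_rpow_of_exponent_ge h2 (h1.trans (by linarith)) hC1
      _ = e * y := Real.rpow_one _
      _ ≤ y := h1
  have hlam0 : 0 < lam n j := by
    unfold H889.lam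
    positivity
  have hjn : j ≤ n := by
    by_contra h1
    push Not at h1
    have h2 : (1 : ℝ) ≤ lam n j := by
      unfold H889.lam
      rw [one_le_div (by positivity)]
      exact pow_le_pow_right₀ one_le_two h1.le
    linarith
  refine ⟨hb, ha1, ha2, hjn, ?_, hfl, hC.vy, hc, fun r hr a' h0 h1 => ?_, fun r hr => ?_, hz⟩
  · rw [nuj_lam]
    have h1 : lam n j ^ 2 ≤ y ^ 2 := pow_le_pow_left₀ hlam0.le hlam 2
    nlinarith
  · intro _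
    have := tn_pos n
    exact htyp r (tt_of_tv hr) a' h0 (by linarith)
  · intro _
    obtain ⟨Lp, h1⟩ := hS r hr
    have hnr : n ≤ r := le_trans (Nat.le_add_right _ _) hr.1
    exact dev_num hb hL (tt_of_tv hr) (hjn.trans hnr) h1.vt hΔ hE

end

end Vale.Agent.P159.H43
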