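import Vale.Agent.P159.H43.Sd2
import Vale.Agent.P159.H813.Sq7
import Vale.Agent.P159.H375.AclE

/-!
P159 / P# (helper43): **sharp data from the `V` state**, part 3: helper813's state `St0` for all small
priors, upper bound of `Pst` at low momenta, and the numbers in powers of the activity `y`.
-/

set_option linter.unusedSectionVars false

namespace Vale.Agent.P159.H43

open Finset Matrix MeasureTheory Filter Topology
open Vale.Agent.P159.H37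
open Vale.Agent.P159.H363 (acl)
open Vale.Agent.P159.TM.Spec (V)
open Vale.Agent.P159.TM.SpecC (Tor wT)
open Vale.Agent.P159.TM.H764 (EE)
open Vale.Agent.P159.H896 (om WM)
open Vale.Agent.P159.H864 (MC sym)
open Vale.Agent.P159.H889 (tn2)
open Vale.Agent.P159.H239 (TypE)
open Vale.Agent.P159.H462 (oT oB ms Dtot Pst)
open Vale.Agent.P159.H813 (St0 Wk kq)

noncomputable section

section state

variable {N l : ℕ} [NeZero N] [NeZero (N / l)] {b T ηR δ dT : ℝ} {z : ℂ}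

/-- **the state `St0` for all small priors** -/
theorem st0_ev (hb : 0 < b) (hl : l ∣ N) (hT : 0 < T) (ho : oT N l b T ≤ 1 / 2) (h0 : 0 ≤ ηR)
    (h1 : ηR + 2 * oT N l b T ≤ 1) (ht : ∀ a, 0 < a → a ≤ T / 2 → TypE N l b T a 1 ηR δ)
    (hd : tn2 (acl N l b T T) (Dtot N l b T z) ≤ dT) :
    ∀ᶠ τ in 𝓝[>] (0 : ℝ), St0 N l b T τ z ηR δ dT (1 / b) := by
  have h2 : ∀ᶠ τ in 𝓝[>] (0 : ℝ), 0 < τ ∧ τ ≤ T / 2 := by
    filter_upwards [Ioc_mem_nhdsGT (show (0 : ℝ) < T / 2 by positivity)] with x hx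
    exact ⟨hx.1, hx.2⟩
  filter_upwards [h2, tiny_ev (l := (l : ℝ)) hT (T * (l : ℝ) ^ 2)
    (((N / l : ℕ) : ℝ) ^ 4 / (1 / b) ^ 2 +
      2 * ((N / l : ℕ) : ℝ) ^ 2 / (T * (l : ℝ) ^ 2) ^ 2)] with τ hτ h3
  exact ⟨hb, hl, hτ.1, by linarith [hτ.2], H375.dom_acl hb hl hT le_rfl, ho, h0, h1,
    bad_of (ht τ hτ.1 hτ.2), hd, h3⟩

/-- upper bound of the self energy at low momenta -/
theorem Pst_low (hb : 0 < b) (hl : l ∣ N) (hT : 0 < T) {A : ℝ} {k : V (N / l)}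
    (hA : sym (acl N l b T T) k ≤ A * EE k) (h2 : 2 * (A * EE k) ≤ T * (l : ℝ) ^ 2) :
    Pst N l b T k ≤ 2 * A * EE k := by
  have hlp : (0 : ℝ) < l := by exact_mod_cast H864.l_pos hl
  rw [H462.sym_acl_Pst hb hl hT] at hA
  have hP := H462.Pst_nonneg (N := N) hb hl hT k
  unfold H114.sA at hA
  have hν : 0 < T * (l : ℝ) ^ 2 := by positivity
  set ν := T * (l : ℝ) ^ 2 with hνd
  set P := Pst N l b T k with hPd
  rw [div_le_iff₀ (by linarith)] at hA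
  nlinarith [mul_nonneg hP (sub_nonneg.2 h2)]

end state

/-! ### numbers -/

/-- the numbers of the state at one torus: activity `y` -/
structure SdN (y oo oh o1 ηR δ dT zn W K : ℝ) : Prop where
  y0 : 0 < y
  y1 : y ≤ 1
  oo0 : 0 ≤ oo
  oo1 : oo ≤ y ^ (19 / 20 : ℝ)
  oh0 : 0 ≤ oh
  oh1 : oh ≤ y ^ (3 / 2 : ℝ)
  o1 : o1 ≤ y ^ (19 / 20 : ℝ)
  e0 : 0 ≤ ηR
  e1 : ηR ≤ y ^ (3 / 2 : ℝ)
  d0 : 0 ≤ δ
  d1 : δ ≤ y ^ (8 : ℝ)
  dT0 : 0 ≤ dT
  dT1 : dT ≤ y ^ (3 / 2 : ℝ)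
  zn : zn ≤ y ^ (19 / 20 : ℝ)
  W0 : 0 ≤ W
  W1 : W ≤ K * y ^ (-(1 / 20) : ℝ)
  K1 : 1 ≤ K

/-- the number `S` of helper813's STAR0 -/
def SS (ηR W δ oo : ℝ) : ℝ := 8 * ηR + 700 * W * √δ + 4 * oo ^ 2

/-- the bracket of helper813's STAR0 -/
def SE (ηR W δ oo oB dT o1 zn : ℝ) : ℝ :=
  440 * SS ηR W δ oo ^ 2 + 16 * ηR ^ 2 + 8 * ηR * δ + 1440 * W * √δ + 8 * oB +
    16 * dT * (o1 + zn)

variable {y oo oh o1 ηR δ dT zn W K : ℝ}

lemma SdN.sq (h : SdN y oo oh o1 ηR δ dT zn W K) : W * √δ ≤ K * y ^ (3 : ℝ) := by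
  have hy := h.y0
  have h1 : √δ ≤ y ^ (4 : ℝ) := by
    rw [Real.sqrt_le_left (by positivity), ← Real.rpow_natCast, ← Real.rpow_mul hy.le]
    exact h.d1.trans (le_of_eq (by norm_num))
  have hK := h.K1
  calc W * √δ ≤ (K * y ^ (-(1 / 20) : ℝ)) * y ^ (4 : ℝ) :=
        mul_le_mul h.W1 h1 (Real.sqrt_nonneg _) (by positivity)
    _ = K * (y ^ (-(1 / 20) : ℝ) * y ^ (4 : ℝ)) := by ring
    _ ≤ K * y ^ (3 : ℝ) := by
        refine mul_le_mul_of_nonneg_left ?_ (by linarith)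
        rw [← Real.rpow_add hy]
        exact Real.rpow_le_rpow_of_exponent_ge hy h.y1 (by norm_num)

/-- the number `S` -/
lemma SdN.S (h : SdN y oo oh o1 ηR δ dT zn W K) :
    SS ηR W δ oo ≤ 712 * K * y ^ (3 / 2 : ℝ) := by
  have hy := h.y0
  have hK := h.K1
  have h1 := h.sq
  have h2 : oo ^ 2 ≤ y ^ (3 / 2 : ℝ) := by
    calc oo ^ 2 ≤ (y ^ (19 / 20 : ℝ)) ^ 2 := pow_le_pow_left₀ h.oo0 h.oo1 2
      _ = y ^ (19 / 10 : ℝ) := by
          rw [← Real.rpow_natCast, ← Real.rpow_mul hy.le]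
          norm_num
      _ ≤ y ^ (3 / 2 : ℝ) := Real.rpow_le_rpow_of_exponent_ge hy h.y1 (by norm_num)
  have h3 : y ^ (3 : ℝ) ≤ y ^ (3 / 2 : ℝ) :=
    Real.rpow_le_rpow_of_exponent_ge hy h.y1 (by norm_num)
  have h4 : K * y ^ (3 : ℝ) ≤ K * y ^ (3 / 2 : ℝ) := mul_le_mul_of_nonneg_left h3 (by linarith)
  have h5 : y ^ (3 / 2 : ℝ) ≤ K * y ^ (3 / 2 : ℝ) := le_mul_of_one_le_left (by positivity) hK
  have he := h.e1
  unfold SS
  nlinarith

/-- **the bracket** is `≤ C K² y ^ (12 / 5)` -/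
lemma SdN.E (h : SdN y oo oh o1 ηR δ dT zn W K) :
    SE ηR W δ oo (2 * oo ^ 3 + oo * oh + oh ^ 2) dT o1 zn ≤
      224000000 * K ^ 2 * y ^ (12 / 5 : ℝ) := by
  have hy := h.y0
  have hy1 := h.y1
  have hK := h.K1
  set u : ℝ := y ^ (12 / 5 : ℝ) with hu
  have hu0 : 0 < u := by positivity
  have hle : ∀ x : ℝ, 12 / 5 ≤ x → y ^ x ≤ u := fun x hx =>
    Real.rpow_le_rpow_of_exponent_ge hy hy1 hx
  have hS0 : 0 ≤ SS ηR W δ oo := by
    have := h.e0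
    have := h.W0
    unfold SS
    positivity
  have hKK : K ≤ K ^ 2 := by nlinarith
  have hK2 : 1 ≤ K ^ 2 := hK.trans hKK
  have t1 : SS ηR W δ oo ^ 2 ≤ 506944 * (K ^ 2 * u) := by
    calc SS ηR W δ oo ^ 2 ≤ (712 * K * y ^ (3 / 2 : ℝ)) ^ 2 := pow_le_pow_left₀ hS0 h.S 2
      _ = 506944 * (K ^ 2 * (y ^ (3 / 2 : ℝ)) ^ 2) := by ring
      _ ≤ 506944 * (K ^ 2 * u) := by
          have h3 : (y ^ (3 / 2 : ℝ)) ^ 2 ≤ u := by
            rw [← Real.rpow_natCast, ← Real.rpow_mul hy.le]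
            exact hle _ (by norm_num)
          gcongr
  have t2 : ηR ^ 2 ≤ K ^ 2 * u := by
    calc ηR ^ 2 ≤ (y ^ (3 / 2 : ℝ)) ^ 2 := pow_le_pow_left₀ h.e0 h.e1 2
      _ ≤ u := by
          rw [← Real.rpow_natCast, ← Real.rpow_mul hy.le]
          exact hle _ (by norm_num)
      _ ≤ K ^ 2 * u := le_mul_of_one_le_left hu0.le hK2
  have t3 : ηR * δ ≤ K ^ 2 * u := by
    calc ηR * δ ≤ y ^ (3 / 2 : ℝ) * y ^ (8 : ℝ) := mul_le_mul h.e1 h.d1 h.d0 (by positivity)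
      _ ≤ u := by
          rw [← Real.rpow_add hy]
          exact hle _ (by norm_num)
      _ ≤ K ^ 2 * u := le_mul_of_one_le_left hu0.le hK2
  have t4 : W * √δ ≤ K ^ 2 * u := by
    calc W * √δ ≤ K * y ^ (3 : ℝ) := h.sq
      _ ≤ K * u := mul_le_mul_of_nonneg_left (hle _ (by norm_num)) (by linarith)
      _ ≤ K ^ 2 * u := mul_le_mul_of_nonneg_right hKK hu0.le
  have t5 : 2 * oo ^ 3 + oo * oh + oh ^ 2 ≤ 4 * (K ^ 2 * u) := by
    have s1 : oo ^ 3 ≤ u := by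
      calc oo ^ 3 ≤ (y ^ (19 / 20 : ℝ)) ^ 3 := pow_le_pow_left₀ h.oo0 h.oo1 3
        _ ≤ u := by
            rw [← Real.rpow_natCast, ← Real.rpow_mul hy.le]
            exact hle _ (by norm_num)
    have s2 : oo * oh ≤ u := by
      calc oo * oh ≤ y ^ (19 / 20 : ℝ) * y ^ (3 / 2 : ℝ) :=
            mul_le_mul h.oo1 h.oh1 h.oh0 (by positivity)
        _ ≤ u := by
            rw [← Real.rpow_add hy]
            exact hle _ (by norm_num)
    have s3 : oh ^ 2 ≤ u := by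
      calc oh ^ 2 ≤ (y ^ (3 / 2 : ℝ)) ^ 2 := pow_le_pow_left₀ h.oh0 h.oh1 2
        _ ≤ u := by
            rw [← Real.rpow_natCast, ← Real.rpow_mul hy.le]
            exact hle _ (by norm_num)
    have s4 : u ≤ K ^ 2 * u := le_mul_of_one_le_left hu0.le hK2
    linarith
  have t6 : dT * (o1 + zn) ≤ 2 * (K ^ 2 * u) := by
    calc dT * (o1 + zn) ≤ dT * (y ^ (19 / 20 : ℝ) + y ^ (19 / 20 : ℝ)) :=
          mul_le_mul_of_nonneg_left (add_le_add h.o1 h.zn) h.dT0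
      _ ≤ y ^ (3 / 2 : ℝ) * (y ^ (19 / 20 : ℝ) + y ^ (19 / 20 : ℝ)) :=
          mul_le_mul_of_nonneg_right h.dT1 (by positivity)
      _ = 2 * (y ^ (3 / 2 : ℝ) * y ^ (19 / 20 : ℝ)) := by ring
      _ ≤ 2 * (K ^ 2 * u) := by
          have s1 : y ^ (3 / 2 : ℝ) * y ^ (19 / 20 : ℝ) ≤ u := by
            rw [← Real.rpow_add hy]
            exact hle _ (by norm_num)
          have s4 : u ≤ K ^ 2 * u := le_mul_of_one_le_left hu0.le hK2
          linarith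
  unfold SE
  nlinarith

end

end Vale.Agent.P159.H43
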