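import Vale.Agent.P159.H43.Sd3
import Vale.Agent.P159.H43.P7

/-!
P159 / P# (helper43): **sharp data from the `V` state**, part 4: the numbers `SdN` at one torus of a
locked state, from `yt`, `CH2`, the typical sources and the deviations.
-/

set_option linter.unusedSectionVars false

namespace Vale.Agent.P159.H43

open Finset Matrix MeasureTheory Filter Topology
open Vale.Agent.P159.H37
open Vale.Agent.P159.H363 (acl)
open Vale.Agent.P159.TM.Spec (V)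
open Vale.Agent.P159.TM.SpecC (Tor wT)
open Vale.Agent.P159.TM.H764 (EE)
open Vale.Agent.P159.H896 (om WM)
open Vale.Agent.P159.H864 (MC sym yt)
open Vale.Agent.P159.H145 (mt OscZ)
open Vale.Agent.P159.H462 (oT oB ms Dtot Pst)
open Vale.Agent.P159.H813 (St0 Wk kq)
open Vale.Agent.P159.H972 (Par tn)

noncomputable section

/-- a locked size: `y ^ 2 ≤ e ≤ y ^ (9 / 5)`, and the smallness of `y` against the constants -/
structure Lk (c ρ th e y : ℝ) : Prop where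
  n7 : P7n c ρ th e
  e0 : 0 < e
  e1 : e ≤ 1
  y0 : 0 < y
  y1 : y ≤ 1
  lo : y ^ (39 / 20 : ℝ) ≤ e
  up : e ≤ y ^ (9 / 5 : ℝ)
  s1 : 2 * c ^ 4 * y ^ (1 / 100 : ℝ) ≤ 1
  s2 : 12 * Real.exp (-(y ^ (-(1 / 20) : ℝ))) ≤ y ^ (3 / 2 : ℝ)

variable {c ρ th e y : ℝ}

lemma Lk.epow (h : Lk c ρ th e y) {x : ℝ} (hx : 0 ≤ x) : e ^ (-x) ≤ y ^ (-(2 * x)) := by
  have h1 : e ^ (-x) ≤ (y ^ (39 / 20 : ℝ)) ^ (-x) :=
    Real.rpow_le_rpow_of_nonpos (by have := h.y0; positivity) h.lo (by linarith)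
  rw [← Real.rpow_mul h.y0.le] at h1
  refine h1.trans (Real.rpow_le_rpow_of_exponent_ge h.y0 h.y1 ?_)
  nlinarith

lemma Lk.upow (h : Lk c ρ th e y) {x : ℝ} (hx : 0 ≤ x) : e ^ x ≤ y ^ (9 / 5 * x) := by
  have h1 := Real.rpow_le_rpow h.e0.le h.up hx
  rwa [← Real.rpow_mul h.y0.le] at h1

lemma Lk.c1 (h : Lk c ρ th e y) : 0 < c := by linarith [h.n7.c0]

/-- `R ^ 2` -/
lemma Lk.R2 (h : Lk c ρ th e y) {R : ℝ} (hR0 : 0 ≤ R) (hR : R ≤ c * e ^ (-ρ)) :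
    R ^ 2 ≤ c ^ 2 * y ^ (-(1 / 250) : ℝ) := by
  have hc := h.c1
  calc R ^ 2 ≤ (c * e ^ (-ρ)) ^ 2 := pow_le_pow_left₀ hR0 hR 2
    _ = c ^ 2 * e ^ (-(2 * ρ)) := by
        have := h.e0
        rw [mul_pow, ← Real.rpow_natCast (e ^ (-ρ)) 2, ← Real.rpow_mul h.e0.le]
        congr 2
        push_cast
        ring
    _ ≤ c ^ 2 * y ^ (-(2 * (2 * ρ))) := by
        have := h.epow (x := 2 * ρ) (by linarith [h.n7.ρ0])
        gcongr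
    _ ≤ c ^ 2 * y ^ (-(1 / 250) : ℝ) := by
        have : y ^ (-(2 * (2 * ρ))) ≤ y ^ (-(1 / 250) : ℝ) :=
          Real.rpow_le_rpow_of_exponent_ge h.y0 h.y1 (by linarith [h.n7.ρ1])
        gcongr

/-- `R² Y`, `Y = e ^ (-thp / 20) y` -/
lemma Lk.x (h : Lk c ρ th e y) {R : ℝ} (hR0 : 0 ≤ R) (hR : R ≤ c * e ^ (-ρ)) :
    2 * (R ^ 2 * (e ^ (-(th / 20)) * y)) ≤ y ^ (19 / 20 : ℝ) := by
  have hc := h.c1
  have hy := h.y0
  have h1 := h.R2 hR0 hR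
  have h2 : e ^ (-(th / 20)) ≤ y ^ (-(1 / 250) : ℝ) := by
    refine (h.epow (x := th / 20) (by linarith [h.n7.th0])).trans ?_
    exact Real.rpow_le_rpow_of_exponent_ge h.y0 h.y1 (by linarith [h.n7.th1, h.n7.ρ1])
  have h3 : c ^ 2 ≤ c ^ 4 := pow_le_pow_right₀ h.n7.c0 (by norm_num)
  calc 2 * (R ^ 2 * (e ^ (-(th / 20)) * y)) ≤
        2 * ((c ^ 2 * y ^ (-(1 / 250) : ℝ)) * (y ^ (-(1 / 250) : ℝ) * y)) := by
        have := h.e0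
        gcongr
    _ = 2 * c ^ 2 * (y ^ (-(1 / 250) : ℝ) * y ^ (-(1 / 250) : ℝ) * y ^ (1 : ℝ)) := by
        rw [Real.rpow_one]
        ring
    _ = 2 * c ^ 2 * (y ^ (1 / 100 : ℝ) * y ^ (491 / 500 : ℝ)) := by
        rw [← Real.rpow_add hy, ← Real.rpow_add hy, ← Real.rpow_add hy]
        norm_num
    _ ≤ 2 * c ^ 4 * (y ^ (1 / 100 : ℝ) * y ^ (491 / 500 : ℝ)) := by gcongr
    _ = (2 * c ^ 4 * y ^ (1 / 100 : ℝ)) * y ^ (491 / 500 : ℝ) := by ring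
    _ ≤ 1 * y ^ (491 / 500 : ℝ) := mul_le_mul_of_nonneg_right h.s1 (by positivity)
    _ ≤ y ^ (19 / 20 : ℝ) := by
        rw [one_mul]
        exact Real.rpow_le_rpow_of_exponent_ge h.y0 h.y1 (by norm_num)

/-- `y R² ≤ y ^ (19 / 20)` -/
lemma Lk.zn (h : Lk c ρ th e y) {R : ℝ} (hR0 : 0 ≤ R) (hR : R ≤ c * e ^ (-ρ)) :
    y * R ^ 2 ≤ y ^ (19 / 20 : ℝ) := by
  refine le_trans ?_ (h.x hR0 hR)
  have h1 : (1 : ℝ) ≤ e ^ (-(th / 20)) :=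
    Real.one_le_rpow_of_pos_of_le_one_of_nonpos h.e0 h.e1 (by linarith [h.n7.th0])
  have h2 : 0 ≤ R ^ 2 * y := mul_nonneg (sq_nonneg _) h.y0.le
  nlinarith

/-- the number `W` -/
lemma Lk.W (h : Lk c ρ th e y) {R κ : ℝ} (hκ : 0 ≤ κ) (hR0 : 0 ≤ R) (hR : R ≤ c * e ^ (-ρ)) :
    1 + κ * R ^ 2 ≤ (1 + κ) * y ^ (-(1 / 20) : ℝ) := by
  have hy := h.y0
  have hc := h.c1
  have h1 := h.R2 hR0 hR
  have h3 : c ^ 2 ≤ c ^ 4 := pow_le_pow_right₀ h.n7.c0 (by norm_num)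
  have h4 : c ^ 4 * y ^ (1 / 100 : ℝ) ≤ 1 := by
    have := h.s1
    have : 0 ≤ c ^ 4 * y ^ (1 / 100 : ℝ) := by positivity
    linarith [h.s1]
  have h5 : R ^ 2 ≤ y ^ (-(1 / 20) : ℝ) := by
    calc R ^ 2 ≤ c ^ 2 * y ^ (-(1 / 250) : ℝ) := h1
      _ ≤ c ^ 4 * y ^ (-(1 / 250) : ℝ) := by gcongr
      _ = (c ^ 4 * y ^ (1 / 100 : ℝ)) * y ^ (-(7 / 500) : ℝ) := by
          rw [mul_assoc, ← Real.rpow_add hy]
          norm_num
      _ ≤ 1 * y ^ (-(7 / 500) : ℝ) := mul_le_mul_of_nonneg_right h4 (by positivity)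
      _ ≤ y ^ (-(1 / 20) : ℝ) := by
          rw [one_mul]
          exact Real.rpow_le_rpow_of_exponent_ge h.y0 h.y1 (by norm_num)
  have h6 : (1 : ℝ) ≤ y ^ (-(1 / 20) : ℝ) :=
    Real.one_le_rpow_of_pos_of_le_one_of_nonpos h.y0 h.y1 (by norm_num)
  nlinarith

/-- the higher charges: `Q = ⌈y ^ (-1 / 10)⌉`, `a = 2 π² / R²` -/
lemma Lk.oh (h : Lk c ρ th e y) {R : ℝ} (hR0 : 1 ≤ R) (hR : R ≤ c * e ^ (-ρ)) :
    √(2 * (⌈y ^ (-(1 / 10) : ℝ)⌉₊ : ℝ)) * (R ^ 2 * (y * e ^ (1 / 2 : ℝ))) +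
      2 * (Real.exp (-(2 * Real.pi ^ 2 / R ^ 2 * (⌈y ^ (-(1 / 10) : ℝ)⌉₊ : ℝ) ^ 2)) /
        (2 * Real.pi ^ 2 / R ^ 2 * (⌈y ^ (-(1 / 10) : ℝ)⌉₊ : ℝ))) ≤ y ^ (3 / 2 : ℝ) := by
  have hy := h.y0
  have hc := h.c1
  have hR1 : 0 < R := by linarith
  have h1 := h.R2 hR1.le hR
  have h3 : c ^ 2 ≤ c ^ 4 := pow_le_pow_right₀ h.n7.c0 (by norm_num)
  have h4 : 2 * (c ^ 4 * y ^ (1 / 100 : ℝ)) ≤ 1 := by linarith [h.s1]
  have h5 : 2 * R ^ 2 ≤ y ^ (-(1 / 50) : ℝ) := by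
    calc 2 * R ^ 2 ≤ 2 * (c ^ 2 * y ^ (-(1 / 250) : ℝ)) := by linarith
      _ ≤ 2 * (c ^ 4 * y ^ (-(1 / 250) : ℝ)) := by gcongr
      _ = (2 * (c ^ 4 * y ^ (1 / 100 : ℝ))) * y ^ (-(7 / 500) : ℝ) := by
          rw [mul_assoc, mul_assoc, ← Real.rpow_add hy]
          norm_num
      _ ≤ 1 * y ^ (-(7 / 500) : ℝ) := mul_le_mul_of_nonneg_right h4 (by positivity)
      _ ≤ y ^ (-(1 / 50) : ℝ) := by
          rw [one_mul]
          exact Real.rpow_le_rpow_of_exponent_ge h.y0 h.y1 (by norm_num)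
  set X : ℝ := y ^ (-(1 / 10) : ℝ) with hX
  have hX1 : (1 : ℝ) ≤ X :=
    Real.one_le_rpow_of_pos_of_le_one_of_nonpos h.y0 h.y1 (by norm_num)
  have hQ1 : X ≤ (⌈X⌉₊ : ℝ) := Nat.le_ceil _
  have hQ2 : (⌈X⌉₊ : ℝ) ≤ 2 * X := by
    have := (Nat.ceil_lt_add_one (by linarith : 0 ≤ X)).le
    linarith
  set Q : ℝ := (⌈X⌉₊ : ℝ) with hQ
  have hX2 : X = (y ^ (-(1 / 20) : ℝ)) ^ 2 := by
    rw [hX, ← Real.rpow_natCast, ← Real.rpow_mul hy.le]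
    norm_num
  have hs : √(2 * Q) ≤ 2 * y ^ (-(1 / 20) : ℝ) := by
    rw [Real.sqrt_le_left (by positivity)]
    calc 2 * Q ≤ 4 * X := by linarith
      _ = (2 * y ^ (-(1 / 20) : ℝ)) ^ 2 := by rw [hX2]; ring
  have he := h.upow (x := 1 / 2) (by norm_num)
  have hyy : y ^ (9 / 5 * (1 / 2) : ℝ) = y ^ (9 / 10 : ℝ) := by norm_num
  rw [hyy] at he
  -- first term
  have t1 : √(2 * Q) * (R ^ 2 * (y * e ^ (1 / 2 : ℝ))) ≤ 1 / 2 * y ^ (3 / 2 : ℝ) := by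
    have e0 := h.e0
    calc √(2 * Q) * (R ^ 2 * (y * e ^ (1 / 2 : ℝ))) ≤
          (2 * y ^ (-(1 / 20) : ℝ)) * ((1 / 2 * y ^ (-(1 / 50) : ℝ)) * (y * y ^ (9 / 10 : ℝ))) := by
          have : R ^ 2 ≤ 1 / 2 * y ^ (-(1 / 50) : ℝ) := by linarith
          gcongr
      _ = y ^ (-(1 / 20) : ℝ) * y ^ (-(1 / 50) : ℝ) * (y ^ (1 : ℝ) * y ^ (9 / 10 : ℝ)) := by
          rw [Real.rpow_one]
          ring
      _ = y ^ (1 / 100 : ℝ) * y ^ (91 / 50 : ℝ) := by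
          rw [← Real.rpow_add hy, ← Real.rpow_add hy, ← Real.rpow_add hy, ← Real.rpow_add hy]
          norm_num
      _ ≤ 1 / 2 * y ^ (3 / 2 : ℝ) := by
          have q1 : y ^ (91 / 50 : ℝ) ≤ y ^ (3 / 2 : ℝ) :=
            Real.rpow_le_rpow_of_exponent_ge h.y0 h.y1 (by norm_num)
          have q2 : y ^ (1 / 100 : ℝ) ≤ 1 / 2 := by
            have : 1 ≤ c ^ 4 := one_le_pow₀ h.n7.c0
            have h7 : 0 < y ^ (1 / 100 : ℝ) := by positivity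
            nlinarith [h.s1]
          exact mul_le_mul q2 q1 (by positivity) (by norm_num)
  -- tail
  have hpi : 9 ≤ Real.pi ^ 2 := by nlinarith [Real.pi_gt_three]
  set a : ℝ := 2 * Real.pi ^ 2 / R ^ 2 with ha
  have ha1 : y ^ (1 / 50 : ℝ) ≤ a := by
    rw [ha, le_div_iff₀ (by positivity)]
    have h8 : y ^ (1 / 50 : ℝ) * y ^ (-(1 / 50) : ℝ) = 1 := by
      rw [← Real.rpow_add hy]
      norm_num
    have h9 : y ^ (1 / 50 : ℝ) * (2 * R ^ 2) ≤ y ^ (1 / 50 : ℝ) * y ^ (-(1 / 50) : ℝ) :=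
      mul_le_mul_of_nonneg_left h5 (by positivity)
    rw [h8] at h9
    have h10 : 0 ≤ y ^ (1 / 50 : ℝ) * R ^ 2 := by positivity
    linarith
  have ha0 : 0 < a := lt_of_lt_of_le (by positivity) ha1
  have haQ : y ^ (-(1 / 20) : ℝ) ≤ a * Q ^ 2 := by
    calc y ^ (-(1 / 20) : ℝ) ≤ y ^ (1 / 50 : ℝ) * y ^ (-(1 / 5) : ℝ) := by
          rw [← Real.rpow_add hy]
          exact Real.rpow_le_rpow_of_exponent_ge h.y0 h.y1 (by norm_num)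
      _ = y ^ (1 / 50 : ℝ) * X ^ 2 := by
          rw [hX, ← Real.rpow_natCast, ← Real.rpow_mul hy.le]
          norm_num
      _ ≤ a * Q ^ 2 := by
          have : X ^ 2 ≤ Q ^ 2 := pow_le_pow_left₀ (by linarith) hQ1 2
          gcongr
  have haQ1 : 1 ≤ a * Q := by
    calc (1 : ℝ) ≤ y ^ (1 / 50 : ℝ) * X := by
          rw [hX, ← Real.rpow_add hy]
          exact Real.one_le_rpow_of_pos_of_le_one_of_nonpos h.y0 h.y1 (by norm_num)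
      _ ≤ a * Q := by
          gcongr
  have t2 : 2 * (Real.exp (-(a * Q ^ 2)) / (a * Q)) ≤ 1 / 2 * y ^ (3 / 2 : ℝ) := by
    have q1 : Real.exp (-(a * Q ^ 2)) / (a * Q) ≤ Real.exp (-(y ^ (-(1 / 20) : ℝ))) := by
      rw [div_le_iff₀ (by linarith)]
      have q2 : Real.exp (-(a * Q ^ 2)) ≤ Real.exp (-(y ^ (-(1 / 20) : ℝ))) :=
        Real.exp_le_exp.2 (by linarith)
      have q3 := Real.exp_pos (-(y ^ (-(1 / 20) : ℝ)))
      nlinarith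
    have := h.s2
    have q3 := Real.exp_pos (-(y ^ (-(1 / 20) : ℝ)))
    linarith
  linarith

end

end Vale.Agent.P159.H43
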