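import Vale.Agent.P159.H43.Sd4

/-!
P159 / P# (helper43): **sharp data from the `V` state**, part 5: the numbers `SdN` on the torus
`2 ^ r` at a locked state, and the loss `Wk`.
-/

set_option linter.unusedSectionVars false

namespace Vale.Agent.P159.H43

open Finset Matrix MeasureTheory Filter Topology
open Vale.Agent.P159.H37
open Vale.Agent.P159.H363 (acl)
open Vale.Agent.P159.TM.Spec (V)
open Vale.Agent.P159.TM.SpecC (Tor wT)
open Vale.Agent.P159.TM.H764 (EE)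
open Vale.Agent.P159.H896 (om WM)
open Vale.Agent.P159.H864 (MC sym yt)
open Vale.Agent.P159.H145 (mt OscZ)
open Vale.Agent.P159.H889 (tn2)
open Vale.Agent.P159.H239 (TypE)
open Vale.Agent.P159.H462 (oT oB ms Dtot Pst)
open Vale.Agent.P159.H813 (St0 Wk kq)
open Vale.Agent.P159.H972 (Par tn)

noncomputable section

lemma tn_pos (n : ℕ) : 0 < tn n := by
  unfold tn
  positivity

/-- the loss of the fourth moment in terms of the size of the torus -/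
lemma Wk_le {N l : ℕ} [NeZero N] [NeZero (N / l)] {b T : ℝ} (hb : 0 ≤ b) (hl : l ∣ N) (hT : 0 ≤ T)
    {k : V (N / l)} (hk : k ≠ 0) :
    Wk N l b T k ≤ 1 + 1 / (16 * kq b) * (T * (N : ℝ) ^ 2) := by
  unfold H813.Wk
  have hq := H813.kq_pos hb
  have hE := H375.EE_ge_min (N := N / l) hk
  have hlp : (0 : ℝ) < l := by exact_mod_cast H864.l_pos hl
  have hn : (0 : ℝ) < ((N / l : ℕ) : ℝ) := by exact_mod_cast NeZero.pos (N / l)
  have hNl : (N : ℝ) = l * ((N / l : ℕ) : ℝ) := by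
    exact_mod_cast (Nat.mul_div_cancel' hl).symm
  have hE0 : 0 < EE k := lt_of_lt_of_le (by positivity) hE
  have h1 : T * (l : ℝ) ^ 2 / (kq b * EE k) ≤
      T * (l : ℝ) ^ 2 / (kq b * (16 / ((N / l : ℕ) : ℝ) ^ 2)) := by
    gcongr
  have e1 : T * (l : ℝ) ^ 2 / (kq b * (16 / ((N / l : ℕ) : ℝ) ^ 2)) =
      1 / (16 * kq b) * (T * (N : ℝ) ^ 2) := by
    rw [hNl]
    field_simp
  linarith

section torus

variable {P : Par} {b : ℝ} {n r j : ℕ} {e y ηR δ dT : ℝ}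

/-- **the numbers of the state at one admissible torus of a locked state** -/
theorem sdn_tor (hb : 0 < b)
    (hL : Lk (2 ^ (1 + 4 * P.q0)) (P.th + 4 * P.q0 * P.thp) P.thp e y) (hr : P.TT n e r)
    (hj : j ≤ r) [NeZero (2 ^ r / 2 ^ j)]
    (hv : yt (2 ^ r) b (4 * tn n) ≤ e ^ (-(P.thp / 20)) * y)
    (hc : ch2 (wT b (2 ^ r)) ((4 * tn n) • (1 : Matrix (Tor (2 ^ r)) (Tor (2 ^ r)) ℝ)) 0 ≤
      (2 ^ (r - n)) ^ 2 * (y * e ^ (1 / 2 : ℝ)))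
    (h0 : 0 ≤ ηR) (h1 : ηR ≤ y ^ (3 / 2 : ℝ)) (h2 : 0 ≤ δ) (h3 : δ ≤ y ^ (8 : ℝ))
    (h4 : 0 ≤ dT) (h5 : dT ≤ y ^ (3 / 2 : ℝ)) {k : V (2 ^ r / 2 ^ j)} (hk : k ≠ 0)
    {z : ℂ} (hz : ‖z‖ = y * (tn n * ((2 ^ j : ℕ) : ℝ) ^ 2)) :
    SdN y (oT (2 ^ r) (2 ^ j) b (tn n)) (omH (wT b (2 ^ r)) (MC (2 ^ r) (2 ^ j) (tn n) (tn n)))
      (om (wT b (2 ^ r)) (MC (2 ^ r) (2 ^ j) (tn n) (tn n)) 1) ηR δ dT
      (‖z‖ * ((2 ^ r / 2 ^ j : ℕ) : ℝ) ^ 2) (Wk (2 ^ r) (2 ^ j) b (tn n) k)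
      (1 + 1 / (16 * kq b)) := by
  have hT := tn_pos n
  have hy := hL.y0
  have hye := hL.lo
  have he := hL.e0
  have he1 := hL.e1
  have hl : 2 ^ j ∣ 2 ^ r := pow_dvd_pow 2 hj
  have hnr : n ≤ r := le_trans (Nat.le_add_right _ _) hr.1
  have hR := tt_R hr he he1
  have hR0 : (0 : ℝ) ≤ 2 ^ (r - n) := by positivity
  have hR1 : (1 : ℝ) ≤ 2 ^ (r - n) := one_le_pow₀ one_le_two
  have hs := hL.n7.s he he1 hy hye hR0 hR
  have hN : tn n * ((2 ^ r : ℕ) : ℝ) ^ 2 = (2 ^ (r - n)) ^ 2 := tn_mul_sq hnr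
  have hq := H813.kq_pos hb.le
  have hosc := osc_post hb hnr le_rfl (by linarith) hv hs
  have eMC : MC (2 ^ r) (2 ^ j) (tn n) (tn n) = mt (2 ^ r) (tn n) := H864.MC_self (2 ^ r) (2 ^ j)
    (tn n)
  have hw := (H896.wp_t (N := 2 ^ r) hb.le hT).toWM
  have hx := hL.x hR0 hR
  have hK0 : 0 ≤ 1 / (16 * kq b) := by positivity
  refine ⟨hy, hL.y1, ?_, (oT_le hb.le hl hT hosc).trans hx, ?_, ?_, ?_, h0, h1, h2, h3, h4, h5, ?_,
    ?_, ?_, ?_⟩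
  · unfold H462.oT
    rw [eMC]
    exact omT_nonneg hw
  · rw [eMC]
    exact omH_nonneg hw
  · have hX1 : (1 : ℝ) ≤ y ^ (-(1 / 10) : ℝ) :=
      Real.one_le_rpow_of_pos_of_le_one_of_nonpos hy hL.y1 (by norm_num)
    have hQ : 1 ≤ ⌈y ^ (-(1 / 10) : ℝ)⌉₊ := Nat.one_le_ceil_iff.2 (by linarith)
    refine (omH_ch2 (2 ^ j) hb.le hT (t := 4 * tn n) (by linarith) hc hQ
      (a := 2 * Real.pi ^ 2 / (2 ^ (r - n)) ^ 2) (by positivity) ?_).trans (hL.oh hR1 hR)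
    rw [hN]
    exact le_of_eq (div_mul_cancel₀ _ (by positivity))
  · rw [eMC]
    have h6 := om_tor hb hnr hv hs hT (by linarith)
    have h7 : 0 ≤ (2 ^ (r - n)) ^ 2 * (e ^ (-(P.thp / 20)) * y) := by positivity
    linarith
  · have hcast : ((2 ^ r / 2 ^ j : ℕ) : ℝ) = (2 ^ r : ℝ) / 2 ^ j := by
      rw [Nat.cast_div hl (by positivity)]
      push_cast
      rfl
    have e1 : ‖z‖ * ((2 ^ r / 2 ^ j : ℕ) : ℝ) ^ 2 = y * (2 ^ (r - n)) ^ 2 := by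
      rw [hz, ← hN, hcast]
      push_cast
      field_simp
    rw [e1]
    exact hL.zn hR0 hR
  · exact le_trans zero_le_one (H813.one_le_Wk hb.le hT.le hk)
  · refine (Wk_le hb.le hl hT.le hk).trans ?_
    rw [hN]
    exact hL.W hK0 hR0 hR
  · linarith

end torus

end

end Vale.Agent.P159.H43
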