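import Vale.Agent.P159.H43.Sd5
import Vale.Agent.P159.H114.SlD

/-!
P159 / P# (helper43): **sharp data from the `V` state**, part 6: the low modes.
-/

set_option linter.unusedSectionVars false

namespace Vale.Agent.P159.H43

open Finset Matrix MeasureTheory Filter Topology
open Vale.Agent.P159.H37
open Vale.Agent.P159.H363 (acl)
open Vale.Agent.P159.TM.Spec (V)
open Vale.Agent.P159.TM.H764 (EE)
open Vale.Agent.P159.H864 (sym)
open Vale.Agent.P159.H462 (Pst)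
open Vale.Agent.P159.H114 (ax jm KK nd)
open Vale.Agent.P159.H972 (FL)

noncomputable section

variable {N l : ℕ} [NeZero N] [NeZero (N / l)] {b T : ℝ}

lemma jm_ne {n q : ℕ} [NeZero n] (h : 2 * (q + 1) < n) (i : Fin (q + 1)) : ax (jm n i) ≠ 0 := by
  intro h0
  have h1 : jm n i = 0 := congrArg Prod.fst h0
  unfold H114.jm at h1
  rw [ZMod.natCast_eq_zero_iff] at h1
  have h2 := Nat.le_of_dvd (by omega) h1
  have := i.2
  omega

lemma EE_low {n q : ℕ} [NeZero n] (h : 2 * (q + 1) < n) (i : Fin (q + 1)) :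
    EE (ax (jm n i)) ≤ 40 * ((q : ℝ) + 1) ^ 2 / (n : ℝ) ^ 2 := by
  refine (H114.EE_sp h i).trans ?_
  have hn : (0 : ℝ) < n := by exact_mod_cast NeZero.pos n
  unfold H114.nd H114.KK
  have hi : ((i : ℕ) : ℝ) + 1 ≤ (q : ℝ) + 1 := by
    have := i.2
    have h2 : ((i : ℕ) : ℝ) ≤ q := by exact_mod_cast (by omega : (i : ℕ) ≤ q)
    linarith
  have hpi : Real.pi ^ 2 ≤ 10 := by nlinarith [Real.pi_lt_d2, Real.pi_pos]
  have e1 : (((i : ℕ) : ℝ) + 1) ^ 2 * (2 * Real.pi * ((1 : ℕ) : ℝ) / (n : ℝ)) ^ 2 =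
      4 * Real.pi ^ 2 * (((i : ℕ) : ℝ) + 1) ^ 2 / (n : ℝ) ^ 2 := by
    push_cast
    field_simp
    ring
  rw [e1]
  have h3 : (((i : ℕ) : ℝ) + 1) ^ 2 ≤ ((q : ℝ) + 1) ^ 2 := pow_le_pow_left₀ (by positivity) hi 2
  have h4 : 4 * Real.pi ^ 2 * (((i : ℕ) : ℝ) + 1) ^ 2 ≤ 40 * ((q : ℝ) + 1) ^ 2 := by
    have : 0 ≤ (((i : ℕ) : ℝ) + 1) ^ 2 := sq_nonneg _
    nlinarith
  gcongr

/-- **the low modes**: `Pst ≤ 8 EE` and `Pst ≤ ν` -/
theorem Pst_modes {q : ℕ} {a η : ℝ} (hb : 0 < b) (hl : l ∣ N) (hT : 0 < T) (ha1 : 1 ≤ a)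
    (ha2 : a ≤ 2) (hη : η ≤ 1 / 2) (hν : T * (l : ℝ) ^ 2 ≤ 1 / 40) (hF : FL b T a η N)
    (hq : 2 * (q + 1) < N / l) (hR : 320 * ((q : ℝ) + 1) ^ 2 ≤ T * (N : ℝ) ^ 2)
    (i : Fin (q + 1)) :
    Pst N l b T (ax (jm (N / l) i)) ≤ 8 * EE (ax (jm (N / l) i)) ∧
      8 * EE (ax (jm (N / l) i)) ≤ T * (l : ℝ) ^ 2 := by
  have hlp : (0 : ℝ) < l := by exact_mod_cast H864.l_pos hl
  have hn : (0 : ℝ) < ((N / l : ℕ) : ℝ) := by exact_mod_cast NeZero.pos (N / l)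
  have hNl : (N : ℝ) = l * ((N / l : ℕ) : ℝ) := by
    exact_mod_cast (Nat.mul_div_cancel' hl).symm
  have h1 := H375.sym_acl_top hb hl hT ha1 ha2 (by linarith : η ≤ 1) (by linarith) hF
    (ax (jm (N / l) i))
  have hE := TM.H764.EE_nonneg (ax (jm (N / l) i))
  have h2 : sym (acl N l b T T) (ax (jm (N / l) i)) ≤ 4 * EE (ax (jm (N / l) i)) := by
    refine h1.trans (mul_le_mul_of_nonneg_right (by linarith) hE)
  have h3 := EE_low hq i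
  have h4 : 8 * EE (ax (jm (N / l) i)) ≤ T * (l : ℝ) ^ 2 := by
    have h5 : 8 * (40 * ((q : ℝ) + 1) ^ 2 / ((N / l : ℕ) : ℝ) ^ 2) ≤ T * (l : ℝ) ^ 2 := by
      rw [mul_div_assoc', div_le_iff₀ (by positivity)]
      rw [hNl] at hR
      nlinarith
    linarith
  refine ⟨?_, h4⟩
  have h6 := Pst_low (N := N) hb hl hT (A := 4) h2 (by linarith)
  linarith

end

end Vale.Agent.P159.H43
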