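import Vale.Agent.P159.H43.Sd6
import Vale.Agent.P159.H813.Sq10
import Vale.Agent.P159.H114.SlD2

/-!
P159 / P# (helper43): **sharp data from the `V` state**, part 7: the fields `star` and `near` of
helper114's `LV` from helper813's (STAR0) and the numbers `SdN`.
-/

set_option linter.unusedSectionVars false

namespace Vale.Agent.P159.H43

open Finset Matrix MeasureTheory Filter Topology
open Vale.Agent.P159.H37
open Vale.Agent.P159.H363 (acl)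
open Vale.Agent.P159.TM.Spec (V)
open Vale.Agent.P159.TM.SpecC (wT)
open Vale.Agent.P159.TM.H764 (EE)
open Vale.Agent.P159.H896 (om)
open Vale.Agent.P159.H864 (MC sym)
open Vale.Agent.P159.H462 (oT oB Pst)
open Vale.Agent.P159.H813 (St0 Wk kq xqk Sz E0z E2z E1i)
open Vale.Agent.P159.H114 (ax jm Pc Sig LV pS)

noncomputable section

variable {N l : ℕ} [NeZero N] [NeZero (N / l)] {b T ηR δ dT c K y : ℝ} {z : ℂ}

lemma Sz_eq (ηR δ W o : ℝ) : Sz ηR δ W o = SS ηR W δ o := rfl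

lemma E0z_le (ηR δ W o oB dT o1 zn : ℝ) :
    E0z ηR δ W o (2 * oB + 4 * dT * (o1 + zn)) ≤ SE ηR W δ o oB dT o1 zn := by
  unfold H813.E0z H813.E1i SE
  rw [Sz_eq]
  have := sq_nonneg (SS ηR W δ o)
  nlinarith

/-- **`star` and `near` at the low modes**, one prior -/
theorem star_near {q : ℕ} {c₀ τ : ℝ} (hst : St0 N l b T τ z ηR δ dT c₀)
    (i : Fin (q + 1)) (hk : ax (jm (N / l) i) ≠ 0)
    (hP8 : Pst N l b T (ax (jm (N / l) i)) ≤ 8 * EE (ax (jm (N / l) i)))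
    (hE8 : 8 * EE (ax (jm (N / l) i)) ≤ T * (l : ℝ) ^ 2)
    (hn : SdN y (oT N l b T) (omH (wT b N) (MC N l T T)) (om (wT b N) (MC N l T T) 1) ηR δ dT
      (‖z‖ * ((N / l : ℕ) : ℝ) ^ 2) (Wk N l b T (ax (jm (N / l) i))) K)
    (hy : 2016000000 * K ^ 2 * y ^ (1 / 10 : ℝ) ≤ 1) (hc : c ≤ 3 / 10)
    (ht : τ * (l : ℝ) ^ 2 ≤ EE (ax (jm (N / l) i))) (hz : ‖z‖ = y * (T * (l : ℝ) ^ 2)) :
    |Pc N l b T τ (ax (jm (N / l) i)) - xqk N l b T τ (ax (jm (N / l) i)) -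
      8 * Real.pi ^ 2 * (y * (T * (l : ℝ) ^ 2)) ^ 2 * Sig (N / l) (T * (l : ℝ) ^ 2)
        (τ * (l : ℝ) ^ 2) (Pst N l b T) (ax (jm (N / l) i))| ≤
        y ^ (2 + c) * EE (ax (jm (N / l) i)) ∧
    |xqk N l b T τ (ax (jm (N / l) i)) - Pst N l b T (ax (jm (N / l) i))| ≤
      y ^ (1 + c) * EE (ax (jm (N / l) i)) := by
  have hy0 := hn.y0
  have hy1 := hn.y1
  have hK := hn.K1
  have hKK : K ≤ K ^ 2 := by nlinarith
  have hE0 := TM.H764.EE_nonneg (ax (jm (N / l) i))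
  have hp10 : 0 < y ^ (1 / 10 : ℝ) := by positivity
  have hd1 : δ ≤ 1 / 2 := by
    refine hn.d1.trans ?_
    have h1 : y ^ (8 : ℝ) ≤ y ^ (1 / 10 : ℝ) := Real.rpow_le_rpow_of_exponent_ge hy0 hy1 (by norm_num)
    have h2 : 1 ≤ K ^ 2 := hK.trans hKK
    nlinarith
  have hS := hn.S
  have h32 : y ^ (3 / 2 : ℝ) ≤ y ^ (1 / 10 : ℝ) :=
    Real.rpow_le_rpow_of_exponent_ge hy0 hy1 (by norm_num)
  have hS16 : Sz ηR δ (Wk N l b T (ax (jm (N / l) i))) (oT N l b T) ≤ 1 / 16 := by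
    rw [Sz_eq]
    refine hS.trans ?_
    have h2 : 712 * K * y ^ (3 / 2 : ℝ) ≤ 712 * K ^ 2 * y ^ (1 / 10 : ℝ) := by gcongr
    linarith
  have hPt : Pst N l b T (ax (jm (N / l) i)) + τ * (l : ℝ) ^ 2 ≤ 9 * EE (ax (jm (N / l) i)) := by
    linarith
  have h1 := hst.star hd1 hk (hP8.trans hE8) hS16
  have h2 := hst.near hd1 hk (hP8.trans hE8) hS16
  constructor
  · rw [hz] at h1
    refine h1.trans ?_
    have e1 : E0z ηR δ (Wk N l b T (ax (jm (N / l) i))) (oT N l b T) (E2z N l b T z dT) ≤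
        224000000 * K ^ 2 * y ^ (12 / 5 : ℝ) :=
      (E0z_le _ _ _ _ _ _ _ _).trans hn.E
    have e0 : 0 ≤ 224000000 * K ^ 2 * y ^ (12 / 5 : ℝ) := by positivity
    have hP0 : 0 ≤ Pst N l b T (ax (jm (N / l) i)) + τ * (l : ℝ) ^ 2 := by
      have := H462.Pst_nonneg hst.hb hst.hl hst.T0 (ax (jm (N / l) i))
      have := hst.hτ
      positivity
    have e3 : 2016000000 * K ^ 2 * y ^ (12 / 5 : ℝ) ≤ y ^ (2 + c) := by
      calc 2016000000 * K ^ 2 * y ^ (12 / 5 : ℝ) =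
            (2016000000 * K ^ 2 * y ^ (1 / 10 : ℝ)) * y ^ (23 / 10 : ℝ) := by
            rw [mul_assoc, mul_assoc, mul_assoc, ← Real.rpow_add hy0]
            norm_num
        _ ≤ 1 * y ^ (23 / 10 : ℝ) := mul_le_mul_of_nonneg_right hy (by positivity)
        _ ≤ y ^ (2 + c) := by
            rw [one_mul]
            exact Real.rpow_le_rpow_of_exponent_ge hy0 hy1 (by linarith)
    calc (Pst N l b T (ax (jm (N / l) i)) + τ * (l : ℝ) ^ 2) *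
          E0z ηR δ (Wk N l b T (ax (jm (N / l) i))) (oT N l b T) (E2z N l b T z dT) ≤
          (Pst N l b T (ax (jm (N / l) i)) + τ * (l : ℝ) ^ 2) *
            (224000000 * K ^ 2 * y ^ (12 / 5 : ℝ)) := mul_le_mul_of_nonneg_left e1 hP0
      _ ≤ (9 * EE (ax (jm (N / l) i))) * (224000000 * K ^ 2 * y ^ (12 / 5 : ℝ)) :=
          mul_le_mul_of_nonneg_right hPt e0
      _ = (2016000000 * K ^ 2 * y ^ (12 / 5 : ℝ)) * EE (ax (jm (N / l) i)) := by ring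
      _ ≤ y ^ (2 + c) * EE (ax (jm (N / l) i)) := mul_le_mul_of_nonneg_right e3 hE0
  · refine h2.trans ?_
    rw [Sz_eq]
    have e0 : 0 ≤ SS ηR (Wk N l b T (ax (jm (N / l) i))) δ (oT N l b T) := by
      have := hn.e0
      have := hn.W0
      unfold SS
      positivity
    have e3 : 32040 * K * y ^ (3 / 2 : ℝ) ≤ y ^ (1 + c) := by
      calc 32040 * K * y ^ (3 / 2 : ℝ) ≤ 2016000000 * K ^ 2 * y ^ (3 / 2 : ℝ) := by
            gcongr
            norm_num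
        _ = (2016000000 * K ^ 2 * y ^ (1 / 10 : ℝ)) * y ^ (14 / 10 : ℝ) := by
            rw [mul_assoc, mul_assoc, mul_assoc, ← Real.rpow_add hy0]
            norm_num
        _ ≤ 1 * y ^ (14 / 10 : ℝ) := mul_le_mul_of_nonneg_right hy (by positivity)
        _ ≤ y ^ (1 + c) := by
            rw [one_mul]
            exact Real.rpow_le_rpow_of_exponent_ge hy0 hy1 (by linarith)
    calc 5 * (Pst N l b T (ax (jm (N / l) i)) + τ * (l : ℝ) ^ 2) *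
          SS ηR (Wk N l b T (ax (jm (N / l) i))) δ (oT N l b T) ≤
          5 * (9 * EE (ax (jm (N / l) i))) * (712 * K * y ^ (3 / 2 : ℝ)) := by
          gcongr
      _ = (32040 * K * y ^ (3 / 2 : ℝ)) * EE (ax (jm (N / l) i)) := by ring
      _ ≤ y ^ (1 + c) * EE (ax (jm (N / l) i)) := mul_le_mul_of_nonneg_right e3 hE0

/-- **`LV` for all small priors**, given `ext` -/
theorem lv_ev {q : ℕ} {μ : Fin (q + 1) → ℝ} {c₀ : ℝ}
    (hst : ∀ᶠ τ in 𝓝[>] (0 : ℝ), St0 N l b T τ z ηR δ dT c₀)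
    (hk : ∀ i : Fin (q + 1), ax (jm (N / l) i) ≠ 0)
    (hP8 : ∀ i : Fin (q + 1), Pst N l b T (ax (jm (N / l) i)) ≤ 8 * EE (ax (jm (N / l) i)) ∧
      8 * EE (ax (jm (N / l) i)) ≤ T * (l : ℝ) ^ 2)
    (hn : ∀ i : Fin (q + 1), SdN y (oT N l b T) (omH (wT b N) (MC N l T T))
      (om (wT b N) (MC N l T T) 1) ηR δ dT (‖z‖ * ((N / l : ℕ) : ℝ) ^ 2)
      (Wk N l b T (ax (jm (N / l) i))) K)
    (hy : 2016000000 * K ^ 2 * y ^ (1 / 10 : ℝ) ≤ 1) (hc : c ≤ 3 / 10)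
    (hz : ‖z‖ = y * (T * (l : ℝ) ^ 2))
    (hext : ∀ᶠ τ in 𝓝[>] (0 : ℝ), |pS q μ (N / l) (xqk N l b T τ) - H462.aq N l b T| ≤
      y ^ (2 + c)) :
    ∀ᶠ τ in 𝓝[>] (0 : ℝ), ∃ xq, LV q μ c N l b T τ y xq := by
  have h1 : ∀ i : Fin (q + 1), ∀ᶠ τ in 𝓝[>] (0 : ℝ),
      τ * (l : ℝ) ^ 2 ≤ EE (ax (jm (N / l) i)) := by
    intro i
    have h2 : Tendsto (fun τ : ℝ => τ * (l : ℝ) ^ 2) (𝓝[>] 0) (𝓝 (0 * (l : ℝ) ^ 2)) :=
      tendsto_nhdsWithin_of_tendsto_nhds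
        ((continuous_id.mul continuous_const).tendsto (0 : ℝ))
    rw [zero_mul] at h2
    exact (h2.eventually (gt_mem_nhds (H462.EE_pos (hk i)))).mono fun τ h => h.le
  have h3 : ∀ᶠ τ in 𝓝[>] (0 : ℝ), ∀ i : Fin (q + 1),
      τ * (l : ℝ) ^ 2 ≤ EE (ax (jm (N / l) i)) := by
    rw [Filter.eventually_all]
    exact h1
  filter_upwards [hst, h3, hext] with τ a1 a2 a3
  refine ⟨xqk N l b T τ, ⟨fun i => ?_, fun i => ?_, a3⟩⟩
  · exact (star_near a1 i (hk i) (hP8 i).1 (hP8 i).2 (hn i) hy hc (a2 i) hz).1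
  · exact (star_near a1 i (hk i) (hP8 i).1 (hP8 i).2 (hn i) hy hc (a2 i) hz).2

end

end Vale.Agent.P159.H43
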