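import Vale.Agent.P159.H43.Sd7

/-!
P159 / P# (helper43): **sharp data from the `V` state**, part 8: one level: `LV` on every torus of the
`V` state from the inputs `SdI` at a locked size `Lk`.
-/

set_option linter.unusedSectionVars false

namespace Vale.Agent.P159.H43

open Finset Matrix MeasureTheory Filter Topology
open Vale.Agent.P159.H37
open Vale.Agent.P159.H363 (acl)
open Vale.Agent.P159.TM.Spec (V)
open Vale.Agent.P159.TM.SpecC (Tor wT)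
open Vale.Agent.P159.TM.H764 (EE)
open Vale.Agent.P159.H896 (om)
open Vale.Agent.P159.H864 (MC sym yt)
open Vale.Agent.P159.H889 (tn2)
open Vale.Agent.P159.H239 (TypE)
open Vale.Agent.P159.H462 (oT oB Pst Dtot)
open Vale.Agent.P159.H813 (St0 Wk kq xqk)
open Vale.Agent.P159.H114 (ax jm Pc Sig LV pS TV)
open Vale.Agent.P159.H972 (Par tn FL)

noncomputable section

/-- the cell mass `ν = t_n 4 ^ j` -/
def nuj (n j : ℕ) : ℝ := tn n * ((2 ^ j : ℕ) : ℝ) ^ 2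

/-- **what is used from the state** at one level: activity `y`, cells `2 ^ j`, coefficient `ζ` -/
structure SdI (P : Par) (b a : ℝ) (n : ℕ) (e y : ℝ) (j : ℕ) (ζ : ℂ) : Prop where
  hb : 0 < b
  a1 : 1 ≤ a
  a2 : a ≤ 2
  jn : j ≤ n
  nu : nuj n j ≤ 1 / 40
  fl : ∀ r, P.TT n e r → FL b (tn n) a (17 * e ^ P.pf) (2 ^ r)
  vy : ∀ r, P.TT n e r → yt (2 ^ r) b (4 * tn n) ≤ e ^ (-(P.thp / 20)) * y
  ch : ∀ r, P.TT n e r →
    ch2 (wT b (2 ^ r)) ((4 * tn n) • (1 : Matrix (Tor (2 ^ r)) (Tor (2 ^ r)) ℝ)) 0 ≤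
      (2 ^ (r - n)) ^ 2 * (y * e ^ (1 / 2 : ℝ))
  typ : ∀ r, TV P n e r → ∀ a', 0 < a' → a' ≤ tn n / 2 → ∀ [NeZero (2 ^ r / 2 ^ j)],
    TypE (2 ^ r) (2 ^ j) b (tn n) a' 1 (e ^ (17 / 20 : ℝ)) (y ^ (8 : ℝ))
  dev : ∀ r, TV P n e r → ∀ [NeZero (2 ^ r / 2 ^ j)],
    tn2 (acl (2 ^ r) (2 ^ j) b (tn n) (tn n))
      (Dtot (2 ^ r) (2 ^ j) b (tn n) (ζ * (nuj n j : ℝ))) ≤ y ^ (3 / 2 : ℝ)
  ze : ‖ζ‖ = y

/-- `TV` is contained in `TT` -/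
lemma tt_of_tv {P : Par} {n r : ℕ} {e : ℝ} (h : TV P n e r) : P.TT n e r := by
  refine ⟨h.1, h.2.trans ?_⟩
  have : (P.q0 - 2) * (4 * P.w e) ≤ P.q0 * (4 * P.w e) := Nat.mul_le_mul_right _ (by omega)
  omega

/-- lower bound of the size of the torus -/
lemma tt_lo {P : Par} {n r : ℕ} {e : ℝ} (h : P.TT n e r) (he : 0 < e) :
    e ^ (-P.th) ≤ (2 : ℝ) ^ (r - n) := by
  have h1 : P.th * Real.logb 2 (1 / e) ≤ P.kE e := Nat.le_ceil _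
  have h2 : e ^ (-P.th) = (2 : ℝ) ^ (P.th * Real.logb 2 (1 / e)) := by
    rw [mul_comm, Real.rpow_mul two_pos.le, Real.rpow_logb two_pos (by norm_num) (by positivity),
      one_div, Real.inv_rpow he.le, Real.rpow_neg he.le]
  rw [h2, ← Real.rpow_natCast]
  refine Real.rpow_le_rpow_of_exponent_le one_le_two (h1.trans ?_)
  have h3 := h.1
  exact_mod_cast (by omega : P.kE e ≤ r - n)

/-- smallness of the level -/
structure SdQ (P : Par) (b : ℝ) (q : ℕ) (e y : ℝ) : Prop where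
  lk : Lk (2 ^ (1 + 4 * P.q0)) (P.th + 4 * P.q0 * P.thp) P.thp e y
  fl : 17 * e ^ P.pf ≤ 1 / 2
  q1 : 18 * ((q : ℝ) + 1) ≤ e ^ (-P.th)
  o1 : y ^ (3 / 2 : ℝ) + 2 * y ^ (19 / 20 : ℝ) ≤ 1
  y1 : 2016000000 * (1 + 1 / (16 * kq b)) ^ 2 * y ^ (1 / 10 : ℝ) ≤ 1

/-- **`LV` at one torus of the state** -/
theorem SdI.lv {P : Par} {b a : ℝ} {n : ℕ} {e y : ℝ} {j : ℕ} {ζ : ℂ} {q : ℕ}
    {μ : Fin (q + 1) → ℝ} {c : ℝ} (h : SdI P b a n e y j ζ) (hQ : SdQ P b q e y)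
    (hc : c ≤ 3 / 10) {r : ℕ} (hr : TV P n e r)
    (hext : ∀ᶠ τ in 𝓝[>] (0 : ℝ), |pS q μ (2 ^ r / 2 ^ min j r)
      (xqk (2 ^ r) (2 ^ min j r) b (tn n) τ) - H462.aq (2 ^ r) (2 ^ min j r) b (tn n)| ≤
      y ^ (2 + c)) :
    ∀ᶠ τ in 𝓝[>] (0 : ℝ), ∃ xq, LV q μ c (2 ^ r) (2 ^ min j r) b (tn n) τ y xq := by
  have hTT := tt_of_tv hr
  have hb := h.hb
  have hT := tn_pos n
  have hL := hQ.lk
  have he := hL.e0
  have hy := hL.y0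
  have hnr : n ≤ r := le_trans (Nat.le_add_right _ _) hr.1
  have hjr : j ≤ r := h.jn.trans hnr
  have hm : min j r = j := min_eq_left hjr
  have hN : tn n * ((2 ^ r : ℕ) : ℝ) ^ 2 = (2 ^ (r - n)) ^ 2 := tn_mul_sq hnr
  have hlo := tt_lo hTT he
  have hR : 18 * ((q : ℝ) + 1) ≤ 2 ^ (r - n) := hQ.q1.trans hlo
  -- facts at the cells `2 ^ min j r`
  have hmr : min j r ≤ r := min_le_right _ _
  have hl : 2 ^ min j r ∣ 2 ^ r := pow_dvd_pow 2 hmr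
  have hν : tn n * ((2 ^ min j r : ℕ) : ℝ) ^ 2 = nuj n j := by rw [hm]; rfl
  have htyp : ∀ a', 0 < a' → a' ≤ tn n / 2 →
      TypE (2 ^ r) (2 ^ min j r) b (tn n) a' 1 (e ^ (17 / 20 : ℝ)) (y ^ (8 : ℝ)) := by
    have h1 : ∀ j' : ℕ, j' = j → ∀ [NeZero (2 ^ r / 2 ^ j')], ∀ a', 0 < a' → a' ≤ tn n / 2 →
        TypE (2 ^ r) (2 ^ j') b (tn n) a' 1 (e ^ (17 / 20 : ℝ)) (y ^ (8 : ℝ)) := by
      intro j' hj' _ a' h0 h2
      subst hj'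
      exact h.typ r hr a' h0 h2
    exact h1 _ hm
  have hdev : tn2 (acl (2 ^ r) (2 ^ min j r) b (tn n) (tn n))
      (Dtot (2 ^ r) (2 ^ min j r) b (tn n) (ζ * (nuj n j : ℝ))) ≤ y ^ (3 / 2 : ℝ) := by
    have h1 : ∀ j' : ℕ, j' = j → ∀ [NeZero (2 ^ r / 2 ^ j')],
        tn2 (acl (2 ^ r) (2 ^ j') b (tn n) (tn n))
          (Dtot (2 ^ r) (2 ^ j') b (tn n) (ζ * (nuj n j : ℝ))) ≤ y ^ (3 / 2 : ℝ) := by
      intro j' hj' _
      subst hj'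
      exact h.dev r hr
    exact h1 _ hm
  have hνpos : 0 < nuj n j := by
    unfold nuj
    positivity
  have hz : ‖ζ * (nuj n j : ℝ)‖ = y * (tn n * ((2 ^ min j r : ℕ) : ℝ) ^ 2) := by
    rw [norm_mul, h.ze, Complex.norm_real, Real.norm_of_nonneg hνpos.le, hν]
  have hη0 : 0 ≤ e ^ (17 / 20 : ℝ) := by positivity
  have hη1 : e ^ (17 / 20 : ℝ) ≤ y ^ (3 / 2 : ℝ) := by
    refine (hL.upow (x := 17 / 20) (by norm_num)).trans ?_
    exact Real.rpow_le_rpow_of_exponent_ge hy hL.y1 (by norm_num)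
  -- low modes
  have hq2 : 2 * (q + 1) < 2 ^ r / 2 ^ min j r := by
    have h1 : 2 ^ r / 2 ^ min j r = 2 ^ (r - min j r) := Nat.pow_div hmr two_pos
    rw [h1]
    have h2 : (2 : ℝ) ^ (r - n) ≤ 2 ^ (r - min j r) :=
      pow_le_pow_right₀ one_le_two (by have := h.jn; omega)
    have h3 : ((2 * (q + 1) : ℕ) : ℝ) < ((2 ^ (r - min j r) : ℕ) : ℝ) := by
      push_cast
      have : (0 : ℝ) ≤ q := Nat.cast_nonneg q
      linarith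
    exact_mod_cast h3
  have hmodes : ∀ i : Fin (q + 1), Pst (2 ^ r) (2 ^ min j r) b (tn n)
        (ax (jm (2 ^ r / 2 ^ min j r) i)) ≤ 8 * EE (ax (jm (2 ^ r / 2 ^ min j r) i)) ∧
      8 * EE (ax (jm (2 ^ r / 2 ^ min j r) i)) ≤ tn n * ((2 ^ min j r : ℕ) : ℝ) ^ 2 := by
    intro i
    refine Pst_modes (N := 2 ^ r) (l := 2 ^ min j r) hb hl hT h.a1 h.a2 hQ.fl ?_ (h.fl r hTT) hq2 ?_ i
    · rw [hν]
      exact h.nu
    · rw [hN]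
      have h3 : (18 * ((q : ℝ) + 1)) ^ 2 ≤ (2 ^ (r - n)) ^ 2 :=
        pow_le_pow_left₀ (by positivity) hR 2
      nlinarith
  have hk : ∀ i : Fin (q + 1), ax (jm (2 ^ r / 2 ^ min j r) i) ≠ 0 := fun i => jm_ne hq2 i
  have hnum : ∀ i : Fin (q + 1), SdN y (oT (2 ^ r) (2 ^ min j r) b (tn n))
      (omH (wT b (2 ^ r)) (MC (2 ^ r) (2 ^ min j r) (tn n) (tn n)))
      (om (wT b (2 ^ r)) (MC (2 ^ r) (2 ^ min j r) (tn n) (tn n)) 1) (e ^ (17 / 20 : ℝ))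
      (y ^ (8 : ℝ)) (y ^ (3 / 2 : ℝ))
      (‖ζ * (nuj n j : ℝ)‖ * ((2 ^ r / 2 ^ min j r : ℕ) : ℝ) ^ 2)
      (Wk (2 ^ r) (2 ^ min j r) b (tn n) (ax (jm (2 ^ r / 2 ^ min j r) i)))
      (1 + 1 / (16 * kq b)) := fun i =>
    sdn_tor hb hL hTT hmr (h.vy r hTT) (h.ch r hTT) hη0 hη1 (by positivity) le_rfl
      (by positivity) le_rfl (hk i) hz
  have i0 : Fin (q + 1) := 0
  have hst := st0_ev (N := 2 ^ r) (l := 2 ^ min j r) hb hl hT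
    (by
      have h1 := (hnum i0).oo1
      have h2 := hQ.o1
      have h3 : 0 ≤ y ^ (3 / 2 : ℝ) := by positivity
      linarith)
    hη0
    (by
      have h1 := (hnum i0).oo1
      have h2 := hQ.o1
      linarith)
    htyp hdev
  exact lv_ev hst hk hmodes hnum hQ.y1 hc hz hext

end

end Vale.Agent.P159.H43
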