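import Vale.Agent.P159.H43.Sd8

/-!
P159 / P# (helper43): **sharp data from the `V` state**, part 9: the smallness `SdQ` of a level holds
at every locked state with small activity.
-/

set_option linter.unusedSectionVars false

namespace Vale.Agent.P159.H43

open Finset Filter Topology
open Vale.Agent.P159.H813 (kq)
open Vale.Agent.P159.H972 (Par)
open Vale.Agent.P159.H801 (Ev PS)

noncomputable section

lemma exp_small : ∃ E : ℝ, 0 < E ∧ ∀ y, 0 < y → y ≤ E →
    12 * Real.exp (-(y ^ (-(1 / 20) : ℝ))) ≤ y ^ (3 / 2 : ℝ) := by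
  have h := (Real.tendsto_pow_mul_exp_neg_atTop_nhds_zero 30).eventually
    (gt_mem_nhds (show (0 : ℝ) < 1 / 12 by norm_num))
  obtain ⟨X, hX⟩ := (h.and (eventually_gt_atTop (0 : ℝ))).exists_forall_of_atTop
  have hX0 : 0 < X := (hX X le_rfl).2
  refine ⟨X ^ (-20 : ℝ), by positivity, fun y hy h1 => ?_⟩
  have h2 : X ≤ y ^ (-(1 / 20) : ℝ) := by
    have h3 : (X ^ (-20 : ℝ)) ^ (-(1 / 20) : ℝ) ≤ y ^ (-(1 / 20) : ℝ) :=
      Real.rpow_le_rpow_of_nonpos hy h1 (by norm_num)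
    rw [← Real.rpow_mul hX0.le] at h3
    norm_num at h3
    norm_num
    exact h3
  have h4 := (hX _ h2).1
  set x : ℝ := y ^ (-(1 / 20) : ℝ) with hx
  have hx0 : 0 < x := by positivity
  have e1 : y ^ (3 / 2 : ℝ) = (x ^ 30)⁻¹ := by
    rw [hx, ← Real.rpow_natCast, ← Real.rpow_mul hy.le, ← Real.rpow_neg hy.le]
    norm_num
  rw [e1, ← one_div, le_div_iff₀ (by positivity)]
  linarith

/-- **every locked state with small activity is small enough** -/
theorem sdq_of {P : Par} {b : ℝ} (hb : 0 ≤ b) (q : ℕ)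
    (h7 : ∀ e, 0 < e → e ≤ P.es →
      P7n (2 ^ (1 + 4 * P.q0)) (P.th + 4 * P.q0 * P.thp) P.thp e) (hpf : 0 < P.pf) :
    ∃ E : ℝ, 0 < E ∧ E ≤ 1 ∧ ∀ e y, 0 < y → y ≤ E → e ≤ P.es → y ^ (39 / 20 : ℝ) ≤ e →
      e ≤ y ^ (9 / 5 : ℝ) → SdQ P b q e y := by
  have hth := P.th0
  have hkq := H813.kq_pos hb
  obtain ⟨E1, p1, q1, k1⟩ := abs_const (C := 2 * (2 ^ (1 + 4 * P.q0)) ^ 4) (η := 1 / 100)
    (by positivity) (by norm_num)
  obtain ⟨E2, p2, k2⟩ := exp_small
  obtain ⟨E3, p3, q3, k3⟩ := abs_const (C := 34) (η := P.pf) (by norm_num) hpf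
  obtain ⟨E4, p4, q4, k4⟩ := abs_const (C := 18 * ((q : ℝ) + 1)) (η := P.th) (by positivity) hth
  obtain ⟨E5, p5, q5, k5⟩ := abs_const (C := 3) (η := 19 / 20) (by norm_num) (by norm_num)
  obtain ⟨E6, p6, q6, k6⟩ := abs_const (C := 2016000000 * (1 + 1 / (16 * kq b)) ^ 2)
    (η := 1 / 10) (by positivity) (by norm_num)
  refine ⟨min (min (min E1 E2) (min E3 E4)) (min (min E5 E6) 1), by positivity,
    (min_le_right _ _).trans (min_le_right _ _), fun e y hy hE hes hlo hup => ?_⟩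
  have a1 : y ≤ E1 := hE.trans (((min_le_left _ _).trans (min_le_left _ _)).trans (min_le_left _ _))
  have a2 : y ≤ E2 := hE.trans (((min_le_left _ _).trans (min_le_left _ _)).trans (min_le_right _ _))
  have a3 : y ≤ E3 := hE.trans (((min_le_left _ _).trans (min_le_right _ _)).trans (min_le_left _ _))
  have a4 : y ≤ E4 :=
    hE.trans (((min_le_left _ _).trans (min_le_right _ _)).trans (min_le_right _ _))
  have a5 : y ≤ E5 := hE.trans (((min_le_right _ _).trans (min_le_left _ _)).trans (min_le_left _ _))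
  have a6 : y ≤ E6 :=
    hE.trans (((min_le_right _ _).trans (min_le_left _ _)).trans (min_le_right _ _))
  have a7 : y ≤ 1 := hE.trans ((min_le_right _ _).trans (min_le_right _ _))
  have he : 0 < e := lt_of_lt_of_le (by positivity) hlo
  have hey : e ≤ y := by
    refine hup.trans ?_
    calc y ^ (9 / 5 : ℝ) ≤ y ^ (1 : ℝ) := Real.rpow_le_rpow_of_exponent_ge hy a7 (by norm_num)
      _ = y := Real.rpow_one y
  have he1 : e ≤ 1 := hey.trans a7
  refine ⟨⟨h7 e he hes, he, he1, hy, a7, hlo, hup, k1 y hy a1, k2 y hy a2⟩, ?_, ?_, ?_,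
    k6 y hy a6⟩
  · have h1 := k3 e he (hey.trans a3)
    linarith
  · have h1 := k4 e he (hey.trans a4)
    rw [Real.rpow_neg he.le, ← one_div, le_div_iff₀ (by positivity)]
    exact h1
  · have h1 := k5 y hy a5
    have h2 : y ^ (3 / 2 : ℝ) ≤ y ^ (19 / 20 : ℝ) :=
      Real.rpow_le_rpow_of_exponent_ge hy a7 (by norm_num)
    linarith

end

end Vale.Agent.P159.H43
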