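import Vale.Agent.P159.H43.Sd10
import Vale.Agent.P159.H43.Chb
import Vale.Agent.P159.H889.Vvs
import Vale.Agent.P159.H816.Rf2

/-!
P159 / P# (helper43): **sharp data from the `V` state of the master**, part 1: the inputs `SdI` and the
smallness `SdQ` at every locked state, order of constants.
-/

set_option linter.unusedSectionVars false

namespace Vale.Agent.P159.H43

open Finset Matrix MeasureTheory Filter Topology
open Vale.Agent.P159.TM.Spec (V)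
open Vale.Agent.P159.TM.SpecC (Tor wT)
open Vale.Agent.P159.H889 (Cx SV VSs nu lam Lg)
open Vale.Agent.P159.H239 (TypE)
open Vale.Agent.P159.H816 (RfV)
open Vale.Agent.P159.H972 (Par tn FL Good lg)
open Vale.Agent.P159.H801 (Ev PS)

noncomputable section

variable {P : Par} {b C1 c1 : ℝ} {n s : ℕ} {e y : ℝ}

/-- the cells of the `V` state are below the cells of `P_up` -/
lemma cx_sE (h : Cx P b C1 c1 n s e y) (hC : P.C0 ≤ C1) (hC0 : 0 ≤ P.C0) (he1 : e ≤ 1)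
    (hy1 : y ≤ 1) (hsn : s ≤ n) : s ≤ P.sE n e := by
  have h1 := h.Lg_lo
  rw [h.logx] at h1
  have hl2 := Real.log_pos one_lt_two
  have hle : 0 ≤ Real.log (1 / e) := Real.log_nonneg ((le_div_iff₀ h.e0).2 (by linarith))
  have hly : 0 ≤ Real.log (1 / y) := Real.log_nonneg ((le_div_iff₀ h.y0).2 (by linarith))
  have h2 : lg P.C0 e ≤ n - s := by
    unfold H972.lg
    rw [Nat.ceil_le, Nat.cast_sub hsn]
    have h3 : P.C0 * Real.log (1 / e) ≤ ((n : ℝ) - s) * Real.log 2 := by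
      have h4 : ((n : ℝ) - s) * Real.log 2 = Lg n s := rfl
      rw [h4]
      refine le_trans ?_ h1
      exact mul_le_mul hC (by linarith) hle (hC0.trans hC)
    have h5 : P.C0 * Real.logb 2 (1 / e) * Real.log 2 ≤ ((n : ℝ) - s) * Real.log 2 := by
      rw [Real.logb]
      have : P.C0 * (Real.log (1 / e) / Real.log 2) * Real.log 2 = P.C0 * Real.log (1 / e) := by
        field_simp
      rw [this]
      exact h3
    exact le_of_mul_le_mul_right h5 hl2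
  unfold H972.Par.sE
  omega

/-- the number `p` of the strong level is below every power -/
lemma ev_typp (b1 b2 pf : ℝ) (Q : ℕ) : Ev b1 b2 pf Q fun P c1 => 0 < c1 ∧
    ∀ e, 0 < e → e ≤ P.es → 8 * e ^ (-c1) ≤ e ^ (-(P.th / 40)) := by
  refine H801.Ev.of ⟨0, fun W hW => ⟨1, one_pos, fun ys _ _ => ⟨0, fun X0 hX0 =>
    ⟨1, one_pos, fun x1 hx1 hx1' => ⟨1, one_pos, fun thp ht1 ht2 => ⟨1, one_pos, fun th hs1 hs2 =>
    ⟨1, fun C0 hC0 => ⟨th / 80, by positivity, fun c1 hc1 hc2 => ?_⟩⟩⟩⟩⟩⟩⟩⟩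
  obtain ⟨E1, p1, q1, k1⟩ := H415.const_le_pow 8 (c := th / 80) (by positivity)
  refine ⟨min E1 1, by positivity, fun P hP => ⟨hc1, fun e he hes => ?_⟩⟩
  rw [hP.eth]
  have hE := hes.trans hP.ees
  have g1 := k1 e he (hE.trans (min_le_left _ _))
  have he1 : e ≤ 1 := hE.trans (min_le_right _ _)
  have h1 : e ^ (-c1) ≤ e ^ (-(th / 80)) := Real.rpow_le_rpow_of_exponent_ge he he1 (by linarith)
  have h2 : e ^ (-(th / 40)) = e ^ (-(th / 80)) * e ^ (-(th / 80)) := by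
    rw [← Real.rpow_add he]
    congr 1
    ring
  rw [h2]
  have h3 : 0 < e ^ (-c1) := by positivity
  exact mul_le_mul g1 h1 h3.le (by linarith)

/-- the cells are a power of the logarithm finer than the level -/
lemma ev_loC (b1 b2 pf : ℝ) (Q : ℕ) (K : ℝ) : Ev b1 b2 pf Q fun P c1 => 1 ≤ P.C0 ∧
    ∀ C1, 0 < C1 → C1 ≤ K * P.C0 → ∀ (b : ℝ) (n s : ℕ) (e y : ℝ), Cx P b C1 c1 n s e y →
      ((n - s : ℕ) : ℝ) ≤ e ^ (-(2 * c1)) ∧ s < n := by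
  refine H801.Ev.of ⟨0, fun W hW => ⟨1, one_pos, fun ys _ _ => ⟨0, fun X0 hX0 =>
    ⟨1, one_pos, fun x1 hx1 hx1' => ⟨1, one_pos, fun thp ht1 ht2 => ⟨1, one_pos, fun th hs1 hs2 =>
    ⟨1, fun C0 hC0 => ⟨1, one_pos, fun c1 hc1 hc2 => ?_⟩⟩⟩⟩⟩⟩⟩⟩
  obtain ⟨E0, hE0, h⟩ := Cx.loC (Cm := max 1 (K * C0)) (by positivity) hc1
  refine ⟨E0, hE0, fun P hP => ⟨by rw [hP.eC0]; exact hC0, fun C1 h0 h1 b n s e y hC => ?_⟩⟩
  rw [hP.eC0] at h1
  exact (h C1 h0 (h1.trans (le_max_right _ _)) P b n s e y (hC.es.trans hP.ees) hC).2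

/-- the equations of the parameters -/
lemma ev_eqs (b1 b2 pf : ℝ) (Q : ℕ) : Ev b1 b2 pf Q fun P _ => P.b1 = b1 ∧ P.b2 = b2 ∧
    P.pf = pf := by
  refine H801.Ev.of ⟨0, fun W hW => ⟨1, one_pos, fun ys _ _ => ⟨0, fun X0 hX0 =>
    ⟨1, one_pos, fun x1 hx1 hx1' => ⟨1, one_pos, fun thp ht1 ht2 => ⟨1, one_pos, fun th hs1 hs2 =>
    ⟨1, fun C0 hC0 => ⟨1, one_pos, fun c1 hc1 hc2 => ⟨1, one_pos, fun P hP =>
      ⟨hP.eb1, hP.eb2, hP.epf⟩⟩⟩⟩⟩⟩⟩⟩⟩⟩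

/-- **what is used of a state of the sharp relation**: a locked size and the `V` state -/
structure St2 (P : Par) (b C1 A1 dl c1 : ℝ) (n : ℕ) (ε y : ℝ) (j : ℕ) (ζ : ℂ) (a : ℝ) : Prop where
  good : Good P b n ε
  es : ε ≤ P.es
  lo : y ^ (39 / 20 : ℝ) ≤ ε
  up : ε ≤ y ^ (9 / 5 : ℝ)
  hv : Real.log (1 / y) ≤ ε ^ (-c1)
  vs : VSs P b C1 A1 dl n ε y j ζ
  a1 : 11 / 10 ≤ a
  a2 : a ≤ 159 / 100
  fl : ∀ r, P.TT n ε r → H972.FL b (tn n) a (17 * ε ^ P.pf) (2 ^ r)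

section

variable {A1 dl a : ℝ} {ε : ℝ} {j : ℕ} {ζ : ℂ}

lemma St2.e0 (h : St2 P b C1 A1 dl c1 n ε y j ζ a) : 0 < ε :=
  lt_of_lt_of_le (Real.rpow_pos_of_pos h.vs.z0 _) h.lo

/-- helper889's context at a state -/
lemma St2.cx (h : St2 P b C1 A1 dl c1 n ε y j ζ a) (hb1 : P.b1 ≤ b) (hb2 : b ≤ P.b2) :
    Cx P b C1 c1 n j ε y :=
  ⟨h.good, hb1, hb2, h.e0, h.es, h.vs.z0, h.lo, h.hv, h.vs.vy, h.vs.s1, h.vs.s2, h.vs.ns⟩

end

/-- **the inputs of one level, order of constants** -/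
theorem ev_sdi {b b1 b2 pf : ℝ} (hb1 : 0 < b1) (h1 : b1 ≤ b) (h2 : b ≤ b2) (hpf : 0 < pf) (Q : ℕ)
    (K : ℝ) :
    Ev b1 b2 pf Q fun P c1 => ∀ C1 : ℝ, 1 ≤ C1 → P.C0 ≤ C1 → C1 ≤ K * P.C0 → ∀ (A1 dl : ℝ) (q : ℕ),
      ∃ E : ℝ, 0 < E ∧ E ≤ 1 ∧ ∀ (n j : ℕ) (ε y a : ℝ) (ζ : ℂ), y ≤ E →
        St2 P b C1 A1 dl c1 n ε y j ζ a →
        Cx P b C1 c1 n j ε y ∧ SdI P b a n ε y j ζ ∧ SdQ P b q ε y := by
  have hb : 0 < b := hb1.trans_le h1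
  refine ((ev_p7n (b1 := b1) (b2 := b2) (pf := pf) (Q := Q)).and
    ((H816.ev_rf (b2 := b2) hb1 h1 hpf Q (σ := 3 / 20) (by norm_num)).and
    ((ev_typp b1 b2 pf Q).and ((ev_loC b1 b2 pf Q K).and (ev_eqs b1 b2 pf Q))))).mono ?_
  rintro P c1 hA ⟨⟨-, h7⟩, hrf, ⟨hc1, htp⟩, ⟨hC0, hlo⟩, hPb1, hPb2, hPpf⟩ C1 hC1 hC2 hC3 A1 dl q
  obtain ⟨E, hE, hE1, hQ⟩ := sdq_of (P := P) hb.le q h7 hA.pf0
  refine ⟨min E (1 / 40), by positivity, (min_le_left _ _).trans hE1, ?_⟩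
  intro n j ε y a ζ hy hS
  have hy0 := hS.vs.z0
  have hcx := hS.cx (by rw [hPb1]; exact h1) (by rw [hPb2]; exact h2)
  have hyE : y ≤ E := hy.trans (min_le_left _ _)
  have hy40 : y ≤ 1 / 40 := hy.trans (min_le_right _ _)
  have hq := hQ ε y hy0 hyE hS.es hS.lo hS.up
  have hL := hq.lk
  have he0 := hL.e0
  have he1 := hL.e1
  obtain ⟨h3, h4⟩ := hlo C1 (by linarith) hC3 b n j ε y hcx
  refine ⟨hcx, ?_, hq⟩
  have hsE : j ≤ P.sE n ε := cx_sE hcx hC2 (by linarith) he1 hL.y1 h4.le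
  obtain ⟨τ, a', hτ1, hτ2, hG⟩ := hS.good
  have hGe := hG ε le_rfl hS.es
  refine sdI_of hb hL hcx hC1 hy40 hS.vs.sv (le_refl _) ?_ hS.vs.nz hS.vs.ch
    (le_trans (by norm_num) hS.a1) (hS.a2.trans (by norm_num)) hS.fl ?_
  · refine mul_le_mul_of_nonneg_left ?_ hy0.le
    exact Real.rpow_le_rpow_of_exponent_ge he0 he1 (by norm_num)
  · intro r hr α hα0 hα1 _
    have hty := hrf n ε τ a' he0 hS.es hτ1 hτ2 hGe a
      (le_trans (by norm_num) hS.a1) (hS.a2.trans (by norm_num)) r hr (hS.fl r hr) j hsE hcx.ns (by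
      rw [Nat.cast_sub h4.le] at h3
      exact h3) α hα0 hα1
    have e1 : (1 - 3 / 20 : ℝ) = 17 / 20 := by norm_num
    rw [e1] at hty
    refine le_trans hty ?_
    have h8 : y ^ (8 : ℝ) = Real.exp (-(8 * Real.log (1 / y))) := by
      rw [Real.rpow_def_of_pos hy0, one_div, Real.log_inv]
      congr 1
      ring
    rw [h8]
    refine Real.exp_le_exp.2 (neg_le_neg ?_)
    have h9 := htp ε he0 hS.es
    have h10 := hS.hv
    linarith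

end

end Vale.Agent.P159.H43
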