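import Vale.Agent.P159.H43.Se1
import Vale.Agent.P159.H801.Plus3
import Vale.Agent.P159.H114.SlD2

/-!
P159 / P# (helper43): **sharp data from the `V` state of the master**, part 3: `SD2` at a state.
-/

set_option linter.unusedSectionVars false

namespace Vale.Agent.P159.H43

open Finset Matrix MeasureTheory Filter Topology
open Vale.Agent.P159.TM.Spec (V)
open Vale.Agent.P159.TM.SpecC (Tor wT)
open Vale.Agent.P159.H889 (Cx SV VSs nu lam Lg)
open Vale.Agent.P159.H813 (xqk)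
open Vale.Agent.P159.H114 (TB TV SD2 aT pS)
open Vale.Agent.P159.H972 (Par tn FL Good lg)
open Vale.Agent.P159.H801 (Ev PS FLC)

noncomputable section

variable {P P' : Par} {b C1 A1 dl c1 : ℝ} {n : ℕ} {ε y : ℝ} {j : ℕ} {ζ : ℂ}

/-- a state of the sharp relation is a locked state -/
lemma st2_of_ss {VS : ℕ → ℝ → ℝ → Prop} {u a : ℕ → ℝ} {c σ2 : ℝ}
    (h : H801.SS P P' b VS u c (1 / 20) σ2 c1 n ε y) (hV : VSs P b C1 A1 dl n ε y j ζ)
    (hFL : FLC P b a) (h1 : 11 / 10 ≤ a n) (h2 : a n ≤ 159 / 100) :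
    St2 P b C1 A1 dl c1 n ε y j ζ (a n) := by
  have hy := h.ms.z0
  have hy1 := h.y1
  have hlo := h.lo
  have hup := h.up
  have hlo' : y ^ (39 / 20 : ℝ) ≤ ε := by
    norm_num at hlo
    exact hlo
  have hε : 0 < ε := (Real.rpow_pos_of_pos hy _).trans_le hlo'
  refine ⟨h.ms.P, h.es, hlo', ?_, h.hv, hV, h1, h2, fun r hr => ?_⟩
  · refine hup.trans ?_
    exact Real.rpow_le_rpow_of_exponent_ge hy hy1 (by norm_num)
  · exact hFL n ε hε h.es h.ms.P ε le_rfl h.es r hr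

/-- **`SD2` at a state** -/
theorem sd2_of {q : ℕ} {μ : Fin (q + 1) → ℝ} {a c : ℝ}
    (hS : St2 P b C1 A1 dl c1 n ε y j ζ a) (hI : SdI P b a n ε y j ζ) (hQ : SdQ P b q ε y)
    (hC1 : 1 ≤ C1) (hc : c ≤ 3 / 10)
    (hext : ∀ r, TB P n ε r → ∀ᶠ τ in 𝓝[>] (0 : ℝ), |pS q μ (2 ^ r / 2 ^ min j r)
      (xqk (2 ^ r) (2 ^ min j r) b (tn n) τ) - H462.aq (2 ^ r) (2 ^ min j r) b (tn n)| ≤
      y ^ (2 + c))
    (htor : ∀ r r', TB P n ε r → TB P n ε r' → |aT b n r j - aT b n r' j| ≤ y ^ (2 + c)) :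
    SD2 P b q μ c C1 (10 / 3 * C1) n ε y j := by
  have hL := hQ.lk
  have hy := hL.y0
  have hy1 := hL.y1
  have he := hL.e0
  have he1 := hL.e1
  have h2n : (0 : ℝ) < 2 ^ n := by positivity
  refine ⟨?_, ?_, fun r hr => hI.lv hQ hc hr.1 (hext r hr), htor⟩
  · have h1 := hS.vs.s2
    have h2 : (ε * y) ^ C1 ≤ y ^ C1 :=
      Real.rpow_le_rpow (by positivity) (mul_le_of_le_one_left hy.le he1) (by linarith)
    have h3 : lam n j ≤ y ^ C1 := h1.trans h2
    unfold H889.lam at h3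
    rw [div_le_iff₀ h2n] at h3
    linarith
  · have h1 := hS.vs.s1
    have h2 : y ^ (10 / 3 * C1) ≤ (ε * y) ^ (9 / 8 * C1) := by
      have h3 : y ^ (59 / 20 : ℝ) ≤ ε * y := by
        calc y ^ (59 / 20 : ℝ) = y ^ (39 / 20 : ℝ) * y ^ (1 : ℝ) := by
              rw [← Real.rpow_add hy]
              norm_num
          _ = y ^ (39 / 20 : ℝ) * y := by rw [Real.rpow_one]
          _ ≤ ε * y := mul_le_mul_of_nonneg_right hS.lo hy.le
      calc y ^ (10 / 3 * C1) ≤ y ^ (59 / 20 * (9 / 8 * C1)) :=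
            Real.rpow_le_rpow_of_exponent_ge hy hy1 (by linarith)
        _ = (y ^ (59 / 20 : ℝ)) ^ (9 / 8 * C1) := by rw [← Real.rpow_mul hy.le]
        _ ≤ (ε * y) ^ (9 / 8 * C1) := Real.rpow_le_rpow (by positivity) h3 (by linarith)
    have h3 : y ^ (10 / 3 * C1) ≤ lam n j := h2.trans h1
    unfold H889.lam at h3
    rw [le_div_iff₀ h2n] at h3
    linarith

end

end Vale.Agent.P159.H43
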