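import Vale.Agent.P159.H43.Num2
import Vale.Agent.P159.H552.In5b

/-!
P159 (helper43), module YCAN: the canonical activity. `W₁(F) = Σ_x u_x(F)` (cells, exact),
`W₁(0) = (number of cells) u_x(0)`, real; `om_1 = (number of cells) u_x(0) + e₁`.
-/

open MeasureTheory Complex Set
open scoped ComplexConjugate
open Vale.Agent.P159.H896 (ph continuous_ph norm_ph WM om Ph norm_Ph_le Ph_zero om_nonneg)
open Vale.Agent.P159.TM.H104 (EM Ex Gr li T)
open Vale.Agent.P159.H37
open Vale.Agent.P159.H145 (LM L0 cs OscZ)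
open Vale.Agent.P159.H552 (uq lft idc)

namespace Vale.Agent.P159.H43

noncomputable section

section letters

variable {V : Type} [Fintype V] [DecidableEq V] {w : (V → ℤ) → ℝ} {M : Matrix V V ℝ}

/-! ### linearity in the direction -/

omit [DecidableEq V] in
lemma dL_add_dir (hM : M.transpose = M) (hE : EM (wM w M)) (F g g' : V → ℝ) :
    dL w M F (g + g') = dL w M F g + dL w M F g' := by
  unfold dL
  have h1 : li (M.mulVec (g + g')) = fun h => li (M.mulVec g) h + li (M.mulVec g') h := by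
    funext h
    rw [Matrix.mulVec_add]
    simp only [li, Pi.add_apply, add_mul, Finset.sum_add_distrib]
  rw [h1, TM.H104.Ex_add hE (Gr.li _) (Gr.li _)]
  have h2 : bf M F (g + g') = bf M F g + bf M F g' := by
    rw [bf_comm hM, bf_add_left, bf_comm hM g, bf_comm hM g']
  rw [h2]
  ring

omit [DecidableEq V] in
lemma dL_zero_dir (F : V → ℝ) : dL w M F 0 = 0 := by
  unfold dL
  have h1 : li (M.mulVec (0 : V → ℝ)) = fun _ : V → ℤ => (0 : ℝ) := by
    funext h
    simp [li]
  have h2 : bf M F 0 = 0 := by simp [bf]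
  rw [h1, h2]
  unfold Ex TM.H104.T
  simp

omit [DecidableEq V] in
lemma dL_sum_dir (hM : M.transpose = M) (hE : EM (wM w M)) {ι : Type*} (s : Finset ι)
    (g : ι → V → ℝ) (F : V → ℝ) : dL w M F (∑ i ∈ s, g i) = ∑ i ∈ s, dL w M F (g i) := by
  classical
  induction s using Finset.induction_on with
  | empty => simp [dL_zero_dir]
  | insert i s hi ih => rw [Finset.sum_insert hi, Finset.sum_insert hi, dL_add_dir hM hE, ih]

omit [DecidableEq V] in
theorem dW_sum_dir (hM : M.transpose = M) (hE : EM (wM w M)) {ι : Type*} (s : Finset ι)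
    (g : ι → V → ℝ) (q : ℤ) (F : V → ℝ) :
    dW w M q F (∑ i ∈ s, g i) = ∑ i ∈ s, dW w M q F (g i) := by
  unfold dW
  have c1 := continuous_ph q
  have c2 : ∀ i, Continuous fun c : ℝ => dL w M (cs F c) (g i) := fun i =>
    (continuous_dL hE (g i)).comp (H145.continuous_cs F)
  rw [← intervalIntegral.integral_finsetSum]
  · refine intervalIntegral.integral_congr fun c _ => ?_
    show (dL w M (cs F c) (∑ i ∈ s, g i) : ℂ) * ph q c = ∑ i ∈ s, (dL w M (cs F c) (g i) : ℂ) * ph q c
    rw [dL_sum_dir hM hE]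
    push_cast
    rw [Finset.sum_mul]
  · intro i _
    have := c2 i
    exact Continuous.intervalIntegrable (by fun_prop) _ _

omit [DecidableEq V] in
/-- **Euler identity**: `D_1 W_q = 2πi q W_q` -/
theorem dW_one (h : WM w M) (q : ℤ) (F : V → ℝ) :
    dW w M q F 1 = (2 * Real.pi * q * I) * Wq w M q F := by
  have hd : ∀ c, HasDerivAt (fun c => LM w M (cs F c)) (dL w M (cs F c) 1) c := by
    intro c
    have h1 := hasDerivAt_LM h.sym h.em F 1 c
    have e : (fun r : ℝ => LM w M (F + r • (1 : V → ℝ))) = fun r => LM w M (cs F r) := by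
      funext r; rw [cs_one_smul]
    rwa [e, ← cs_one_smul] at h1
  have hc : Continuous fun c => dL w M (cs F c) 1 :=
    (continuous_dL h.em 1).comp (H145.continuous_cs F)
  have hp : (fun c => LM w M (cs F c)) 1 = (fun c => LM w M (cs F c)) 0 := by
    show LM w M (cs F 1) = LM w M (cs F 0)
    unfold LM
    rw [H145.ZM_per h.per, H145.cs_zero]
  exact hat_deriv hd hc hp q

/-! ### symmetries -/

omit [DecidableEq V] in
/-- `Z_M` under a symmetry of the weight and the mass form -/
theorem ZM_sym (e : V ≃ V) (hw : ∀ h : V → ℤ, w (fun v => h (e v)) = w h)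
    (hM : ∀ x y, M (e x) (e y) = M x y) (F : V → ℝ) :
    ZM w M (fun v => F (e v)) = ZM w M F := by
  unfold ZM
  have h1 := (Equiv.arrowCongr e.symm (Equiv.refl ℤ)).tsum_eq
    (fun h : V → ℤ => w h * Real.exp (-(qf M (H37.re h - fun v => F (e v)) / 2)))
  rw [← h1]
  refine tsum_congr fun h => ?_
  have h2 : (Equiv.arrowCongr e.symm (Equiv.refl ℤ)) h = fun v => h (e v) := by
    funext v
    simp [Equiv.arrowCongr]
  rw [h2, hw]
  congr 3
  have h3 : (H37.re (fun v => h (e v)) - fun v => F (e v)) = fun v => (H37.re h - F) (e v) := by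
    funext v
    simp [H37.re]
  rw [h3]
  unfold qf
  have h4 : ∀ u : V → ℝ, ∑ x, ∑ y, u (e x) * M x y * u (e y) = ∑ x, ∑ y, u x * M x y * u y := by
    intro u
    rw [← Equiv.sum_comp e (fun x => ∑ y, u x * M x y * u y)]
    refine Finset.sum_congr rfl fun x _ => ?_
    rw [← Equiv.sum_comp e (fun y => u (e x) * M (e x) y * u y)]
    refine Finset.sum_congr rfl fun y _ => ?_
    rw [hM]
  rw [h4]

omit [DecidableEq V] in
theorem dL_sym (h : WM w M) (e : V ≃ V) (hw : ∀ h : V → ℤ, w (fun v => h (e v)) = w h)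
    (hM : ∀ x y, M (e x) (e y) = M x y) (F g : V → ℝ) :
    dL w M (fun v => F (e v)) (fun v => g (e v)) = dL w M F g := by
  have h1 := hasDerivAt_LM h.sym h.em F g 0
  have h2 := hasDerivAt_LM h.sym h.em (fun v => F (e v)) (fun v => g (e v)) 0
  simp only [zero_smul, add_zero] at h1 h2
  have h3 : (fun r : ℝ => LM w M ((fun v => F (e v)) + r • fun v => g (e v))) =
      fun r : ℝ => LM w M (F + r • g) := by
    funext r
    unfold LM
    congr 1
    exact ZM_sym e hw hM (F + r • g)
  rw [h3] at h2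
  exact h2.unique h1

omit [DecidableEq V] in
theorem dW_sym (h : WM w M) (e : V ≃ V) (hw : ∀ h : V → ℤ, w (fun v => h (e v)) = w h)
    (hM : ∀ x y, M (e x) (e y) = M x y) (q : ℤ) (F g : V → ℝ) :
    dW w M q (fun v => F (e v)) (fun v => g (e v)) = dW w M q F g := by
  unfold dW
  refine intervalIntegral.integral_congr fun c _ => ?_
  show (dL w M (cs (fun v => F (e v)) c) (fun v => g (e v)) : ℂ) * ph q c =
    (dL w M (cs F c) g : ℂ) * ph q c
  have h1 := dL_sym h e hw hM (cs F c) g
  have h2 : cs (fun v => F (e v)) c = fun v => cs F c (e v) := rfl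
  rw [h2, h1]

omit [DecidableEq V] in
lemma Wq_neg (q : ℤ) (F : V → ℝ) : Wq w M (-q) F = conj (Wq w M q F) :=
  hat_neg (fun c => LM w M (cs F c)) q

omit [DecidableEq V] in
/-- `W_q(0)` is real -/
theorem Wq_zero_im (h : WM w M) (q : ℤ) : (Wq w M q 0).im = 0 := by
  have h1 : Wq w M (-q) 0 = Wq w M q 0 := by
    set f : ℝ → ℂ := fun c => (LM w M (cs 0 c) : ℂ) * ph q c with hf
    have hev : ∀ c : ℝ, LM w M (cs 0 (-c)) = LM w M (cs (0 : V → ℝ) c) := by
      intro c
      unfold LM
      congr 1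
      have h2 : cs (0 : V → ℝ) (-c) = -cs 0 c := by
        funext v
        simp [cs]
      rw [h2]
      unfold ZM
      rw [← (Equiv.neg (V → ℤ)).tsum_eq]
      refine tsum_congr fun k => ?_
      simp only [Equiv.neg_apply]
      rw [h.ev]
      congr 3
      have h3 : H37.re (-k) - -cs (0 : V → ℝ) c = -(H37.re k - cs 0 c) := by
        funext v
        simp [H37.re]
        ring
      have h4 : ∀ u : V → ℝ, qf M (-u) = qf M u := by
        intro u
        unfold qf
        refine Finset.sum_congr rfl fun x _ => Finset.sum_congr rfl fun y _ => ?_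
        simp only [Pi.neg_apply]
        ring
      rw [h3, h4]
    have hper : Function.Periodic f 1 := by
      intro c
      show (LM w M (cs 0 (c + 1)) : ℂ) * ph q (c + 1) = (LM w M (cs 0 c) : ℂ) * ph q c
      have h4 : LM w M (cs 0 (c + 1)) = LM w M (cs 0 c) := LM_periodic h.per (0 : V → ℝ) c
      rw [h4, H896.ph_per]
    have h5 : Wq w M (-q) 0 = ∫ c in (0 : ℝ)..1, f (-c) := by
      unfold Wq
      refine intervalIntegral.integral_congr fun c _ => ?_
      show (LM w M (cs 0 c) : ℂ) * ph (-q) c = (LM w M (cs 0 (-c)) : ℂ) * ph q (-c)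
      rw [hev]
      unfold ph
      push_cast
      congr 2
      ring
    rw [h5, intervalIntegral.integral_comp_neg]
    have h6 := hper.intervalIntegral_add_eq (-1) 0
    simp only [neg_add_cancel, zero_add] at h6
    rw [neg_zero]
    exact h6
  rw [Wq_neg] at h1
  exact Complex.conj_eq_iff_im.1 h1

/-! ### cells -/

variable {Λ : Type} [Fintype Λ] [DecidableEq Λ] {cl : V → Λ}

omit [Fintype V] [DecidableEq V] in
lemma sum_idc : ∑ x, idc cl x = (1 : V → ℝ) := by
  funext v
  rw [Finset.sum_apply]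
  unfold idc
  simp

omit [DecidableEq V] in
/-- **the cell densities sum up to `W₁`, exactly, in every background** -/
theorem sum_uq (h : WM w M) (F : Λ → ℝ) : ∑ x, uq w M cl x F = Wq w M 1 (lft cl F) := by
  unfold uq
  rw [← Finset.mul_sum, ← dW_sum_dir h.sym h.em, sum_idc, dW_one h, ← mul_assoc]
  have h0 : (2 * Real.pi * I : ℂ) ≠ 0 := by simp [Real.pi_ne_zero, I_ne_zero]
  have h1 : (2 * Real.pi * I : ℂ)⁻¹ * (2 * Real.pi * (1 : ℤ) * I) = 1 := by
    push_cast
    rw [mul_one]
    exact inv_mul_cancel₀ h0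
  rw [h1, one_mul]

omit [DecidableEq V] [Fintype Λ] in
/-- covariance of the densities -/
theorem uq_sym (h : WM w M) (e : V ≃ V) (e' : Λ ≃ Λ) (hcl : ∀ v, cl (e v) = e' (cl v))
    (hw : ∀ h : V → ℤ, w (fun v => h (e v)) = w h) (hM : ∀ x y, M (e x) (e y) = M x y)
    (x : Λ) (F : Λ → ℝ) : uq w M cl (e' x) F = uq w M cl x fun y => F (e' y) := by
  unfold uq
  congr 1
  have h1 := dW_sym h e hw hM 1 (lft cl F) (idc cl (e' x))
  have h2 : (fun v => lft cl F (e v)) = lft cl fun y => F (e' y) := by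
    funext v
    simp only [lft, hcl]
  have h3 : (fun v => idc cl (e' x) (e v)) = idc cl x := by
    funext v
    simp only [idc, hcl, EmbeddingLike.apply_eq_iff_eq]
  rw [h2, h3] at h1
  exact h1.symm

omit [DecidableEq V] in
/-- **`W₁(0) = (number of cells) u_x(0)`** -/
theorem W1_zero (h : WM w M)
    (hs : ∀ x y : Λ, ∃ (e : V ≃ V) (e' : Λ ≃ Λ), e' x = y ∧ (∀ v, cl (e v) = e' (cl v)) ∧
      (∀ h : V → ℤ, w (fun v => h (e v)) = w h) ∧ ∀ x y, M (e x) (e y) = M x y) (x : Λ) :
    Wq w M 1 0 = (Fintype.card Λ : ℂ) * uq w M cl x 0 := by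
  have h1 := sum_uq (cl := cl) h 0
  have h2 : lft cl (0 : Λ → ℝ) = (0 : V → ℝ) := rfl
  rw [h2] at h1
  rw [← h1]
  have h3 : ∀ y : Λ, uq w M cl y 0 = uq w M cl x 0 := by
    intro y
    obtain ⟨e, e', h4, h5, h6, h7⟩ := hs x y
    rw [← h4]
    exact uq_sym h e e' h5 h6 h7 x 0
  rw [Finset.sum_congr rfl fun y _ => h3 y, Finset.sum_const, Finset.card_univ, nsmul_eq_mul]

omit [DecidableEq V] in
/-- **the activity is extensive**: `|om_1 - (number of cells) Re u_x(0)| ≤ 2 omT ch2(0) + 24 omT³` -/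
theorem om1_uq (h : WM w M) (h1 : omT w M ≤ 1 / 2)
    (hs : ∀ x y : Λ, ∃ (e : V ≃ V) (e' : Λ ≃ Λ), e' x = y ∧ (∀ v, cl (e v) = e' (cl v)) ∧
      (∀ h : V → ℤ, w (fun v => h (e v)) = w h) ∧ ∀ x y, M (e x) (e y) = M x y) (x : Λ) :
    |om w M 1 - Fintype.card Λ * (uq w M cl x 0).re| ≤
      2 * omT w M * ch2 w M 0 + 24 * omT w M ^ 3 := by
  have h2 := e1_le h h1 0
  rw [W1_zero h hs x, Phq_zero h] at h2
  refine le_trans ?_ h2
  have h3 := Complex.abs_re_le_norm
    ((om w M 1 : ℂ) - (Fintype.card Λ : ℂ) * uq w M cl x 0)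
  refine le_trans (le_of_eq ?_) h3
  congr 1
  simp

end letters

end

end Vale.Agent.P159.H43
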